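import Vale.Agent.P014Z.An

/-!
# P014Z: definitions and statements, algebraic half
-/

open WeierstrassCurve NumberField
open scoped Classical
open Vale.Agent.P014

noncomputable section

namespace Vale.Agent.P014Z

/-- the algebraic closure of `ℚ` -/
abbrev Qb : Type := AlgebraicClosure ℚ

/-- the algebraic closure of `ℚ_p` (`PadicAlgCl p`, normed) -/
abbrev Qp (p : ℕ) [Fact p.Prime] : Type := AlgebraicClosure ℚ_[p]

/-- the absolute Galois group of `ℚ_p` -/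
abbrev Gp (p : ℕ) [Fact p.Prime] : Type := Qp p ≃ₐ[ℚ_[p]] Qp p

/-- the curve `11a1` -/
def E0 : WeierstrassCurve ℚ := ⟨0, -1, 1, -10, -20⟩

/-- `τ` is in the inertia group -/
def Ine {p : ℕ} [Fact p.Prime] (τ : Gp p) : Prop := ∀ x : Qp p, ‖x‖ ≤ 1 → ‖τ x - x‖ < 1

/-- `σ` is the restriction of `τ` -/
def Res {p : ℕ} [Fact p.Prime] (ι : Qb →ₐ[ℚ] Qp p) (τ : Gp p) (σ : GQ) : Prop :=
  ∀ x, ι (σ x) = τ (ι x)

/-- `f` is constant near the identity -/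
def Fin0 {X : Type} (f : GQ → X) (x0 : X) : Prop :=
  ∃ A : Finset Qb, ∀ σ : GQ, (∀ a ∈ A, σ a = a) → f σ = x0

/-- the kernel of reduction -/
def E1 {E : WeierstrassCurve ℚ} {p : ℕ} [Fact p.Prime] : (E⁄(Qp p)).toAffine.Point → Prop
  | 0 => True
  | .some x _ _ => 1 < ‖x‖

/-- the quadratic character of the Galois group -/
def eps (s : Qb) (σ : GQ) : ℤ := if σ s = s then 1 else -1

/-- global points to local points -/
abbrev up (E : WeierstrassCurve ℚ) {p : ℕ} [Fact p.Prime] (ι : Qb →ₐ[ℚ] Qp p) :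
    Pbar E →+ (E⁄(Qp p)).toAffine.Point := Affine.Point.map (W' := E) ι

/-- the action of the local Galois group -/
abbrev ap (E : WeierstrassCurve ℚ) {p : ℕ} [Fact p.Prime] (τ : Gp p) :
    (E⁄(Qp p)).toAffine.Point →+ (E⁄(Qp p)).toAffine.Point :=
  Affine.Point.map (W' := E) (τ : Qp p →ₐ[ℚ_[p]] Qp p)

/-- the `n`-Selmer group of `E` vanishes (without the condition at the real place) -/
def Sel0 (E : WeierstrassCurve ℚ) (n : ℕ) : Prop := ∀ c : GQ → Pbar E, (∀ σ, n • c σ = 0) →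
  (∀ σ τ, c (σ * τ) = c σ + act E σ (c τ)) → Fin0 c 0 →
  (∀ (p : ℕ) [Fact p.Prime], LocallyTrivial E ℚ_[p] c) →
  ∃ R : Pbar E, n • R = 0 ∧ ∀ σ, c σ = act E σ R - R

/-! ### curves -/

/-- **VC**: a change of variables gives an isomorphism of the groups of points -/
def VC : Prop := ∀ (F : Type) [Field F] [DecidableEq F] (W W' : WeierstrassCurve F)
  (C : VariableChange F), C • W = W' → ∃ θ : W'.toAffine.Point ≃+ W.toAffine.Point,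
    ∀ x y h, ∃ h', θ (.some x y h) =
      .some ((C.u : F) ^ 2 * x + C.r) ((C.u : F) ^ 3 * y + (C.u : F) ^ 2 * C.s * x + C.t) h'

/-- **TWI**: the twist is isomorphic to `11a1` over every field which contains `√D` -/
def TWI : Prop := ∀ D : ℤ, D ≠ 0 →
  ∃ θ : ∀ (F : Type) [Field F] [Algebra ℚ F] (s : F), s ^ 2 = D →
      (((tw11 D)⁄F).toAffine.Point ≃+ (E0⁄F).toAffine.Point),
    ∀ (S F F' : Type) [CommRing S] [Field F] [Field F'] [Algebra ℚ S] [Algebra ℚ F] [Algebra S F]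
      [IsScalarTower ℚ S F] [Algebra ℚ F'] [Algebra S F'] [IsScalarTower ℚ S F'] (f : F →ₐ[S] F')
      (s : F) (hs : s ^ 2 = D) (s' : F') (hs' : s' ^ 2 = D) (P : ((tw11 D)⁄F).toAffine.Point),
      (f s = s' → θ F' s' hs' (Affine.Point.map (W' := tw11 D) f P) =
        Affine.Point.map (W' := E0) f (θ F s hs P)) ∧
      (f s = -s' → θ F' s' hs' (Affine.Point.map (W' := tw11 D) f P) =
        -Affine.Point.map (W' := E0) f (θ F s hs P))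

/-- **DIV**: the group of algebraic points is divisible -/
def DIV : Prop := ∀ E : WeierstrassCurve ℚ, E.Δ ≠ 0 → ∀ n : ℕ, 0 < n → ∀ P : Pbar E,
  ∃ Q : Pbar E, n • Q = P

/-- **GD**: Galois descent for points -/
def GD : Prop := ∀ E : WeierstrassCurve ℚ, ∃ j : E.toAffine.Point →+ Pbar E,
  Function.Injective j ∧ ∀ P, (∀ σ, act E σ P = P) ↔ ∃ Q, j Q = P

/-- **P5**: the fifth division polynomial of `11a1` -/
def P5 : Prop := ∀ (F : Type) [Field F] [Algebra ℚ F] (x y : F) (h : (E0⁄F).toAffine.Nonsingular x y),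
  5 • (Affine.Point.some x y h) = 0 → (x - 5) * (x - 16) * (5 * x ^ 2 + 5 * x - 29) *
    (x ^ 4 + x ^ 3 + 11 * x ^ 2 + 41 * x + 101) *
    (x ^ 4 + 15 * x ^ 3 + 120 * x ^ 2 + 200 * x + 155) = 0

/-- **T5**: the five-torsion of `11a1` is `ℤ/5 × μ_5` -/
def T5 : Prop := ∀ ζ : Qb, IsPrimitiveRoot ζ 5 → ∃ T S : Pbar E0, 5 • T = 0 ∧ 5 • S = 0 ∧
  (∀ P : Pbar E0, 5 • P = 0 → ∃ a b : ℤ, P = a • T + b • S) ∧
  (∀ a b : ℤ, a • T + b • S = 0 → 5 ∣ a ∧ 5 ∣ b) ∧ (∀ σ, act E0 σ T = T) ∧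
  (∀ (σ : GQ) (k : ℕ), σ ζ = ζ ^ k → act E0 σ S = k • S) ∧
  ∀ (p : ℕ) [Fact p.Prime] (ι : Qb →ₐ[ℚ] Qp p) (a b : ℤ), E1 (up E0 ι (a • T + b • S)) →
    5 ∣ a ∧ (p ≠ 5 → 5 ∣ b)

/-- **RED**: inertia acts trivially on the reduction -/
def RED : Prop := ∀ (p : ℕ) [Fact p.Prime], p ≠ 11 → ∀ τ : Gp p, Ine τ →
  ∀ P : (E0⁄(Qp p)).toAffine.Point, E1 (ap E0 τ P - P)

/-! ### fields -/

/-- **ISO** -/
def ISO : Prop := ∀ (p : ℕ) [Fact p.Prime] (τ : Gp p) (x : Qp p), ‖τ x‖ = ‖x‖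

/-- **RES** -/
def RES : Prop := ∀ (p : ℕ) [Fact p.Prime] (ι : Qb →ₐ[ℚ] Qp p) (τ : Gp p), ∃ σ, Res ι τ σ

/-- **NS**: `5` and `11` do not split -/
def NS : Prop := ∀ m : ℕ, Ok m → ∀ (p : ℕ) [Fact p.Prime], p = 5 ∨ p = 11 → ∀ s : Qp p,
  s ^ 2 = -(m : Qp p) → ∃ τ : Gp p, τ s = -s

/-- **VAL**: the value group of the field fixed by inertia -/
def VAL : Prop := ∀ (p : ℕ) [Fact p.Prime] (m : ℕ) (s : Qp p), s ^ 2 = -(m : Qp p) →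
  ∀ y : Qp p, y ≠ 0 → (∀ τ : Gp p, Ine τ → τ s = s → τ y = y) → ∃ k : ℤ, ‖y‖ ^ 2 = (p : ℝ) ^ k

/-- **H90**: Hilbert's theorem 90 for the stabilizer of `s` -/
def H90 : Prop := ∀ (k Ω : Type) [Field k] [Field Ω] [Algebra k Ω] [IsGalois k Ω] (s : Ω)
  (u : (Ω ≃ₐ[k] Ω) → Ω), (∀ σ, u σ ^ 5 = 1) →
  (∀ σ τ, σ s = s → τ s = s → u (σ * τ) = u σ * σ (u τ)) →
  (∃ A : Finset Ω, ∀ σ, σ s = s → (∀ a ∈ A, σ a = a) → u σ = 1) →
  ∃ x : Ω, x ≠ 0 ∧ ∀ σ, σ s = s → σ x = u σ * x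

/-- **PLC**: every prime ideal comes from an embedding -/
def PLC : Prop := ∀ (F : Type) [Field F] [NumberField F] (j : F →ₐ[ℚ] Qb) (P : Ideal (𝓞 F)),
  P.IsMaximal → ∃ (p : ℕ) (_ : Fact p.Prime) (ι : Qb →ₐ[ℚ] Qp p),
    ∀ x : 𝓞 F, x ∈ P ↔ ‖ι (j x)‖ < 1

/-- **FXK**: the quadratic field is the fixed field of the stabilizer of `s` -/
def FXK : Prop := ∀ (m : ℕ) (K : Type) [Field K] [NumberField K], 0 < m → Qf m K → ∀ s : Qb,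
  s ^ 2 = -(m : Qb) → ∃ j : K →ₐ[ℚ] Qb, ∀ y, (∀ σ : GQ, σ s = s → σ y = y) ↔ ∃ x, j x = y

/-- **FIF**: fifth powers in the quadratic field -/
def FIF : Prop := ∀ (m : ℕ) (K : Type) [Field K] [NumberField K], 0 < m → Qf m K →
  ∀ (j : K →ₐ[ℚ] Qb) (a : K), a ≠ 0 →
    (∀ (p : ℕ) [Fact p.Prime] (ι : Qb →ₐ[ℚ] Qp p), ∃ k : ℤ, ‖ι (j a)‖ ^ 2 = (p : ℝ) ^ (5 * k)) →
    ∃ b : K, a = b ^ 5

/-- **KUM**: the `μ_5` part -/
def KUM : Prop := ∀ (m : ℕ) (K : Type) [Field K] [NumberField K], Ok m → Qf m K → ∀ s : Qb,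
  s ^ 2 = -(m : Qb) → ∀ u : GQ → Qb, (∀ σ, u σ ^ 5 = 1) → Fin0 u 1 →
  (∀ σ τ : GQ, σ s = s → u (σ * τ) = u σ * σ (u τ)) →
  (∀ σ τ : GQ, σ s ≠ s → u (σ * τ) * σ (u τ) = u σ) →
  (∀ (p : ℕ) [Fact p.Prime], p ≠ 5 → p ≠ 11 → ∀ (ι : Qb →ₐ[ℚ] Qp p) (τ : Gp p) (σ : GQ),
    Res ι τ σ → Ine τ → σ s = s → u σ = 1) →
  ∃ η : Qb, η ^ 5 = 1 ∧ ∀ σ : GQ, σ s = s → σ η = u σ * η

/-- **U11**: the `ℤ/5` part is unramified at eleven -/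
def U11 : Prop := ∀ m : ℕ, Ok m → ∀ s : Qb, s ^ 2 = -(m : Qb) → ∀ α : GQ → ZMod 5, Fin0 α 0 →
  (∀ σ τ : GQ, α (σ * τ) = α σ + eps s σ * α τ) →
  ∀ (p : ℕ) [Fact p.Prime], p = 11 → ∀ (ι : Qb →ₐ[ℚ] Qp p) (τ : Gp p) (σ : GQ),
    Res ι τ σ → Ine τ → σ s = s → α σ = 0

/-- **UNG**: no unramified extension of degree five -/
def UNG : Prop := ∀ (m : ℕ) (K : Type) [Field K] [NumberField K], 0 < m → Qf m K → ∀ s : Qb,
  s ^ 2 = -(m : Qb) → ∀ α : GQ → ZMod 5, Fin0 α 0 →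
  (∀ σ τ : GQ, σ s = s → τ s = s → α (σ * τ) = α σ + α τ) →
  (∀ (p : ℕ) [Fact p.Prime] (ι : Qb →ₐ[ℚ] Qp p) (τ : Gp p) (σ : GQ),
    Res ι τ σ → Ine τ → σ s = s → α σ = 0) →
  ∀ σ : GQ, σ s = s → α σ = 0

/-! ### descent -/

/-- **SEL**: the twisted Selmer group of `11a1` vanishes -/
def SEL : Prop := ∀ (m : ℕ) (K : Type) [Field K] [NumberField K], Ok m → Qf m K → ∀ s : Qb,
  s ^ 2 = -(m : Qb) → ∀ c : GQ → Pbar E0, (∀ σ, 5 • c σ = 0) →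
  (∀ σ τ, c (σ * τ) = c σ + eps s σ • act E0 σ (c τ)) → Fin0 c 0 →
  (∀ (p : ℕ) [Fact p.Prime] (ι : Qb →ₐ[ℚ] Qp p), ∃ P : (E0⁄(Qp p)).toAffine.Point,
    ∀ (τ : Gp p) (σ : GQ), Res ι τ σ → σ s = s → up E0 ι (c σ) = ap E0 τ P - P) →
  ∃ R : Pbar E0, 5 • R = 0 ∧ ∀ σ, c σ = eps s σ • act E0 σ R - R

/-- **SELD** -/
def SELD : Prop := ∀ (m : ℕ) (K : Type) [Field K] [NumberField K], Ok m → Qf m K →
  Sel0 (tw11 (-m)) 5

/-- **SHA**: consequences of the vanishing of the Selmer group -/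
def SHA : Prop := ∀ E : WeierstrassCurve ℚ, E.Δ ≠ 0 → ∀ p : ℕ, p.Prime → Sel0 E p →
  Nat.card (shaPrimary E p) = 1 ∧ ∀ P : E.toAffine.Point, ∃ Q, p • Q = P

/-- **FIN**: a divisible Mordell-Weil group is finite -/
def FIN : Prop := ∀ E : WeierstrassCurve ℚ, E.Δ ≠ 0 → ∀ p : ℕ, p.Prime →
  (∀ P : E.toAffine.Point, ∃ Q, p • Q = P) → Finite E.toAffine.Point ∧ ¬ p ∣ torsionOrder E

/-! ### Tamagawa numbers -/

/-- **TAM0**: good primes, and the nonsplit multiplicative prime -/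
def TAM0 : Prop := ∀ m : ℕ, Ok m → ∀ (p : ℕ) [Fact p.Prime], ¬ p ∣ m → tamagawa (tw11 (-m)) p = 1

/-- **TAM1**: additive primes -/
def TAM1 : Prop := ∀ m : ℕ, Ok m → ∀ (p : ℕ) [Fact p.Prime], p ∣ m →
  ¬ 5 ∣ tamagawa (tw11 (-m)) p

end Vale.Agent.P014Z
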