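import Vale.Agent.P014Z.An

/-!
# P014Z: the twisted Eisenstein series at the cusp zero
-/

open Complex Filter Topology
open scoped Real ArithmeticFunction.sigma

noncomputable section

namespace Vale.Agent.P014Z

namespace Abe

theorem sm_bd {A D : ℕ → ℂ} {K : ℝ} (hA : ∀ d, ‖A d‖ ≤ K) (hD : Summable D) :
    Summable fun d => A d * D d :=
  .of_norm_bounded (hD.norm.mul_left K) fun d => by
    rw [norm_mul]
    exact mul_le_mul_of_nonneg_right (hA d) (norm_nonneg _)

theorem sm_sh {D : ℕ → ℂ} (hD : Summable D) : Summable fun d => D (d + 1) :=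
  (summable_nat_add_iff 1).2 hD

/-- summation by parts -/
theorem abel {a A D : ℕ → ℂ} {K : ℝ} (hA : ∀ d, ‖A d‖ ≤ K) (h : ∀ d, A (d + 1) = A d + a d)
    (hD : Summable D) :
    ∑' d, a d * D d = -(A 0 * D 0) + ∑' d, A (d + 1) * (D d - D (d + 1)) := by
  have h1 := sm_bd hA hD
  have h2 := sm_bd (fun d => hA (d + 1)) hD
  have h3 := sm_bd (fun d => hA (d + 1)) (sm_sh hD)
  have e1 : ∑' d, a d * D d = ∑' d, A (d + 1) * D d - ∑' d, A d * D d := by
    rw [← h2.tsum_sub h1]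
    exact tsum_congr fun d => by rw [h d]; ring
  have e2 : ∑' d, A (d + 1) * (D d - D (d + 1)) =
      ∑' d, A (d + 1) * D d - ∑' d, A (d + 1) * D (d + 1) := by
    rw [← h2.tsum_sub h3]
    exact tsum_congr fun d => by ring
  rw [e1, e2, h1.tsum_eq_zero_add]
  ring

theorem per_bd {f : ℕ → ℂ} {m : ℕ} (hm : 0 < m) (h : Function.Periodic f m) (d : ℕ) :
    ‖f d‖ ≤ ∑ j ∈ Finset.range m, ‖f j‖ := by
  rw [← h.map_mod_nat d]
  exact Finset.single_le_sum (f := fun j => ‖f j‖) (fun _ _ => norm_nonneg _)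
    (Finset.mem_range.2 (Nat.mod_lt _ hm))

theorem per_sum {f : ℕ → ℂ} {m : ℕ} (h : Function.Periodic f m)
    (h0 : ∑ j ∈ Finset.range m, f j = 0) :
    Function.Periodic (fun d => ∑ j ∈ Finset.range d, f j) m := fun d => by
  simp only
  rw [add_comm, Finset.sum_range_add, h0, zero_add]
  exact Finset.sum_congr rfl fun j _ => by rw [add_comm, h j]

theorem sum_sum (f : ℕ → ℂ) (m : ℕ) : ∑ j ∈ Finset.range m, ∑ i ∈ Finset.range (j + 1), f i =
    ∑ i ∈ Finset.range m, f i * (m - i) := by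
  induction m with
  | zero => simp
  | succ m ih =>
    rw [Finset.sum_range_succ, ih, Finset.sum_range_succ, Finset.sum_range_succ, ← add_assoc,
      ← Finset.sum_add_distrib]
    push_cast
    exact congrArg₂ (· + ·) (Finset.sum_congr rfl fun i _ => by ring) (by ring)

/-- twisted sums -/
theorem twist {a : ℕ → ℂ} {m : ℕ} (hm : 0 < m) (h : Function.Periodic a m)
    (h0 : ∑ j ∈ Finset.range m, a j = 0) : ∃ K : ℝ, 0 ≤ K ∧ ∀ D : ℕ → ℂ, ∀ C q : ℝ, 0 ≤ q → q < 1 →
      Summable D → (∀ d, ‖D d - D (d + 1) - (D (d + 1) - D (d + 1 + 1))‖ ≤ C * q ^ d) →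
      ‖∑' d, a d * D d + (∑ j ∈ Finset.range m, a j * j) / m * D 0‖ ≤ K * C * (1 - q)⁻¹ := by
  set c : ℂ := (∑ j ∈ Finset.range m, a j * j) / m with hc
  have hm' : (m : ℂ) ≠ 0 := Nat.cast_ne_zero.2 hm.ne'
  let A : ℕ → ℂ := fun d => ∑ j ∈ Finset.range d, a j + c
  have pA : Function.Periodic A m := fun d => congrArg (· + c) (per_sum h h0 d)
  have pA' : Function.Periodic (fun d => A (d + 1)) m := fun d => by
    simp only
    rw [add_right_comm, pA]
  have sA : ∑ j ∈ Finset.range m, A (j + 1) = 0 := by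
    simp only [A, Finset.sum_add_distrib, sum_sum, mul_sub, Finset.sum_sub_distrib,
      ← Finset.sum_mul, h0, Finset.sum_const, Finset.card_range, nsmul_eq_mul, hc]
    field_simp
    ring
  let B : ℕ → ℂ := fun d => ∑ j ∈ Finset.range d, A (j + 1)
  have bB := per_bd hm (per_sum pA' sA)
  refine ⟨_, (norm_nonneg _).trans (bB 0), fun D C q q0 q1 hD hb => ?_⟩
  rw [abel (per_bd hm pA) (fun d => by simp only [A, Finset.sum_range_succ]; ring) hD,
    abel (A := B) (D := fun d => D d - D (d + 1)) bB (fun d => Finset.sum_range_succ _ _)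
      (hD.sub (sm_sh hD))]
  simp only [A, B, Finset.range_zero, Finset.sum_empty, zero_add, zero_mul, neg_zero,
    neg_add_cancel_comm]
  refine tsum_of_norm_bounded ((hasSum_geometric_of_lt_one q0 q1).mul_left _) fun d => ?_
  rw [norm_mul, mul_assoc]
  exact mul_le_mul (bB _) (hb d) (norm_nonneg _) ((norm_nonneg _).trans (bB 0))

/-- second differences of the logarithm -/
theorem dif {ω : ℂ} (h1 : ‖ω‖ = 1) (h : ω.re < 1) : ∃ C : ℝ, ∀ q x : ℝ, 0 ≤ q → q ≤ 1 → 0 ≤ x →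
    x ≤ 1 → ‖log (1 - ω * x) - log (1 - ω * (q * x : ℝ)) -
      (log (1 - ω * (q * x : ℝ)) - log (1 - ω * (q * (q * x) : ℝ)))‖ ≤ C * (1 - q) ^ 2 * x := by
  set c := min 1 (1 - ω.re) with hc
  have c0 : 0 < c := lt_min one_pos (sub_pos.2 h)
  have lb : ∀ x : ℝ, 0 ≤ x → x ≤ 1 → c ≤ (1 - ω * x).re := fun x x0 x1 => by
    have k1 : c ≤ 1 := min_le_left _ _
    have k2 : c ≤ 1 - ω.re := min_le_right _ _
    simp only [sub_re, one_re, mul_re, ofReal_re, ofReal_im, mul_zero, sub_zero]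
    nlinarith
  have ln : ∀ x : ℝ, 0 ≤ x → x ≤ 1 → c ≤ ‖1 - ω * x‖ := fun x x0 x1 =>
    (lb x x0 x1).trans (re_le_norm _)
  refine ⟨(c ^ 2)⁻¹, fun q x q0 q1 x0 x1 => ?_⟩
  have hq : ∀ x : ℝ, 0 ≤ x → x ≤ 1 → 0 ≤ q * x ∧ q * x ≤ 1 := fun x x0 x1 =>
    ⟨mul_nonneg q0 x0, mul_le_one₀ q1 x0 x1⟩
  have hd : ∀ t ∈ Set.Icc (0 : ℝ) 1, HasDerivWithinAt
      (fun t : ℝ => log (1 - ω * t) - log (1 - ω * (q * t : ℝ)))
      (-ω / (1 - ω * t) - -(ω * q) / (1 - ω * (q * t : ℝ))) (Set.Icc 0 1) t := fun t ht => by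
    have k0 : HasDerivAt (fun t : ℝ => (t : ℂ)) 1 t := ofRealCLM.hasDerivAt
    have k1 : HasDerivAt (fun t : ℝ => 1 - ω * (t : ℂ)) (-ω) t := by
      simpa using (k0.const_mul ω).const_sub 1
    have k2 : HasDerivAt (fun t : ℝ => 1 - ω * ((q * t : ℝ) : ℂ)) (-(ω * q)) t := by
      simpa [mul_assoc] using (k0.const_mul (ω * q)).const_sub 1
    exact ((k1.clog_real (Or.inl (c0.trans_le (lb t ht.1 ht.2)))).sub (k2.clog_real
      (Or.inl (c0.trans_le (lb _ (hq t ht.1 ht.2).1 (hq t ht.1 ht.2).2))))).hasDerivWithinAt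
  have hb : ∀ t ∈ Set.Icc (0 : ℝ) 1,
      ‖-ω / (1 - ω * t) - -(ω * q) / (1 - ω * (q * t : ℝ))‖ ≤ (c ^ 2)⁻¹ * (1 - q) := fun t ht => by
    have k1 := ln t ht.1 ht.2
    have k2 := ln _ (hq t ht.1 ht.2).1 (hq t ht.1 ht.2).2
    have n1 := norm_pos_iff.1 (c0.trans_le k1)
    have n2 := norm_pos_iff.1 (c0.trans_le k2)
    have e : -ω / (1 - ω * t) - -(ω * q) / (1 - ω * (q * t : ℝ)) =
        -ω * (1 - q : ℝ) / ((1 - ω * t) * (1 - ω * (q * t : ℝ))) := by
      rw [div_sub_div _ _ n1 n2]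
      push_cast
      exact congrArg (· / _) (by ring)
    rw [e, norm_div, norm_mul, norm_mul, norm_neg, h1, one_mul, norm_real,
      Real.norm_of_nonneg (sub_nonneg.2 q1), mul_comm (c ^ 2)⁻¹, ← div_eq_mul_inv, sq]
    exact div_le_div_of_nonneg_left (sub_nonneg.2 q1) (mul_pos c0 c0)
      (mul_le_mul k1 k2 c0.le (norm_nonneg _))
  have k := Convex.norm_image_sub_le_of_norm_hasDerivWithin_le hd hb (convex_Icc 0 1)
    (hq x x0 x1) ⟨x0, x1⟩
  rw [Real.norm_of_nonneg (by nlinarith)] at k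
  exact k.trans (le_of_eq (by ring))

variable {m : ℕ}

theorem chi_le (m n : ℕ) : ‖(chi m n : ℂ)‖ ≤ 1 := by
  rcases jacobiSym.trichotomy n m with h | h | h <;> simp [chi, h]

theorem chi_mul (m a b : ℕ) : (chi m (a * b) : ℂ) = chi m a * chi m b := by
  simp [chi, jacobiSym.mul_left]

theorem chi_zero (h : m % 4 = 3) : (chi m 0 : ℂ) = 0 := by
  simp [chi, jacobiSym.zero_left (show 1 < m by omega)]

theorem chi_per (m : ℕ) : Function.Periodic (fun n => (chi m n : ℂ)) m := fun n =>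
  congrArg (Int.cast : ℤ → ℂ) (jacobiSym.mod_left' (by simp))

theorem chi_odd (h : m % 4 = 3) {b : ℕ} (hb : b ≤ m) : (chi m (m - b) : ℂ) = -chi m b := by
  have k : jacobiSym (m - b : ℕ) m = jacobiSym (-b) m :=
    jacobiSym.mod_left' (by rw [Nat.cast_sub hb, sub_eq_add_neg, Int.add_emod_left])
  rw [chi, k, jacobiSym.neg _ (Nat.odd_iff.2 (by omega)), ZMod.χ₄_nat_three_mod_four h]
  simp [chi]

/-- the roots of unity -/
def om (m b : ℕ) : ℂ := cexp (2 * π * I * b / m)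

theorem om_eq (m b : ℕ) : om m b = cexp ((2 * (π * b / m) : ℝ) * I) :=
  congrArg cexp (by push_cast; ring)

theorem om_norm (m b : ℕ) : ‖om m b‖ = 1 := by rw [om_eq, norm_exp_ofReal_mul_I]

theorem ang {b : ℕ} (h0 : b ≠ 0) (hb : b < m) : 0 < π * b / m ∧ π * b / m < π := by
  have k0 : (0 : ℝ) < b := Nat.cast_pos.2 (Nat.pos_of_ne_zero h0)
  have k1 : (b : ℝ) < m := Nat.cast_lt.2 hb
  have := Real.pi_pos
  exact ⟨by have := k0.trans k1; positivity, by
    rw [div_lt_iff₀ (k0.trans k1)]; exact mul_lt_mul_of_pos_left k1 this⟩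

theorem om_re {b : ℕ} (h0 : b ≠ 0) (hb : b < m) : (om m b).re < 1 := by
  have k := Real.sin_pos_of_pos_of_lt_pi (ang h0 hb).1 (ang h0 hb).2
  rw [om_eq, exp_ofReal_mul_I_re, Real.cos_two_mul, Real.cos_sq']
  nlinarith

theorem log_om {b : ℕ} (h0 : b ≠ 0) (hb : b < m) : log (1 - om m b) =
    Real.log (2 * Real.sin (π * b / m)) + (π * b / m - π / 2 : ℝ) * I := by
  obtain ⟨k1, k2⟩ := ang h0 hb
  have k := Real.sin_pos_of_pos_of_lt_pi k1 k2
  rw [om_eq]
  generalize π * b / m = φ at *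
  have e : 1 - cexp ((2 * φ : ℝ) * I) =
      cexp (Real.log (2 * Real.sin φ) + (φ - π / 2 : ℝ) * I) := by
    have e1 : cexp ((2 * φ : ℝ) * I) = cexp (φ * I) * cexp (φ * I) := by
      rw [← exp_add]; exact congrArg cexp (by push_cast; ring)
    have e2 : cexp ((φ - π / 2 : ℝ) * I) = cexp (φ * I) * -I := by
      rw [← exp_neg_pi_div_two_mul_I, ← exp_add]; exact congrArg cexp (by push_cast; ring)
    have e3 : cexp (-φ * I) * cexp (φ * I) = 1 := by
      rw [← exp_add]; simp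
    rw [exp_add, ← ofReal_exp, Real.exp_log (by positivity), e1, e2]
    push_cast
    rw [Complex.sin]
    linear_combination (-1) * e3 + (cexp (-φ * I) - cexp (φ * I)) * cexp (φ * I) * I_mul_I
  rw [e, log_exp] <;> simp <;> linarith

/-- the generating function -/
def Phi (m : ℕ) (x : ℝ) : ℂ := ∑ b ∈ Finset.range m, chi m b * -log (1 - om m b * x)

theorem phi_one (h : m % 4 = 3) (h0 : ∑ b ∈ Finset.range m, (chi m b : ℂ) = 0) :
    Phi m 1 = -(I * π * ((Hs m : ℂ) / m)) := by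
  let r : ℕ → ℂ := fun b => chi m b * Real.log (2 * Real.sin (π * b / m))
  have hm : (m : ℝ) ≠ 0 := Nat.cast_ne_zero.2 (by omega)
  have r0 : ∑ b ∈ Finset.range m, r b = 0 := by
    have k : ∑ b ∈ Finset.range (m + 1), r b = -∑ b ∈ Finset.range (m + 1), r b := by
      conv_lhs => rw [← Finset.sum_range_reflect]
      rw [← Finset.sum_neg_distrib]
      refine Finset.sum_congr rfl fun b hb => ?_
      have hb' : b ≤ m := Nat.lt_succ_iff.1 (Finset.mem_range.1 hb)
      have e : π * (m - b : ℕ) / m = π - π * b / m := by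
        rw [Nat.cast_sub hb']; field_simp
      simp only [r, Nat.add_sub_cancel, chi_odd h hb', e, Real.sin_pi_sub, neg_mul]
    have k0 : r m = 0 := by
      have := chi_per m 0
      simp only [zero_add] at this
      simp only [r, this, chi_zero h, zero_mul]
    rw [Finset.sum_range_succ, k0, add_zero] at k
    linear_combination k / 2
  have e : Phi m 1 = ∑ b ∈ Finset.range m,
      (-r b - I * π / m * (chi m b * b) + π / 2 * I * chi m b) := by
    refine Finset.sum_congr rfl fun b hb => ?_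
    rcases eq_or_ne b 0 with rfl | hb0
    · simp only [r, chi_zero h]; ring
    · rw [ofReal_one, mul_one, log_om hb0 (Finset.mem_range.1 hb)]
      simp only [r]
      push_cast
      ring
  rw [e, Finset.sum_add_distrib, Finset.sum_sub_distrib, Finset.sum_neg_distrib, r0,
    ← Finset.mul_sum, ← Finset.mul_sum, h0, Hs]
  push_cast
  ring

theorem phi_dif (h : m % 4 = 3) : ∃ C : ℝ, ∀ q x : ℝ, 0 ≤ q → q ≤ 1 → 0 ≤ x → x ≤ 1 →
    ‖Phi m x - Phi m (q * x) - (Phi m (q * x) - Phi m (q * (q * x)))‖ ≤ C * (1 - q) ^ 2 * x := by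
  have k : ∀ b ∈ Finset.range m, ∃ C : ℝ, ∀ q x : ℝ, 0 ≤ q → q ≤ 1 → 0 ≤ x → x ≤ 1 →
      ‖chi m b * -(log (1 - om m b * x) - log (1 - om m b * (q * x : ℝ)) -
      (log (1 - om m b * (q * x : ℝ)) - log (1 - om m b * (q * (q * x) : ℝ))))‖ ≤
        C * (1 - q) ^ 2 * x := fun b hb => by
    rcases eq_or_ne b 0 with rfl | hb0
    · exact ⟨0, fun q x _ _ _ _ => by simp [chi_zero h]⟩
    · obtain ⟨C, hC⟩ := dif (om_norm m b) (om_re hb0 (Finset.mem_range.1 hb))
      refine ⟨C, fun q x q0 q1 x0 x1 => ?_⟩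
      rw [norm_mul, norm_neg]
      exact (mul_le_of_le_one_left (norm_nonneg _) (chi_le m b)).trans (hC q x q0 q1 x0 x1)
  choose! C hC using k
  refine ⟨∑ b ∈ Finset.range m, C b, fun q x q0 q1 x0 x1 => ?_⟩
  rw [Finset.sum_mul, Finset.sum_mul]
  refine le_trans (le_of_eq (congrArg norm ?_))
    (norm_sum_le_of_le _ fun b hb => hC b hb q x q0 q1 x0 x1)
  simp only [Phi, ← Finset.sum_sub_distrib]
  exact Finset.sum_congr rfl fun b _ => by ring

theorem phi_sm (m : ℕ) {q : ℝ} (q0 : 0 ≤ q) (q1 : q < 1) : Summable fun d : ℕ => Phi m (q ^ d) :=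
  summable_sum fun b _ => by
    have k := Complex.summable_log_one_add_of_summable
      ((summable_ofReal.2 (summable_geometric_of_lt_one q0 q1)).mul_left (-om m b))
    exact (k.neg.mul_left (chi m b : ℂ)).congr fun d => by rw [neg_mul, ← sub_eq_add_neg]

theorem phi_sum (hg : ∀ n : ℕ, ∑ b ∈ Finset.range m,
    chi m b * cexp (2 * π * I * (b * n) / m) = chi m n * gs m) {x : ℝ} (x0 : 0 ≤ x) (x1 : x < 1) :
    HasSum (fun k : ℕ => gs m * (chi m k / k * (x : ℂ) ^ k)) (Phi m x) := by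
  have k := hasSum_sum (s := Finset.range m) fun b _ => (hasSum_taylorSeries_neg_log
    (z := om m b * x) (by rwa [norm_mul, om_norm, one_mul, norm_real, Real.norm_of_nonneg x0])
      ).mul_left (chi m b : ℂ)
  refine (congrArg (HasSum · _) (funext fun n => ?_)).mp k
  have e : ∀ b, om m b ^ n = cexp (2 * π * I * (b * n) / m) := fun b => by
    rw [om, ← exp_nat_mul]; exact congrArg cexp (by ring)
  have e' : ∀ b, (chi m b : ℂ) * ((om m b * x) ^ n / n) =
      chi m b * cexp (2 * π * I * (b * n) / m) * (x ^ n / n) := fun b => by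
    rw [mul_pow, e]; ring
  simp only [e', ← Finset.sum_mul, hg]
  ring

theorem rearr (h : m % 4 = 3) (hg : ∀ n : ℕ, ∑ b ∈ Finset.range m,
    chi m b * cexp (2 * π * I * (b * n) / m) = chi m n * gs m) {q : ℝ} (q0 : 0 < q) (q1 : q < 1) :
    gs m * ∑' n : ℕ, (chi m n * σ 1 n / n : ℂ) * (q : ℂ) ^ n =
      ∑' d : ℕ, chi m d * Phi m (q ^ d) := by
  let f : ℕ × ℕ → ℂ := fun p => chi m p.1 * (chi m p.2 / p.2 * ((q : ℂ) ^ p.1) ^ p.2)
  have g := summable_geometric_of_lt_one q0.le q1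
  have hf : Summable f := by
    refine .of_norm_bounded ((g.mul_of_nonneg g (fun _ => by positivity)
      fun _ => by positivity).mul_left q⁻¹) fun ⟨d, k⟩ => ?_
    rcases d with _ | d
    · simp only [f, chi_zero h, zero_mul, norm_zero]; positivity
    rcases k with _ | k
    · simp only [f, chi_zero h, zero_mul, zero_div, mul_zero, norm_zero]; positivity
    have k1 : ‖(chi m (k + 1) : ℂ) / (k + 1 : ℕ)‖ ≤ 1 := by
      rw [norm_div, norm_natCast]
      exact div_le_one_of_le₀ ((chi_le _ _).trans (by simp)) (by positivity)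
    have k2 : q ^ ((d + 1) * (k + 1)) ≤ q ^ (d + (k + 1)) :=
      pow_le_pow_of_le_one q0.le q1.le (by nlinarith [Nat.zero_le (d * k)])
    simp only [f]
    rw [norm_mul, norm_mul, ← pow_mul, norm_pow, norm_real, Real.norm_of_nonneg q0.le]
    refine (mul_le_of_le_one_left (by positivity) (chi_le _ _)).trans
      ((mul_le_of_le_one_left (by positivity) k1).trans (k2.trans (le_of_eq ?_)))
    field_simp
    ring
  have e1 : ∑' n : ℕ, (chi m n * σ 1 n / n : ℂ) * (q : ℂ) ^ n = ∑' p, f p := by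
    rw [← (hf.hasSum.tsum_fiberwise fun p => p.1 * p.2).tsum_eq]
    refine tsum_congr fun n => ?_
    rcases eq_or_ne n 0 with rfl | hn
    · rw [chi_zero h, zero_mul, zero_div, zero_mul, eq_comm]
      refine (tsum_congr fun ⟨⟨d, k⟩, hp⟩ => ?_).trans tsum_zero
      rcases mul_eq_zero.1 (show d * k = 0 from hp) with rfl | rfl <;> simp [f, chi_zero h]
    · have s : (fun p : ℕ × ℕ => p.1 * p.2) ⁻¹' {n} = (n.divisorsAntidiagonal : Set (ℕ × ℕ)) := by
        ext p
        simp [hn]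
      rw [s, Finset.tsum_subtype', ArithmeticFunction.sigma_one_apply, Nat.cast_sum, Finset.mul_sum,
        Finset.sum_div, Finset.sum_mul,
        ← Nat.sum_divisorsAntidiagonal fun d _ => (chi m n : ℂ) * d / n * (q : ℂ) ^ n]
      refine Finset.sum_congr rfl fun ⟨d, k⟩ hp => ?_
      obtain ⟨rfl, -⟩ := Nat.mem_divisorsAntidiagonal.1 hp
      have d0 : (d : ℂ) ≠ 0 := Nat.cast_ne_zero.2 (left_ne_zero_of_mul hn)
      have k0 : (k : ℂ) ≠ 0 := Nat.cast_ne_zero.2 (right_ne_zero_of_mul hn)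
      simp only [f, chi_mul, pow_mul]
      push_cast
      field_simp
  rw [e1, hf.tsum_prod, ← tsum_mul_left]
  refine tsum_congr fun d => ?_
  rcases eq_or_ne d 0 with rfl | hd
  · simp [f, chi_zero h]
  · rw [← (phi_sum hg (pow_nonneg q0.le d) (pow_lt_one₀ q0.le q1 hd)).tsum_eq]
    simp only [f, tsum_mul_left, ofReal_pow]
    ring

end Abe

open Abe in
theorem abe_of (G : GAU) : ABE := by
  intro m hs h
  have hg := (G m hs h).2
  have h0 : ∑ b ∈ Finset.range m, (chi m b : ℂ) = 0 := by simpa [chi_zero h] using hg 0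
  obtain ⟨K, K0, hK⟩ := twist (show 0 < m by omega) (chi_per m) h0
  obtain ⟨C, hC⟩ := phi_dif h
  rw [tendsto_iff_norm_sub_tendsto_zero]
  have lim : Tendsto (fun y : ℝ => K * C * (1 - rexp (-(2 * π * y)))) (𝓝[>] 0) (𝓝 0) := by
    have k : Continuous fun y : ℝ => K * C * (1 - rexp (-(2 * π * y))) := by fun_prop
    simpa using (k.tendsto 0).mono_left (nhdsWithin_le_nhds (s := Set.Ioi 0))
  refine squeeze_zero' (.of_forall fun _ => norm_nonneg _) ?_ lim
  filter_upwards [self_mem_nhdsWithin] with y (hy : 0 < y)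
  have q0 := Real.exp_pos (-(2 * π * y))
  have q1 : rexp (-(2 * π * y)) < 1 := Real.exp_lt_one_iff.2 (by have := Real.pi_pos; nlinarith)
  have e : ∀ n : ℕ, cexp (-(2 * π * n * y)) = (rexp (-(2 * π * y)) : ℂ) ^ n := fun n => by
    rw [ofReal_exp, ← exp_nat_mul]; exact congrArg cexp (by push_cast; ring)
  simp only [e]
  generalize rexp (-(2 * π * y)) = q at *
  have k := hK (fun d => Phi m (q ^ d)) (C * (1 - q) ^ 2) q q0.le q1 (phi_sm m q0.le q1) fun d => by
    simp only [pow_succ' q]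
    exact hC q _ q0.le q1.le (pow_nonneg q0.le d) (pow_le_one₀ q0.le q1.le)
  rw [rearr h hg q0 q1]
  have q2 : 1 - q ≠ 0 := (sub_pos.2 q1).ne'
  refine le_trans (le_of_eq (congrArg norm ?_)) (k.trans (le_of_eq (by field_simp)))
  rw [pow_zero, phi_one h h0, Hs]
  push_cast
  ring

end Vale.Agent.P014Z
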