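import Vale.Agent.P014Z.An

/-!
# P014Z: the primitive of the Eisenstein series `e5`
-/

open Complex Filter Topology
open scoped Real
open Vale.Agent.P004H.H204
open Vale.Agent.P004H.H792 (ee zt ee_mob zt_pow12 zt_ne im11 im_ne im_S den_ne')

noncomputable section

namespace Vale.Agent.P014Z

namespace PreA

/-- `∑ sg n / n q^n` -/
def pp : PowerSeries ℂ := PowerSeries.mk fun n => (sg n : ℂ) / n

theorem coeff_pp (n : ℕ) : PowerSeries.coeff n pp = (sg n : ℂ) / n := by
  simp [pp]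

theorem conv_pp : Conv pp := by
  intro r hr hr1
  refine Summable.of_nonneg_of_le (fun n => by positivity) (fun n => ?_) (convE r hr hr1)
  rw [coeff_pp, coeff_cs]
  gcongr
  rcases Nat.eq_zero_or_pos n with h | h
  · subst h
    simp
  · unfold cE
    rw [if_neg h.ne', norm_div]
    push_cast
    rw [norm_mul]
    have h1 : (1 : ℝ) ≤ ‖(n : ℂ)‖ := by
      rw [Complex.norm_natCast]
      exact_mod_cast h
    have h2 : ‖(12 : ℂ)‖ = 12 := by simp
    have h3 := norm_nonneg (sg n : ℂ)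
    rw [h2]
    calc ‖(sg n : ℂ)‖ / ‖(n : ℂ)‖ ≤ ‖(sg n : ℂ)‖ := div_le_self h3 h1
      _ ≤ 12 * ‖(sg n : ℂ)‖ := by linarith

theorem vE_eq (z : ℂ) : vE z = 5 * z + 12 / (2 * π * I) * ev pp (qq z) := by
  unfold vE ev
  simp only [coeff_pp]

theorem cs_eq : cs cE = PowerSeries.C 5 + PowerSeries.C 12 * th pp := by
  ext n
  rw [coeff_cs, map_add, PowerSeries.coeff_C_mul, coeff_th, coeff_pp, PowerSeries.coeff_C]
  unfold cE
  by_cases h : n = 0
  · subst h
    simp
  · rw [if_neg h, if_neg h]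
    have h1 : (n : ℂ) ≠ 0 := by exact_mod_cast h
    push_cast
    field_simp
    ring

theorem tpi : (2 * π * I : ℂ) ≠ 0 := by simp [Real.pi_ne_zero]

theorem vE_deriv {z : ℂ} (hz : 0 < z.im) : HasDerivAt vE (e5 z) z := by
  have h1 := (conv_pp.hasDerivAt hz).const_mul (12 / (2 * π * I))
  have h2 : HasDerivAt (fun w : ℂ => 5 * w) 5 z := by
    simpa using (hasDerivAt_id z).const_mul (5 : ℂ)
  have h3 : vE = fun w => 5 * w + 12 / (2 * π * I) * ev pp (qq w) := funext vE_eq
  rw [h3]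
  refine (h2.add h1).congr_deriv ?_
  have hq := norm_qq_lt hz
  have h4 := conv_th conv_pp
  rw [e5_eq hz, cs_eq, ev_add (conv_C _) ((conv_C _).mul h4) hq, ev_mul (conv_C _) h4 hq, ev_C,
    ev_C]
  have h5 := tpi
  have h6 : (π : ℂ) ≠ 0 := by exact_mod_cast Real.pi_ne_zero
  field_simp

theorem const_of {f : ℂ → ℂ} (h : ∀ z : ℂ, 0 < z.im → HasDerivAt f 0 z) {z w : ℂ}
    (hz : 0 < z.im) (hw : 0 < w.im) : f z = f w := by
  have ho : IsOpen {z : ℂ | 0 < z.im} := isOpen_lt continuous_const Complex.continuous_im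
  exact ho.is_const_of_deriv_eq_zero (convex_halfSpace_im_gt 0).isPreconnected
    (fun x hx => (h x hx).differentiableAt.differentiableWithinAt) (fun x hx => (h x hx).deriv)
    hz hw

theorem imI : 0 < (I : ℂ).im := by simp

theorem vE_mob (g : G0) {z : ℂ} (hz : 0 < z.im) :
    vE (g.mob z) = vE z + (vE (g.mob I) - vE I) := by
  have h : ∀ z : ℂ, 0 < z.im → HasDerivAt (fun w => vE (g.mob w) - vE w) 0 z := by
    intro z hz
    have h1 := mob_deriv g.det hz
    have h2 := (vE_deriv (mob_im g.det hz)).comp z h1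
    refine (h2.sub (vE_deriv hz)).congr_deriv ?_
    rw [e5_mob g.det hz]
    have h3 := den_ne' g.det hz
    field_simp
    ring
  have h1 := const_of h hz imI
  linear_combination h1

theorem vE_W {z : ℂ} (hz : 0 < z.im) :
    vE (-1 / (11 * z)) = (vE (-1 / (11 * I)) + vE I) - vE z := by
  have h : ∀ z : ℂ, 0 < z.im → HasDerivAt (fun w => vE (-1 / (11 * w)) + vE w) 0 z := by
    intro z hz
    have h0 := im_ne hz
    have h1 : HasDerivAt (fun w : ℂ => -1 / (11 * w)) (1 / (11 * z ^ 2)) z := by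
      have h2 : HasDerivAt (fun w : ℂ => 11 * w) 11 z := by
        simpa using (hasDerivAt_id z).const_mul (11 : ℂ)
      refine ((hasDerivAt_const z (-1 : ℂ)).div h2 (by simpa using h0)).congr_deriv ?_
      field_simp
      ring
    have h2 := (vE_deriv (im_S (im11 hz))).comp z h1
    refine (h2.add (vE_deriv hz)).congr_deriv ?_
    rw [e5_W hz]
    field_simp
    ring
  have h1 := const_of h hz imI
  linear_combination h1

theorem vE_inf (ε : ℝ) (hε : 0 < ε) : ∃ Y : ℝ, ∀ z : ℂ, Y ≤ z.im → ‖vE z - 5 * z‖ ≤ ε := by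
  have h0 : PowerSeries.constantCoeff pp = 0 := by
    rw [← PowerSeries.coeff_zero_eq_constantCoeff_apply, coeff_pp]
    simp
  have h1 := conv_pp.tendsto.const_mul (12 / (2 * π * I))
  rw [h0, mul_zero] at h1
  have h2 : Tendsto qq (comap Complex.im atTop) (𝓝 0) := by
    rw [tendsto_zero_iff_norm_tendsto_zero]
    simp only [norm_qq]
    have h3 : Tendsto (fun z : ℂ => 2 * π * z.im) (comap Complex.im atTop) atTop :=
      (tendsto_comap (f := Complex.im)).const_mul_atTop (by positivity)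
    exact Real.tendsto_exp_neg_atTop_nhds_zero.comp h3
  have h3 := (h1.comp h2).eventually (Metric.closedBall_mem_nhds 0 hε)
  rw [eventually_comap, eventually_atTop] at h3
  obtain ⟨Y, hY⟩ := h3
  refine ⟨Y, fun z hz => ?_⟩
  have h4 := hY z.im hz z rfl
  rw [vE_eq, add_sub_cancel_left]
  simpa using h4

theorem qq_cj (z : ℂ) : qq (-(starRingEnd ℂ) z) = (starRingEnd ℂ) (qq z) := by
  unfold qq
  rw [← Complex.exp_conj]
  congr 1
  simp only [map_mul, Complex.conj_ofReal, Complex.conj_I, map_ofNat]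
  ring

theorem vE_cj (z : ℂ) : vE (-(starRingEnd ℂ) z) = -1 * (starRingEnd ℂ) (vE z) := by
  unfold vE
  rw [qq_cj, map_add, map_mul, map_mul, Complex.conj_tsum]
  simp only [map_mul, map_div₀, map_pow, map_ofNat, Complex.conj_ofReal, Complex.conj_I,
    map_intCast, map_natCast]
  ring

theorem eta_deriv {z : ℂ} (hz : 0 < z.im) :
    HasDerivAt ModularForm.eta (π * I / 12 * E2c z * ModularForm.eta z) z := by
  have h1 := ModularForm.logDeriv_eta_eq_E2 ⟨z, hz⟩
  have h2 := ModularForm.eta_ne_zero (z := z) hz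
  have h3 := (ModularForm.differentiableAt_eta_of_mem_upperHalfPlaneSet (z := z) hz).hasDerivAt
  refine h3.congr_deriv ?_
  rw [logDeriv_apply, ← E2c_eq hz] at h1
  exact (div_eq_iff h2).1 h1

theorem ee_ne {z : ℂ} (hz : 0 < z.im) : ee z ≠ 0 :=
  pow_ne_zero 2 (ModularForm.eta_ne_zero (z := z) hz)

theorem ee_deriv {z : ℂ} (hz : 0 < z.im) :
    HasDerivAt (fun w => ee w ^ 12) (2 * π * I * E2c z * ee z ^ 12) z := by
  have h1 := ((eta_deriv hz).pow 2).pow 12
  refine h1.congr_deriv ?_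
  simp only [ee, Pi.pow_apply]
  push_cast
  ring

/-- the invariant quotient -/
def HH (z : ℂ) : ℂ := cexp (2 * π * I * (2 * vE z)) * ee z ^ 12 / ee (11 * z) ^ 12

theorem HH_deriv {z : ℂ} (hz : 0 < z.im) : HasDerivAt HH 0 z := by
  have h1 := (((vE_deriv hz).const_mul 2).const_mul (2 * π * I)).cexp
  have h2 := ee_deriv hz
  have h3 : HasDerivAt (fun w : ℂ => 11 * w) 11 z := by
    simpa using (hasDerivAt_id z).const_mul (11 : ℂ)
  have h4 := (ee_deriv (im11 hz)).comp z h3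
  have h5 := pow_ne_zero 12 (ee_ne (im11 hz))
  refine ((h1.mul h2).div h4 h5).congr_deriv ?_
  rw [div_eq_zero_iff]
  left
  simp only [Function.comp_apply, Pi.mul_apply]
  unfold e5
  ring

theorem zt12 (k : ℤ) : (zt ^ k) ^ 12 = 1 := by
  rw [← zpow_natCast, ← zpow_mul, mul_comm, zpow_mul]
  push_cast
  rw [zt_pow12, one_zpow]

theorem HH_mob (g : G0) {z : ℂ} (hz : 0 < z.im) :
    HH (g.mob z) = cexp (2 * π * I * (2 * (vE (g.mob I) - vE I))) * HH z := by
  have h1 := ee_mob g.det hz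
  have hd : g.a * g.d - 11 * g.b * g.c = 1 := by linarith [g.det]
  have h2 := ee_mob hd (im11 hz)
  have h3 := den_ne' g.det hz
  have h4 := den_ne' hd (im11 hz)
  have h5 : 11 * g.mob z =
      (g.a * (11 * z) + ((11 * g.b : ℤ) : ℂ)) / (g.c * (11 * z) + g.d) := by
    unfold G0.mob
    rw [mul_div_assoc', div_eq_div_iff h3 h4]
    push_cast
    ring
  have h7 : (g.c : ℂ) * (11 * z) + g.d = ((11 * g.c : ℤ) : ℂ) * z + g.d := by
    push_cast
    ring
  unfold HH
  rw [vE_mob g hz, h5, h2, h7]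
  unfold G0.mob at *
  rw [h1, mul_pow, mul_pow, mul_pow, mul_pow, zt12, zt12, mul_add 2, mul_add, Complex.exp_add]
  have h8 := ee_ne (im11 hz)
  field_simp

theorem HH_ne {z : ℂ} (hz : 0 < z.im) : HH z ≠ 0 :=
  div_ne_zero (mul_ne_zero (Complex.exp_ne_zero _) (pow_ne_zero _ (ee_ne hz)))
    (pow_ne_zero _ (ee_ne (im11 hz)))

theorem int_w (g : G0) : ∃ n : ℤ, 2 * (vE (g.mob I) - vE I) = n := by
  have h1 := HH_mob g imI
  have h2 : HH (g.mob I) = HH I := const_of (fun _ hz => HH_deriv hz) (mob_im g.det imI) imI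
  rw [h2] at h1
  have h3 : cexp (2 * π * I * (2 * (vE (g.mob I) - vE I))) = 1 :=
    mul_right_cancel₀ (HH_ne imI) (by rw [← h1, one_mul])
  obtain ⟨n, hn⟩ := Complex.exp_eq_one_iff.1 h3
  refine ⟨n, mul_left_cancel₀ tpi ?_⟩
  rw [hn]
  ring

end PreA

open PreA in
/-- **PRE** -/
theorem pre : PRE :=
  ⟨vE (-1 / (11 * I)) + vE I, fun g => vE (g.mob I) - vE I,
    ⟨fun g _ hz => vE_mob g hz, fun _ hz => vE_W hz, vE_inf, fun z _ => vE_cj z⟩, int_w⟩

end Vale.Agent.P014Z
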