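import Vale.Agent.P014Z.Ser
import Vale.Agent.P014Z.Pre

/-!
# P014Z: the central value modulo five
-/

open Complex Filter Topology
open scoped Real ArithmeticFunction.sigma
open Vale.Agent.P014
open Vale.Agent.P004H (H792.a)
open Vale.Agent.P004H.H204

namespace Vale.Agent.P014Z

namespace Anf

theorem qq_pow (m b n : ℕ) (y : ℝ) : qq (b / m + y * I) ^ n =
    cexp (2 * π * I * (b * n) / m) * cexp (-(2 * π * n * y)) := by
  rw [qq, ← Complex.exp_nat_mul, ← Complex.exp_add]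
  congr 1
  linear_combination (2 * π * n * y) * I_mul_I

theorem im_pos (m b : ℕ) {y : ℝ} (hy : 0 < y) : 0 < ((b : ℂ) / m + y * I).im := by
  have : ((b : ℂ) / m) = ((b / m : ℝ) : ℂ) := by push_cast; rfl
  rw [this]
  simpa using hy

/-- twisted sums of a `q`-series -/
theorem tw_sum {m : ℕ} (hg : ∀ n : ℕ, ∑ b ∈ Finset.range m,
      chi m b * cexp (2 * π * I * (b * n) / m) = chi m n * gs m) (c : ℕ → ℤ)
    (hc : ∀ z : ℂ, 0 < z.im → Summable fun n : ℕ => (c n : ℂ) / n * qq z ^ n) {y : ℝ}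
    (hy : 0 < y) :
    ∑ b ∈ Finset.range m, chi m b * ∑' n : ℕ, (c n : ℂ) / n * qq (b / m + y * I) ^ n =
      gs m * ∑' n : ℕ, (chi m n * c n / n : ℂ) * cexp (-(2 * π * n * y)) := by
  simp only [← tsum_mul_left]
  rw [← Summable.tsum_finsetSum fun b _ => (hc _ (im_pos m b hy)).mul_left _]
  refine tsum_congr fun n => ?_
  simp only [qq_pow]
  have : ∀ b : ℕ, (chi m b : ℂ) * ((c n : ℂ) / n * (cexp (2 * π * I * (b * n) / m) *
      cexp (-(2 * π * n * y)))) = (chi m b * cexp (2 * π * I * (b * n) / m)) *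
        ((c n : ℂ) / n * cexp (-(2 * π * n * y))) := fun b => by ring
  simp only [this]
  rw [← Finset.sum_mul, hg]
  ring

theorem sig_sm (m : ℕ) {y : ℝ} (hy : 0 < y) :
    Summable fun n : ℕ => (chi m n * σ 1 n / n : ℂ) * cexp (-(2 * π * n * y)) := by
  have hr : Real.exp (-(2 * π * y)) < 1 := by
    rw [Real.exp_lt_one_iff]
    have := Real.pi_pos
    nlinarith [mul_pos this hy]
  have hs := summable_pow_mul_geometric_of_norm_lt_one (R := ℝ) 1
    (r := Real.exp (-(2 * π * y))) (by rw [Real.norm_of_nonneg (Real.exp_pos _).le]; exact hr)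
  refine Summable.of_norm_bounded hs fun n => ?_
  rw [norm_mul, Complex.norm_exp, ← Real.exp_nat_mul]
  have e : (-(2 * π * n * y : ℂ)).re = n * -(2 * π * y) := by simp; ring
  rw [e]
  refine mul_le_mul_of_nonneg_right ?_ (Real.exp_pos _).le
  rcases Nat.eq_zero_or_pos n with rfl | hn
  · simp
  have h1 : ‖(chi m n : ℂ)‖ ≤ 1 := by
    rcases jacobiSym.trichotomy n m with h | h | h <;> simp [chi, h]
  have h2 : σ 1 n ≤ n ^ 2 := ArithmeticFunction.sigma_le_pow_succ 1 n
  have h3 : (0 : ℝ) < n := by exact_mod_cast hn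
  have h4 : ((σ 1 n : ℕ) : ℝ) ≤ n ^ 2 := by exact_mod_cast h2
  rw [norm_div, norm_mul, Complex.norm_natCast, Complex.norm_natCast, div_le_iff₀ h3]
  nlinarith [norm_nonneg (chi m n : ℂ), (Nat.cast_nonneg (σ 1 n) : (0 : ℝ) ≤ _)]

theorem sg_sum {m : ℕ} {y : ℝ} (hy : 0 < y) :
    ∑' n : ℕ, (chi m n * sg n / n : ℂ) * cexp (-(2 * π * n * y)) =
      ∑' n : ℕ, (chi m n * σ 1 n / n : ℂ) * cexp (-(2 * π * n * y)) - chi m 11 *
        ∑' n : ℕ, (chi m n * σ 1 n / n : ℂ) * cexp (-(2 * π * n * (11 * y : ℝ))) := by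
  have h11 := ((sig_sm m (y := 11 * y) (by positivity)).hasSum.mul_left (chi m 11 : ℂ))
  have hinj : Function.Injective fun k : ℕ => 11 * k := fun a b h => by simpa using h
  have h2 : HasSum (fun n : ℕ => (chi m n * ((11 * (if 11 ∣ n then (σ 1 (n / 11) : ℤ) else 0) : ℤ)) /
      n : ℂ) * cexp (-(2 * π * n * y))) (chi m 11 *
        ∑' n : ℕ, (chi m n * σ 1 n / n : ℂ) * cexp (-(2 * π * n * (11 * y : ℝ)))) := by
    refine (hinj.hasSum_iff fun n hn => ?_).1 ?_
    · have : ¬ 11 ∣ n := fun ⟨k, hk⟩ => hn ⟨k, hk.symm⟩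
      simp [this]
    · refine h11.congr_fun fun k => ?_
      have e : (chi m (11 * k) : ℂ) = chi m 11 * chi m k := by
        simp only [chi, Nat.cast_mul, jacobiSym.mul_left, Int.cast_mul]
      simp only [Function.comp, dvd_mul_right, if_true, Nat.mul_div_cancel_left k (by norm_num : 0 < 11), e]
      push_cast
      rw [show -(2 * (π : ℂ) * (11 * k) * y) = -(2 * π * k * (11 * y)) by ring]
      rcases Nat.eq_zero_or_pos k with rfl | hk
      · simp
      have : (k : ℂ) ≠ 0 := by exact_mod_cast hk.ne'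
      field_simp
  rw [← h2.tsum_eq, ← (sig_sm m hy).tsum_sub h2.summable]
  refine tsum_congr fun n => ?_
  rw [sg]
  push_cast
  ring

theorem chi11 {m : ℕ} (h : Ok m) : chi m 11 = 0 ∨ chi m 11 = -1 := by
  have h1 : jacobiSym (11 : ℕ) m = -jacobiSym m 11 :=
    jacobiSym.quadratic_reciprocity_three_mod_four (by norm_num) h.m4
  have h2 : jacobiSym (-m) 11 = -jacobiSym m 11 := by
    rw [jacobiSym.neg _ (by decide : Odd 11), ZMod.χ₄_nat_three_mod_four (by norm_num)]
    ring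
  have h3 := h.n11
  rw [h2, ← h1] at h3
  rcases jacobiSym.trichotomy (11 : ℕ) m with h4 | h4 | h4
  · exact Or.inl h4
  · exact absurd h4 h3
  · exact Or.inr h4

theorem two5 : ∀ x : ZMod 5, x + x = 0 → x = 0 := by decide

/-- the Eisenstein side -/
theorem eis (hG : GAU) (hA : ABE) {m : ℕ} (hs : Squarefree m) (h4 : m % 4 = 3) :
    Tendsto (fun y : ℝ => ∑ b ∈ Finset.range m, chi m b * vE (b / m + y * I)) (𝓝[>] 0)
      (𝓝 (5 * ((Hs m : ℂ) / m) + 6 * (1 - chi m 11) * ((Hs m : ℂ) / m) ^ 2)) := by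
  obtain ⟨-, hg⟩ := hG m hs h4
  have a1 := hA m hs h4
  have t11 : Tendsto (fun y : ℝ => 11 * y) (𝓝[>] 0) (𝓝[>] 0) := by
    refine tendsto_nhdsWithin_iff.2 ⟨?_, ?_⟩
    · have : Tendsto (fun y : ℝ => 11 * y) (𝓝 0) (𝓝 (11 * 0)) := tendsto_id.const_mul 11
      rw [mul_zero] at this
      exact this.mono_left nhdsWithin_le_nhds
    · filter_upwards [self_mem_nhdsWithin] with y hy
      exact mul_pos (by norm_num : (0 : ℝ) < 11) hy
  have a2 := a1.comp t11
  have a3 := (((a1.sub (a2.const_mul (chi m 11 : ℂ))).const_mul (12 / (2 * π * I))).const_add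
    (5 * ((Hs m : ℂ) / m)))
  have h0 : ∑ b ∈ Finset.range m, (chi m b : ℂ) = 0 := by
    have := hg 0
    have e : chi m 0 = 0 := jacobiSym.zero_left (by omega)
    simpa [e] using this
  have e : 5 * ((Hs m : ℂ) / m) + 6 * (1 - chi m 11) * ((Hs m : ℂ) / m) ^ 2 =
      5 * ((Hs m : ℂ) / m) + 12 / (2 * π * I) * (I * π * ((Hs m : ℂ) / m) ^ 2 -
        chi m 11 * (I * π * ((Hs m : ℂ) / m) ^ 2)) := by
    have : (π : ℂ) ≠ 0 := by exact_mod_cast Real.pi_ne_zero
    field_simp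
    ring
  rw [e]
  refine a3.congr' ?_
  filter_upwards [self_mem_nhdsWithin] with y hy
  have hc : ∀ z : ℂ, 0 < z.im → Summable fun n : ℕ => (sg n : ℂ) / n * qq z ^ n := fun z hz => by
    simpa only [PreA.coeff_pp] using PreA.conv_pp.summable (norm_qq_lt hz)
  have t := tw_sum hg sg hc hy
  rw [sg_sum hy] at t
  have e1 : ∀ b : ℕ, (chi m b : ℂ) * vE (b / m + y * I) = 5 / m * (chi m b * b) +
      5 * y * I * chi m b + 12 / (2 * π * I) *
        (chi m b * ∑' n : ℕ, (sg n : ℂ) / n * qq (b / m + y * I) ^ n) := fun b => by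
    rw [vE]; ring
  simp only [e1, Finset.sum_add_distrib, ← Finset.mul_sum, t, h0, Function.comp]
  rw [Hs]
  push_cast
  ring

end Anf

open Anf in
theorem anf_of (hF : PRF) (hE : PRE) (hPH : PH) (hH : HOM) (hV : LV) (hG : GAU) (hT : TW)
    (hA : ABE) (hM : MEL) (hR : RP) (hC : CNF) : ANF := by
  intro m K _ _ ok qf L hL
  have hm : 0 < m := by have := ok.gt; omega
  have hm' : (m : ℂ) ≠ 0 := by exact_mod_cast hm.ne'
  obtain ⟨⟨C, w, hP⟩, -⟩ := hF
  obtain ⟨C', w', hP', hint⟩ := hE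
  obtain ⟨n, hn, nV, nH, h0⟩ := hV C w hP
  obtain ⟨γ, e, he, ht⟩ := hT m ok.sf ok.m4
  obtain ⟨g2, hg⟩ := hG m ok.sf ok.m4
  choose n' hn' using hint
  obtain ⟨pm, pT, pU, pN, pb⟩ := hPH _ _ _ _ _ hP'
  -- the cusp form side
  have l1 := hM m ok.sf ok.m4 L hL
  have f1 : gs m * L 1 = ∑ b ∈ Finset.range m, chi m b * w (γ b) := by
    have t := ht _ _ _ _ _ hP
    rw [zero_mul, zero_div, sub_zero] at t
    refine tendsto_nhds_unique ((l1.const_mul (gs m)).congr' ?_) t
    filter_upwards [self_mem_nhdsWithin] with y hy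
    exact (tw_sum hg H792.a (fun z hz => Ser.ser_summable
      (fun z hz => Vale.Agent.P004H.H792.hasSum_Fc hz) hz) hy).symm
  have f2 : (L 1).im = 0 := by
    refine tendsto_nhds_unique ((continuous_im.tendsto _).comp l1) (tendsto_const_nhds.congr fun y => ?_)
    have : ∑' n : ℕ, (chi m n * H792.a n / n : ℂ) * cexp (-(2 * π * n * y)) =
        ((∑' n : ℕ, (chi m n * H792.a n / n : ℝ) * Real.exp (-(2 * π * n * y)) : ℝ) : ℂ) := by
      push_cast; rfl
    simp only [Function.comp, this, ofReal_im]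
  have hsq : (0 : ℝ) < √m := Real.sqrt_pos.2 (by exact_mod_cast hm)
  have f3 : ∃ t : ℤ, t * t = 1 ∧ gs m = t * √m * I := by
    have : gs m ^ 2 = (√m * I) ^ 2 := by
      rw [g2, mul_pow, I_sq, ← ofReal_pow, Real.sq_sqrt (Nat.cast_nonneg m)]; simp
    rcases sq_eq_sq_iff_eq_or_eq_neg.1 this with h | h
    · exact ⟨1, rfl, by rw [h]; simp⟩
    · exact ⟨-1, rfl, by rw [h]; simp⟩
  obtain ⟨t, t1, t2⟩ := f3
  have f4 : 2 * (t * √m * (L 1).re) = (∑ b ∈ Finset.range m, chi m b * n (γ b) : ℤ) * Im0 := by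
    have := congrArg Complex.im f1
    rw [t2, im_sum] at this
    simp only [mul_im, mul_re, intCast_re, intCast_im, ofReal_re, ofReal_im, I_re, I_im, f2,
      mul_zero, zero_mul, sub_zero, add_zero, mul_one, zero_add] at this
    rw [this]
    push_cast
    rw [Finset.mul_sum, Finset.sum_mul]
    refine Finset.sum_congr rfl fun b _ => ?_
    rw [mul_assoc, ← hn]; ring
  -- the Eisenstein side
  have c1 := hC m K ok.sf ok.m4 ok.gt qf.deg qf.rt
  obtain ⟨H, hH1, hH2⟩ : ∃ H : ℤ, Hs m = m * H ∧ H ^ 2 = (NumberField.classNumber K : ℤ) ^ 2 := by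
    rcases sq_eq_sq_iff_eq_or_eq_neg.1 c1 with h | h
    · exact ⟨_, h, rfl⟩
    · exact ⟨-NumberField.classNumber K, by rw [h]; ring, by ring⟩
  obtain ⟨k, hk⟩ : (m : ℤ) ∣ e := by
    rcases he with h | h
    · simpa using h.add (Dvd.intro _ hH1.symm)
    · simpa using h.sub (Dvd.intro _ hH1.symm)
  have e1 : ∑ b ∈ Finset.range m, chi m b * n' (γ b) =
      10 * (H + k) + 12 * (1 - chi m 11) * H ^ 2 := by
    have t := tendsto_nhds_unique (ht _ _ _ _ _ hP') (eis hG hA ok.sf ok.m4)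
    have a1 : (Hs m : ℂ) / m = H := by rw [hH1]; push_cast; field_simp
    have a2 : 5 * (e : ℂ) / m = 5 * k := by rw [hk]; push_cast; field_simp
    rw [a1, a2] at t
    have a3 : ((∑ b ∈ Finset.range m, chi m b * n' (γ b) : ℤ) : ℂ) =
        2 * ∑ b ∈ Finset.range m, chi m b * w' (γ b) := by
      push_cast
      rw [Finset.mul_sum]
      refine Finset.sum_congr rfl fun b _ => ?_
      rw [← hn']; ring
    have a4 : ((∑ b ∈ Finset.range m, chi m b * n' (γ b) : ℤ) : ℂ) =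
        ((10 * (H + k) + 12 * (1 - chi m 11) * H ^ 2 : ℤ) : ℂ) := by
      rw [a3]
      push_cast
      linear_combination 2 * t
    exact_mod_cast a4
  have HE : Hm fun g => (n' g : ZMod 5) := by
    have c : ∀ a b : ℤ, (a : ℂ) = b → a = b := fun a b h => by exact_mod_cast h
    refine ⟨fun g h => ?_, ?_, ?_, ?_, fun g => ?_⟩
    · rw [c (n' (g.mul h)) (n' g + n' h) (by push_cast; rw [← hn', ← hn', ← hn', pm]; ring)]
      push_cast; rfl
    · rw [c (n' G0.T) 10 (by rw [← hn', pT]; norm_num)]; rfl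
    · rw [c (n' G0.U) 10 (by rw [← hn', pU]; norm_num)]; rfl
    · rw [c (n' G0.N) 0 (by rw [← hn', pN]; norm_num)]; rfl
    · have : (starRingEnd ℂ) (2 * w' g) = 2 * w' g := by rw [hn']; simp
      rw [map_mul, map_ofNat] at this
      rw [c (n' g.bar) (-n' g) (by push_cast; rw [← hn', ← hn', pb]; linear_combination -this)]
      push_cast; rfl
  have HF : Hm fun g => (n g : ZMod 5) := by
    refine ⟨fun g h => ?_, ?_, ?_, ?_, fun g => ?_⟩
    · rw [nH.mul]; push_cast; rfl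
    · rw [nH.T]; rfl
    · rw [nH.U]; rfl
    · rw [nH.N]; rfl
    · rw [nH.odd]; push_cast; rfl
  have cong : ∀ g, (n' g : ZMod 5) = n g * n' G0.V := fun g => by
    obtain ⟨j, hj⟩ := hH g
    have b1 := hj _ _ two5 HE
    have b2 := hj _ _ two5 HF
    simp only [nV, zsmul_eq_mul, Int.cast_one, mul_one] at b1 b2
    rw [b1, b2]
  refine ⟨t * ∑ b ∈ Finset.range m, chi m b * n (γ b), fun hd => ?_, ?_, ?_⟩
  · have d1 : (5 : ℤ) ∣ ∑ b ∈ Finset.range m, chi m b * n (γ b) := by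
      have := hd.mul_left t
      rwa [← mul_assoc, t1, one_mul] at this
    have d2 : ((∑ b ∈ Finset.range m, chi m b * n' (γ b) : ℤ) : ZMod 5) = 0 := by
      have := (ZMod.intCast_zmod_eq_zero_iff_dvd _ 5).2 d1
      push_cast at this ⊢
      rw [← zero_mul (n' G0.V : ZMod 5), ← this, Finset.sum_mul]
      exact Finset.sum_congr rfl fun b _ => by rw [cong (γ b), mul_assoc]
    have d3 := (ZMod.intCast_zmod_eq_zero_iff_dvd _ 5).1 d2
    rw [e1, hH2] at d3
    have p5 : Prime (5 : ℤ) := Int.prime_iff_natAbs_prime.2 (by norm_num)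
    have d4 : (5 : ℤ) ∣ (NumberField.classNumber K : ℤ) ^ 2 := by
      generalize (NumberField.classNumber K : ℤ) ^ 2 = u at d3
      rcases chi11 ok with h | h <;> rw [h] at d3 <;> omega
    exact qf.cl (by exact_mod_cast p5.dvd_of_dvd_pow d4)
  · rw [hR m hm]; positivity
  · rw [hR m hm]
    have t3 : (t : ℝ) * t = 1 := by exact_mod_cast t1
    have : (L 1).re = ((t * ∑ b ∈ Finset.range m, chi m b * n (γ b) : ℤ) : ℝ) / 2 * (Im0 / √m) := by
      rw [Int.cast_mul]
      field_simp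
      linear_combination t * f4 - 2 * √m * (L 1).re * t3
    refine Complex.ext ?_ ?_
    · rw [this, ← ofReal_intCast, ← ofReal_ofNat, ← ofReal_div, ← ofReal_mul, ofReal_re]
    · rw [f2, ← ofReal_intCast, ← ofReal_ofNat, ← ofReal_div, ← ofReal_mul, ofReal_im]

end Vale.Agent.P014Z
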