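import Vale.Agent.P014Z.CnfA

/-!
# P014Z: the number of ideals of given norm in `ℚ(√-m)`
-/

open NumberField Module Ideal Set
open scoped NumberTheorySymbols

noncomputable section

namespace Vale.Agent.P014Z.Cnf

variable {K : Type} [Field K] [NumberField K] {m c p : ℕ}

theorem sq2 : ∀ u : ZMod 2, u * u = u := by decide

/-- the roots modulo a prime -/
theorem roots (hc : m + 1 = 4 * c) (hp : p.Prime) :
    ({u : ZMod p | u * u = (-(c : ℤ)) • 1 + (1 : ℤ) • u}.ncard : ℤ) = 1 + J(p | m) := by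
  have : Fact p.Prime := ⟨hp⟩
  have hm : Odd m := Nat.odd_iff.2 (by omega)
  rcases eq_or_ne p 2 with rfl | h2
  · rw [Nat.cast_ofNat, jacobiSym.at_two hm, ZMod.χ₈_nat_eq_if_mod_eight]
    rcases Nat.even_or_odd' c with ⟨k, rfl | rfl⟩
    · rw [if_neg (by omega), if_pos (by omega), eq_univ_of_forall (s := {u : ZMod 2 | _}) fun u => ?_]
      · simp
      · have h : (2 : ZMod 2) = 0 := rfl
        simp [h, sq2]
    · rw [if_neg (by omega), if_neg (by omega),
        eq_empty_of_forall_notMem (s := {u : ZMod 2 | _}) fun u => ?_]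
      · simp
      · have h : (2 : ZMod 2) = 0 := rfl
        simp [h, sq2]
  · have h4 : (2 : ZMod p) ≠ 0 := fun h => h2 ((Nat.prime_dvd_prime_iff_eq hp Nat.prime_two).1
      ((ZMod.natCast_eq_zero_iff 2 p).1 h))
    have hcp : (m : ZMod p) + 1 = 4 * c := by exact_mod_cast congrArg (Nat.cast (R := ZMod p)) hc
    have hodd : Odd p := hp.odd_of_ne_two h2
    have h5 : J(p | m) = legendreSym p (-m) := by
      rw [jacobiSym.legendreSym.to_jacobiSym, jacobiSym.neg _ hodd, ZMod.χ₄_nat_eq_if_mod_four,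
        if_neg (by have := Nat.odd_iff.1 hodd; omega)]
      rcases Nat.odd_mod_four_iff.1 (Nat.odd_iff.1 hodd) with h | h
      · rw [if_pos h, one_mul, jacobiSym.quadratic_reciprocity_one_mod_four h hm]
      · rw [if_neg (by omega), jacobiSym.quadratic_reciprocity_three_mod_four h (by omega)]
        ring
    rw [h5, add_comm (1 : ℤ), ← legendreSym.card_sqrts p h2, ← ncard_eq_toFinset_card']
    congr 1
    refine ncard_congr (fun u _ => 2 * u - 1) (fun u hu => ?_)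
      (fun u v _ _ h => mul_left_cancel₀ h4 (sub_left_injective h)) fun x hx => ⟨(x + 1) / 2, ?_, ?_⟩
    · simp only [mem_ofPred_eq, zsmul_eq_mul] at hu ⊢
      push_cast at hu ⊢
      linear_combination 4 * hu + hcp
    · simp only [mem_ofPred_eq, zsmul_eq_mul] at hx ⊢
      push_cast at hx ⊢
      field_simp
      linear_combination hx - hcp
    · field_simp
      ring

/-- the ideals of prime norm -/
theorem primes (e : Q c ≃ₐ[ℤ] 𝓞 K) (hp : p.Prime) : {I : Ideal (𝓞 K) | absNorm I = p}.ncard =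
    {u : ZMod p | u * u = (-(c : ℤ)) • 1 + (1 : ℤ) • u}.ncard := by
  have : Fact p.Prime := ⟨hp⟩
  let f : ∀ u ∈ {u : ZMod p | u * u = (-(c : ℤ)) • 1 + (1 : ℤ) • u}, 𝓞 K →+* ZMod p := fun u hu =>
    ((QuadraticAlgebra.lift ⟨u, hu⟩).comp e.symm.toAlgHom).toRingHom
  have hf : ∀ u hu, f u hu (e QuadraticAlgebra.omega) = u := fun u hu => by simp [f]
  refine (ncard_congr (fun u hu => RingHom.ker (f u hu)) (fun u hu => ?_) (fun u v hu hv h => ?_)
    fun I hI => ?_).symm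
  · rw [mem_ofPred_eq, absNorm_apply, Submodule.cardQuot_apply, Nat.card_congr
      (RingHom.quotientKerEquivOfSurjective (ZMod.ringHom_surjective (f u hu))).toEquiv, Nat.card_zmod]
  · rw [← hf u hu, ZMod.ringHom_eq_of_ker_eq _ _ h, hf]
  · rw [mem_ofPred_eq, absNorm_apply, Submodule.cardQuot_apply] at hI
    have : Finite (𝓞 K ⧸ I) := Nat.finite_of_card_ne_zero (hI ▸ hp.ne_zero)
    let := Fintype.ofFinite (𝓞 K ⧸ I)
    let ε := ZMod.ringEquivOfPrime (𝓞 K ⧸ I) hp (Nat.card_eq_fintype_card.symm.trans hI)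
    let g : 𝓞 K →+* ZMod p := ε.symm.toRingHom.comp (Ideal.Quotient.mk I)
    let u := QuadraticAlgebra.lift.symm (g.toIntAlgHom.comp e.toAlgHom)
    refine ⟨u.1, u.2, ?_⟩
    have h1 : f u.1 u.2 = g := RingHom.ext fun z => by
      change (QuadraticAlgebra.lift u) (e.symm z) = _
      simp [u]
    rw [h1]
    ext z
    simp [g, RingHom.mem_ker, Ideal.Quotient.eq_zero_iff_mem]

variable (K) in
/-- the number of ideals `I` with `q N(I) = n` -/
def cnt (q n : ℕ) : ℕ := {I : Ideal (𝓞 K) | q * absNorm I = n}.ncard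

theorem cnt_dvd {P : Ideal (𝓞 K)} (hP : P ≠ ⊥) (n : ℕ) :
    {I : Ideal (𝓞 K) | P ∣ I ∧ absNorm I = n}.ncard = cnt K (absNorm P) n := by
  refine Eq.trans ?_ (ncard_image_of_injective _ (mul_right_injective₀ hP))
  congr 1
  ext I
  constructor
  · rintro ⟨⟨I', rfl⟩, h⟩
    exact ⟨I', by rwa [map_mul] at h, rfl⟩
  · rintro ⟨I', h, rfl⟩
    exact ⟨dvd_mul_right _ _, by rwa [map_mul]⟩

theorem cnt_mul (hp : p ≠ 0) (q n : ℕ) : cnt K (p * q) (p * n) = cnt K q n := by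
  simp only [cnt, mul_assoc, Nat.mul_right_inj hp]

/-- the primes above `p` -/
theorem above (hK : finrank ℚ K = 2) (hp : p.Prime) {I : Ideal (𝓞 K)} (h : p ∣ absNorm I) :
    (∃ P, absNorm P = p ∧ P ∣ I) ∨ ((∀ P : Ideal (𝓞 K), absNorm P ≠ p) ∧ span {(p : 𝓞 K)} ∣ I) := by
  have hN : absNorm (span {(p : 𝓞 K)}) = p ^ 2 := by
    rw [absNorm_span_natCast, RingOfIntegers.rank, hK]
  obtain ⟨P, h1, h2, h3⟩ := exists_isMaximal_dvd_of_dvd_absNorm' hp I h
  have h4 : P ∣ span {(p : 𝓞 K)} := by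
    rw [dvd_span_singleton]
    have k : (p : ℤ) ∈ P.under ℤ := h2 ▸ mem_span_singleton_self _
    simpa using k
  obtain ⟨k, k1, k2⟩ := (Nat.dvd_prime_pow hp).1 (hN ▸ map_dvd absNorm h4)
  interval_cases k
  · exact absurd (absNorm_eq_one_iff.1 k2) h1.ne_top
  · exact .inl ⟨P, k2.trans (pow_one p), h3⟩
  · obtain ⟨R, hR⟩ := h4
    have k3 : absNorm R = 1 := by
      rw [hR, map_mul, k2] at hN
      exact (mul_eq_left₀ (pow_ne_zero 2 hp.ne_zero)).1 hN
    rw [absNorm_eq_one_iff.1 k3, mul_top] at hR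
    refine .inr ⟨fun P' hP' => ?_, hR ▸ h3⟩
    have k4 : P ≤ P' := by
      rw [← hR, span_singleton_le_iff_mem, ← hP']
      exact absNorm_mem P'
    have k5 : P' ≠ ⊤ := fun c => hp.one_lt.ne' (by rw [← hP', c, absNorm_top])
    rw [← h1.eq_of_le k5 k4, k2] at hP'
    nlinarith [hp.one_lt]

theorem recur (hK : finrank ℚ K = 2) (hp : p.Prime) {χ : ℤ} (hχ : χ = 0 ∨ χ = 1 ∨ χ = -1)
    (h : ({I : Ideal (𝓞 K) | absNorm I = p}.ncard : ℤ) = 1 + χ) (n : ℕ) :
    (cnt K 1 (p * n) : ℤ) = (1 + χ) * cnt K 1 n - χ * cnt K p n := by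
  have hN : absNorm (span {(p : 𝓞 K)}) = p * p := by
    rw [absNorm_span_natCast, RingOfIntegers.rank, hK, sq]
  have hne : ∀ {P : Ideal (𝓞 K)}, absNorm P = p → P ≠ ⊥ := fun k c =>
    hp.ne_zero (by rw [← k, c, absNorm_bot])
  have h1 : ∀ {P : Ideal (𝓞 K)}, absNorm P = p →
      {I : Ideal (𝓞 K) | P ∣ I ∧ absNorm I = p * n}.ncard = cnt K 1 n := fun k => by
    rw [cnt_dvd (hne k), k, ← cnt_mul hp.ne_zero 1 n, mul_one]
  have hab : ∀ {I : Ideal (𝓞 K)}, absNorm I = p * n → _ := fun k => above hK hp ⟨n, k⟩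
  rw [cnt]
  simp only [one_mul]
  rcases hχ with rfl | rfl | rfl
  · obtain ⟨P, hP⟩ := ncard_eq_one.1 (by exact_mod_cast h)
    have k : absNorm P = p := hP.ge rfl
    rw [← h1 k, add_zero, one_mul, zero_mul, sub_zero]
    congr 2
    ext I
    refine ⟨fun hI => ⟨?_, hI⟩, fun hI => hI.2⟩
    rcases hab hI with ⟨P', k1, k2⟩ | ⟨k1, -⟩
    · exact (hP.le k1 : P' = P) ▸ k2
    · exact absurd k (k1 P)
  · obtain ⟨P, P', hPP, hP⟩ := ncard_eq_two.1 (by exact_mod_cast h)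
    have k : absNorm P = p := hP.ge (.inl rfl)
    have k' : absNorm P' = p := hP.ge (.inr rfl)
    have pr : ∀ {P : Ideal (𝓞 K)}, absNorm P = p → Prime P := fun k =>
      prime_of_isPrime (hne k) (isPrime_of_irreducible_absNorm (k ▸ hp))
    have hf := finite_setOfPred_absNorm_eq (S := 𝓞 K) (p * n)
    have h2 := ncard_union_add_ncard_inter {I : Ideal (𝓞 K) | P ∣ I ∧ absNorm I = p * n}
      {I | P' ∣ I ∧ absNorm I = p * n} (hf.subset fun _ k => k.2) (hf.subset fun _ k => k.2)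
    have h3 : {I : Ideal (𝓞 K) | P ∣ I ∧ absNorm I = p * n} ∪ {I | P' ∣ I ∧ absNorm I = p * n} =
        {I | absNorm I = p * n} := by
      ext I
      refine ⟨fun hI => hI.elim And.right And.right, fun hI => ?_⟩
      rcases hab hI with ⟨P'', k1, k2⟩ | ⟨k1, -⟩
      · exact (hP.le k1).imp (fun (a : P'' = P) => ⟨a ▸ k2, hI⟩) fun (a : P'' = P') => ⟨a ▸ k2, hI⟩
      · exact absurd k (k1 P)
    have h4 : {I : Ideal (𝓞 K) | P ∣ I ∧ absNorm I = p * n} ∩ {I | P' ∣ I ∧ absNorm I = p * n} =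
        {I | P * P' ∣ I ∧ absNorm I = p * n} := by
      ext I
      refine ⟨fun hI => ⟨?_, hI.1.2⟩, fun hI => ⟨⟨dvd_of_mul_right_dvd hI.1, hI.2⟩,
        dvd_of_mul_left_dvd hI.1, hI.2⟩⟩
      obtain ⟨⟨⟨R, rfl⟩, -⟩, k2, -⟩ := hI
      exact mul_dvd_mul_left P (((pr k').dvd_or_dvd k2).resolve_left fun a =>
        hPP (associated_iff_eq.1 (((pr k').dvd_prime_iff_associated (pr k)).1 a)).symm)
    rw [h3, h4, h1 k, h1 k', cnt_dvd (mul_ne_zero (hne k) (hne k')), map_mul, k, k',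
      cnt_mul hp.ne_zero] at h2
    have h5 := congrArg (Nat.cast (R := ℤ)) h2
    push_cast at h5
    linarith
  · have h2 : {I : Ideal (𝓞 K) | absNorm I = p} = ∅ :=
      (ncard_eq_zero (finite_setOfPred_absNorm_eq p)).1 (by omega)
    have h3 : span {(p : 𝓞 K)} ≠ ⊥ := fun c => mul_ne_zero hp.ne_zero hp.ne_zero
      (by rw [← hN, c, absNorm_bot])
    rw [← cnt_mul hp.ne_zero p n, ← hN, ← cnt_dvd h3, add_neg_cancel, zero_mul, neg_mul, one_mul,
      zero_sub, neg_neg]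
    congr 2
    ext I
    refine ⟨fun hI => ⟨?_, hI⟩, fun hI => hI.2⟩
    rcases hab hI with ⟨P', k1, -⟩ | ⟨-, k1⟩
    · exact (h2.le k1).elim
    · exact k1

/-- the divisor sums satisfy the same recurrence -/
theorem recur' (hp : p.Prime) (χ : ℕ → ℤ) (hχ : ∀ a b, χ (a * b) = χ a * χ b) {n : ℕ} (hn : n ≠ 0) :
    ∑ d ∈ (p * n).divisors, χ d = (1 + χ p) * ∑ d ∈ n.divisors, χ d -
      χ p * if p ∣ n then ∑ d ∈ (n / p).divisors, χ d else 0 := by
  have h1 : ∀ n, n ≠ 0 → ∑ d ∈ (p * n).divisors with p ∣ d, χ d = χ p * ∑ d ∈ n.divisors, χ d := by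
    intro n hn
    rw [Finset.mul_sum]
    refine (Finset.sum_bij (fun d _ => p * d) (fun d hd => ?_)
      (fun a _ b _ h => mul_left_cancel₀ hp.ne_zero h) (fun d hd => ?_) fun d _ => (hχ p d).symm).symm
    · exact Finset.mem_filter.2 ⟨Nat.mem_divisors.2 ⟨mul_dvd_mul_left p (Nat.dvd_of_mem_divisors hd),
        mul_ne_zero hp.ne_zero hn⟩, dvd_mul_right _ _⟩
    · obtain ⟨k1, d', rfl⟩ := Finset.mem_filter.1 hd
      exact ⟨d', Nat.mem_divisors.2 ⟨(mul_dvd_mul_iff_left hp.ne_zero).1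
        (Nat.dvd_of_mem_divisors k1), hn⟩, rfl⟩
  have h2 : (p * n).divisors.filter (fun d => ¬ p ∣ d) = n.divisors.filter fun d => ¬ p ∣ d := by
    ext d
    simp only [Finset.mem_filter, Nat.mem_divisors]
    refine ⟨fun h => ⟨⟨?_, hn⟩, h.2⟩, fun h => ⟨⟨h.1.1.mul_left p, mul_ne_zero hp.ne_zero hn⟩, h.2⟩⟩
    exact ((hp.coprime_iff_not_dvd.2 h.2).symm).dvd_of_dvd_mul_left h.1.1
  have h3 : ∑ d ∈ n.divisors with p ∣ d, χ d =
      χ p * if p ∣ n then ∑ d ∈ (n / p).divisors, χ d else 0 := by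
    split_ifs with h
    · obtain ⟨k, rfl⟩ := h
      rw [Nat.mul_div_cancel_left _ hp.pos, h1 k (right_ne_zero_of_mul hn)]
    · rw [mul_zero]
      exact Finset.sum_eq_zero fun d hd => absurd ((Finset.mem_filter.1 hd).2.trans
        (Nat.dvd_of_mem_divisors (Finset.mem_filter.1 hd).1)) h
  rw [← Finset.sum_filter_add_sum_filter_not _ (p ∣ ·), h1 n hn, h2, ← h3]
  linear_combination Finset.sum_filter_add_sum_filter_not n.divisors (p ∣ ·) χ

/-- **the number of ideals of norm `n`** -/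
theorem count (hc : m + 1 = 4 * c) (hK : finrank ℚ K = 2) (e : Q c ≃ₐ[ℤ] 𝓞 K) (n : ℕ) (hn : n ≠ 0) :
    (cnt K 1 n : ℤ) = ∑ d ∈ n.divisors, J(d | m) := by
  induction n using Nat.strong_induction_on with
  | _ n ih =>
    rcases eq_or_ne n 1 with rfl | h1
    · simp [cnt, absNorm_eq_one_iff]
    obtain ⟨p, hp, k, rfl⟩ := Nat.exists_prime_and_dvd h1
    have hk : k ≠ 0 := right_ne_zero_of_mul hn
    have hlt : k < p * k := lt_mul_left (Nat.pos_of_ne_zero hk) hp.one_lt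
    rw [recur hK hp (jacobiSym.trichotomy p m) (by rw [primes e hp, roots hc hp]),
      recur' hp (fun d => J(d | m)) (fun a b => by push_cast; exact jacobiSym.mul_left _ _ _) hk,
      ih k hlt hk]
    congr 2
    split_ifs with h
    · obtain ⟨j, rfl⟩ := h
      have hj : j ≠ 0 := right_ne_zero_of_mul hk
      rw [Nat.mul_div_cancel_left _ hp.pos, ← ih j
        ((lt_mul_left (Nat.pos_of_ne_zero hj) hp.one_lt).trans hlt) hj, ← cnt_mul hp.ne_zero 1 j, mul_one]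
    · rw [cnt, eq_empty_of_forall_notMem (s := {I : Ideal (𝓞 K) | _}) fun I hI => h ⟨_, hI.symm⟩]
      simp

end Vale.Agent.P014Z.Cnf
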