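import Vale.Agent.P014Z.An
import Vale.Agent.P014Z.CnfB

/-!
# P014Z: the class number formula for `ℚ(√-m)`
-/

open Complex Filter Topology NumberField Set
open scoped Real

noncomputable section

namespace Vale.Agent.P014Z

namespace Cnf

/-- `(n + 1) ^ (-s)` -/
def wt (s : ℝ) (n : ℕ) : ℂ := (((n + 1 : ℝ) ^ (-s) : ℝ) : ℂ)

theorem abel {z : ℂ} {w : ℕ → ℂ} (h : Summable fun n => z ^ (n + 1) * w n) :
    (1 - z) * ∑' n, z ^ (n + 1) * w n = z * w 0 + ∑' n, z ^ (n + 2) * (w (n + 1) - w n) := by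
  have h1 : Summable fun n => z ^ (n + 1 + 1) * w (n + 1) :=
    (summable_nat_add_iff (f := fun n => z ^ (n + 1) * w n) 1).2 h
  have h2 : ∀ n, z ^ (n + 2) * (w (n + 1) - w n) =
      z ^ (n + 1 + 1) * w (n + 1) - z * (z ^ (n + 1) * w n) := fun n => by ring
  rw [tsum_congr h2, h1.tsum_sub (h.mul_left z), tsum_mul_left, sub_mul, one_mul]
  nth_rewrite 1 [h.tsum_eq_zero_add]
  ring

theorem wt_le {s : ℝ} (h1 : 1 ≤ s) (h2 : s ≤ 2) (n : ℕ) :
    ‖wt s (n + 1) - wt s n‖ ≤ 2 * (1 / (n + 1 : ℝ) ^ 2) := by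
  rw [wt, wt, ← ofReal_sub, norm_real, Real.norm_eq_abs]
  push_cast
  have hx : (1 : ℝ) ≤ n + 1 := by linarith [(Nat.cast_nonneg n : (0 : ℝ) ≤ n)]
  generalize (n + 1 : ℝ) = x at hx
  have hx0 : 0 < x := by linarith
  have hq : 1 ≤ (x + 1) / x := (one_le_div hx0).2 (by linarith)
  have e : (x + 1) ^ (-s) = x ^ (-s) * ((x + 1) / x) ^ (-s) := by
    rw [← Real.mul_rpow hx0.le (by positivity), mul_div_cancel₀ _ hx0.ne']
  have a1 : ((x + 1) / x) ^ (-s) ≤ 1 := Real.rpow_le_one_of_one_le_of_nonpos hq (by linarith)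
  have a2 : x ^ 2 / (x + 1) ^ 2 ≤ ((x + 1) / x) ^ (-s) := by
    refine le_trans (le_of_eq ?_) (Real.rpow_le_rpow_of_exponent_le hq (neg_le_neg h2))
    rw [Real.rpow_neg (by positivity), Real.rpow_two, div_pow, inv_div]
  have a3 : x ^ (-s) ≤ 1 / x := by
    refine (Real.rpow_le_rpow_of_exponent_le hx (neg_le_neg h1)).trans (le_of_eq ?_)
    rw [Real.rpow_neg_one, one_div]
  have a4 : 0 ≤ x ^ (-s) := by positivity
  rw [e, abs_sub_comm, ← mul_one_sub, abs_of_nonneg (mul_nonneg a4 (by linarith))]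
  refine (mul_le_mul a3 (sub_le_sub_left a2 1) (by linarith) (by positivity)).trans ?_
  rw [← sub_nonneg]
  have a5 : 2 * (1 / x ^ 2) - 1 / x * (1 - x ^ 2 / (x + 1) ^ 2) =
      (3 * x + 2) / (x ^ 2 * (x + 1) ^ 2) := by
    field_simp
    ring
  rw [a5]
  positivity

/-- the series after summation by parts -/
def H (q : ℂ × ℝ) : ℂ := q.1 * wt q.2 0 + ∑' n, q.1 ^ (n + 2) * (wt q.2 (n + 1) - wt q.2 n)

theorem wt_cont (n : ℕ) : Continuous fun s => wt s n :=
  continuous_ofReal.comp (continuous_const.rpow continuous_neg fun _ => .inl (by positivity))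

theorem H_cont : ContinuousOn H (Metric.closedBall 0 1 ×ˢ Icc 1 2) := by
  refine (continuous_fst.mul ((wt_cont 0).comp continuous_snd)).continuousOn.add
    (continuousOn_tsum (u := fun n : ℕ => 2 * (1 / (n + 1 : ℝ) ^ 2)) (fun n =>
      ((continuous_fst.pow _).mul (((wt_cont _).sub (wt_cont _)).comp continuous_snd)).continuousOn)
      ?_ fun n q hq => ?_)
  · have h := (summable_nat_add_iff 1).2 (Real.summable_one_div_nat_pow.2 one_lt_two)
    push_cast at h
    exact h.mul_left 2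
  · rw [norm_mul, norm_pow]
    exact (mul_le_of_le_one_left (norm_nonneg _) (pow_le_one₀ (norm_nonneg _)
      (mem_closedBall_zero_iff.1 hq.1))).trans (wt_le hq.2.1 hq.2.2 n)

theorem H_one {z : ℂ} (hz : ‖z‖ = 1) (h1 : z ≠ 1) : H (z, 1) = (1 - z) * -log (1 - z) := by
  have h2 : 1 - z ∈ slitPlane := .inl (by
    have k := re_le_norm z
    rw [sub_re, one_re, sub_pos]
    refine (hz ▸ k).lt_of_ne fun c => h1 (Complex.ext c ?_)
    have k2 := Complex.sq_norm z
    rw [hz, normSq_apply, c] at k2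
    rw [one_im]
    nlinarith)
  have h3 : Tendsto (fun r : ℝ => r * z) (𝓝[<] 1) (𝓝 z) := by
    have k : Continuous fun r : ℝ => r * z := by fun_prop
    simpa using (k.tendsto 1).mono_left nhdsWithin_le_nhds
  have h4 : ∀ᶠ r : ℝ in 𝓝[<] 1, ‖r * z‖ < 1 := by
    filter_upwards [Ioo_mem_nhdsLT zero_lt_one] with r hr
    rw [norm_mul, hz, mul_one, norm_real, Real.norm_of_nonneg hr.1.le]
    exact hr.2
  refine tendsto_nhds_unique ((H_cont (z, 1) ⟨mem_closedBall_zero_iff.2 hz.le, le_rfl, one_le_two⟩).tendsto.comp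
    (tendsto_nhdsWithin_iff.2 ⟨h3.prodMk_nhds tendsto_const_nhds, h4.mono fun r hr =>
      ⟨mem_closedBall_zero_iff.2 hr.le, le_rfl, one_le_two⟩⟩))
    ((((h3.const_sub 1).mul ((h3.const_sub 1).clog h2).neg)).congr' (h4.mono fun r hr => ?_))
  have k := hasSum_taylorSeries_neg_log' hr
  have k2 : ∀ n : ℕ, (r * z) ^ (n + 1) / (n + 1) = (r * z) ^ (n + 1) * wt 1 n := fun n => by
    rw [wt, Real.rpow_neg_one, div_eq_mul_inv]
    push_cast
    rfl
  simp only [k2] at k
  exact (congrArg _ k.tsum_eq.symm).trans (abel k.summable)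

theorem sumz {z : ℂ} (hz : ‖z‖ = 1) {s : ℝ} (hs : 1 < s) : LSeriesSummable (fun n => z ^ n) s :=
  LSeriesSummable_of_bounded_of_one_lt_real (m := 1) (fun n _ => by rw [norm_pow, hz, one_pow]) hs

/-- the limit of the polylogarithm -/
theorem li {z : ℂ} (hz : ‖z‖ = 1) (h1 : z ≠ 1) :
    Tendsto (fun s : ℝ => LSeries (fun n => z ^ n) s) (𝓝[>] 1) (𝓝 (-log (1 - z))) := by
  have h0 : 1 - z ≠ 0 := sub_ne_zero.2 h1.symm
  have h2 : ∀ᶠ s : ℝ in 𝓝[>] 1, s ∈ Ioo 1 2 := Ioo_mem_nhdsGT one_lt_two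
  have h3 := ((H_cont (z, 1) ⟨mem_closedBall_zero_iff.2 hz.le, le_rfl, one_le_two⟩).tendsto.comp
    (tendsto_nhdsWithin_iff.2 ⟨(tendsto_const_nhds (x := z)).prodMk_nhds
      (tendsto_id.mono_left nhdsWithin_le_nhds), h2.mono fun s hs =>
      ⟨mem_closedBall_zero_iff.2 hz.le, hs.1.le, hs.2.le⟩⟩)).const_mul (1 - z)⁻¹
  rw [H_one hz h1, inv_mul_cancel_left₀ h0] at h3
  refine h3.congr' (h2.mono fun s hs => ?_)
  have k := sumz hz hs.1
  have k2 : ∀ n : ℕ, LSeries.term (fun n => z ^ n) s (n + 1) = z ^ (n + 1) * wt s n := fun n => by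
    rw [LSeries.term_of_ne_zero n.succ_ne_zero, wt, ofReal_cpow (by positivity), div_eq_mul_inv]
    push_cast
    rw [cpow_neg]
  have k3 := (summable_nat_add_iff 1).2 k
  simp only [k2] at k3
  simp only [LSeries]
  rw [Summable.tsum_eq_zero_add k, LSeries.term_zero, zero_add, tsum_congr k2,
    inv_mul_eq_iff_eq_mul₀ h0]
  exact (abel k3).symm

theorem one_sub (t : ℝ) : 1 - cexp (2 * t * I) =
    (2 * Real.sin t : ℝ) * (cos (t - π / 2 : ℝ) + sin (t - π / 2 : ℝ) * I) := by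
  push_cast
  rw [exp_mul_I, cos_two_mul, sin_two_mul, cos_sub_pi_div_two, sin_sub_pi_div_two]
  linear_combination (-2 : ℂ) * sin_sq_add_cos_sq (t : ℂ)

theorem arg_sub {t : ℝ} (h0 : 0 < t) (h1 : t < π) :
    arg (1 - cexp (2 * t * I)) = t - π / 2 := by
  rw [one_sub, arg_mul_cos_add_sin_mul_I (mul_pos two_pos (Real.sin_pos_of_pos_of_lt_pi h0 h1))
    ⟨by linarith, by linarith⟩]

theorem ne_one {t : ℝ} (h0 : 0 < t) (h1 : t < π) : cexp (2 * t * I) ≠ 1 := by
  refine (sub_ne_zero.1 ?_).symm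
  rw [one_sub, ← exp_mul_I]
  exact mul_ne_zero (ofReal_ne_zero.2 (mul_pos two_pos (Real.sin_pos_of_pos_of_lt_pi h0 h1)).ne')
    (exp_ne_zero _)

theorem lim (hG : GAU) {m : ℕ} (hm : Squarefree m) (h4 : m % 4 = 3) : ∃ V : ℂ,
    V.im = -(π * Hs m / m) ∧
    Tendsto (fun s : ℝ => gs m * LSeries (fun n => chi m n) s) (𝓝[>] 1) (𝓝 V) := by
  have hm0 : (0 : ℝ) < m := by exact_mod_cast (by omega : 0 < m)
  have hc0 : chi m 0 = 0 := jacobiSym.zero_left (by omega)
  let z : ℕ → ℂ := fun b => cexp (2 * (π * b / m : ℝ) * I)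
  have hz : ∀ b, ‖z b‖ = 1 := fun b => by
    simpa [z] using norm_exp_ofReal_mul_I (2 * (π * b / m))
  have ht : ∀ b ∈ Finset.range m, b ≠ 0 → 0 < π * b / m ∧ π * b / m < π := fun b hb h => by
    have k1 : (0 : ℝ) < b := by exact_mod_cast Nat.pos_of_ne_zero h
    have k2 : (b : ℝ) < m := by exact_mod_cast Finset.mem_range.1 hb
    exact ⟨by positivity, (div_lt_iff₀ hm0).2 (mul_lt_mul_of_pos_left k2 Real.pi_pos)⟩
  have hs0 : ∑ b ∈ Finset.range m, (chi m b : ℝ) = 0 := by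
    have k := (hG m hm h4).2 0
    simp only [hc0, Nat.cast_zero, mul_zero, zero_div, exp_zero, mul_one, Int.cast_zero, zero_mul] at k
    exact_mod_cast k
  refine ⟨∑ b ∈ Finset.range m, chi m b * -log (1 - z b), ?_, ?_⟩
  · rw [im_sum, Finset.sum_congr rfl (g := fun b => π / 2 * chi m b - π / m * (chi m b * b))
      fun b hb => ?_, Finset.sum_sub_distrib, ← Finset.mul_sum, ← Finset.mul_sum, hs0, Hs]
    · push_cast
      ring
    · rcases eq_or_ne b 0 with rfl | h
      · simp [hc0]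
      · rw [← ofReal_intCast, im_ofReal_mul, neg_im, log_im, arg_sub (ht b hb h).1 (ht b hb h).2]
        ring
  · refine (tendsto_finsetSum _ (f := fun b (s : ℝ) => chi m b * LSeries (fun n => z b ^ n) s)
      fun b hb => ?_).congr' ?_
    · rcases eq_or_ne b 0 with rfl | h
      · simp [hc0]
      · exact (li (hz b) (ne_one (ht b hb h).1 (ht b hb h).2)).const_mul _
    · filter_upwards [self_mem_nhdsWithin] with s hs
      simp only [← LSeries_smul]
      rw [← LSeries_sum fun b _ => (sumz (hz b) hs).smul _]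
      refine LSeries_congr (fun {n} _ => ?_) _
      rw [Finset.sum_apply, Pi.smul_apply, smul_eq_mul, mul_comm, ← (hG m hm h4).2 n]
      refine Finset.sum_congr rfl fun b _ => ?_
      rw [Pi.smul_apply, smul_eq_mul, ← exp_nat_mul]
      congr 2
      push_cast
      ring

end Cnf

open Cnf in
theorem cnf_of (hG : GAU) : CNF := by
  intro m K _ _ hm h4 h3 hK ⟨s, hs⟩
  obtain ⟨c, hc⟩ : ∃ c, m + 1 = 4 * c := ⟨(m + 1) / 4, by omega⟩
  obtain ⟨q⟩ := qf hm hK hs
  obtain ⟨e⟩ := iso hc q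
  obtain ⟨V, hV, hL⟩ := lim hG hm h4
  have hm0 : (0 : ℝ) < m := by exact_mod_cast (by omega : 0 < m)
  have h1 : Tendsto (fun s : ℝ => ((s : ℂ) - 1) * riemannZeta s) (𝓝[>] 1) (𝓝 1) :=
    riemannZeta_residue_one.comp (tendsto_nhdsWithin_iff.2
      ⟨(continuous_ofReal.tendsto 1).mono_left nhdsWithin_le_nhds, by
        filter_upwards [self_mem_nhdsWithin] with s hs
        exact fun c => (ne_of_gt hs) (ofReal_eq_one.1 c)⟩)
  have h2 : gs m * dedekindZeta_residue K = 1 * V := by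
    refine tendsto_nhds_unique ((tendsto_sub_one_mul_dedekindZeta_nhdsGT K).const_mul _)
      ((h1.mul hL).congr' ?_)
    filter_upwards [self_mem_nhdsWithin] with s hs
    have hs' : 1 < (s : ℂ).re := hs
    have k : dedekindZeta K s = LSeries (fun n => chi m n) s * riemannZeta s := by
      rw [← LSeries_one_eq_riemannZeta hs', ← LSeries_convolution'
        (LSeriesSummable_of_bounded_of_one_lt_re (m := 1) (fun n _ => ?_) hs')
        (LSeriesSummable_one_iff.2 hs'), LSeries.convolution_def, dedekindZeta]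
      · refine LSeries_congr (fun {n} hn => ?_) _
        have k1 := count hc hK e n hn
        simp only [cnt, one_mul] at k1
        simp only [Pi.one_apply, mul_one]
        rw [Nat.sum_divisorsAntidiagonal fun a _ => (chi m a : ℂ)]
        exact_mod_cast k1
      · rcases jacobiSym.trichotomy n m with h | h | h <;> simp [chi, h]
    rw [k]
    ring
  have h5 := (hG m hm h4).1
  have h6 := congrArg re h5
  have h7 := congrArg im h5
  simp only [sq, mul_re, mul_im, neg_re, neg_im, natCast_re, natCast_im, neg_zero] at h6 h7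
  have h8 : (gs m).im ^ 2 = m := by
    rcases mul_eq_zero.1 (by linarith : (gs m).re * (gs m).im = 0) with h | h
    · rw [h] at h6
      linarith
    · rw [h] at h6
      nlinarith [mul_self_nonneg (gs m).re]
  have h9 := congrArg im h2
  rw [one_mul, hV, im_mul_ofReal, resid h3 hc hK hs e] at h9
  have h10 := congrArg (· ^ 2) h9
  simp only [mul_pow, div_pow, h8, Real.sq_sqrt hm0.le, neg_sq] at h10
  have h11 : (Hs m : ℝ) ^ 2 = (m * classNumber K) ^ 2 := by
    field_simp at h10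
    linarith
  exact_mod_cast h11

end Vale.Agent.P014Z
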