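import Vale.Agent.P014Z.Ga
import Vale.Agent.P017.H185.MW

/-!
# P014Z: a divisible Mordell-Weil group is finite
-/

open WeierstrassCurve
open scoped Classical
open Vale.Agent.P014

namespace Vale.Agent.P014Z

namespace FinA

variable {G : Type} [AddCommGroup G] {h : G → ℝ} {C : ℝ}

theorem inc (H : ∀ x y, |h (x + y) + h (x - y) - 2 * (h x + h y)| ≤ C) (n : ℕ) :
    ∃ c, ∀ Q, (2 * n + 1) * h Q - c ≤ h ((n + 1) • Q) - h (n • Q) := by
  induction n with
  | zero => exact ⟨h 0, fun Q => by simp⟩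
  | succ n ih =>
    obtain ⟨c, hc⟩ := ih
    refine ⟨c + C, fun Q => ?_⟩
    have h1 := (abs_le.1 (H ((n + 1) • Q) Q)).1
    have e1 : (n + 1) • Q + Q = (n + 1 + 1) • Q := (succ_nsmul _ _).symm
    have e2 : (n + 1) • Q - Q = n • Q := by rw [succ_nsmul, add_sub_cancel_right]
    rw [e1, e2] at h1
    have h2 := hc Q
    push_cast
    linarith

theorem low (h0 : ∀ x, 0 ≤ h x) (H : ∀ x y, |h (x + y) + h (x - y) - 2 * (h x + h y)| ≤ C)
    (n : ℕ) : ∃ c, ∀ Q, (n : ℝ) ^ 2 * h Q - c ≤ h (n • Q) := by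
  induction n with
  | zero => exact ⟨0, fun Q => by simpa using h0 0⟩
  | succ n ih =>
    obtain ⟨c, hc⟩ := ih
    obtain ⟨d, hd⟩ := inc H n
    refine ⟨c + d, fun Q => ?_⟩
    have h1 := hc Q
    have h2 := hd Q
    push_cast
    linarith

theorem fin (h0 : ∀ x, 0 ≤ h x) (H : ∀ x y, |h (x + y) + h (x - y) - 2 * (h x + h y)| ≤ C)
    (hN : ∀ B, {x | h x ≤ B}.Finite) {p : ℕ} (hp : 2 ≤ p) (hd : ∀ P : G, ∃ Q, p • Q = P) :
    Finite G := by
  obtain ⟨c, hc⟩ := low h0 H p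
  choose r hr using hd
  have hp' : (4 : ℝ) ≤ (p : ℝ) ^ 2 := by
    have : (2 : ℝ) ≤ p := by exact_mod_cast hp
    nlinarith
  have h4 : ∀ P, 4 * h (r P) ≤ h P + c := fun P => by
    have h1 := hc (r P)
    rw [hr] at h1
    nlinarith [h0 (r P)]
  have inj : Function.Injective r := fun a b e => by rw [← hr a, ← hr b, e]
  have hS := hN (c / 3)
  have maps : Set.MapsTo r {x | h x ≤ c / 3} {x | h x ≤ c / 3} := fun x hx => by
    have h1 := h4 x
    have h2 : h x ≤ c / 3 := hx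
    change h (r x) ≤ c / 3
    linarith
  have sur := ((hS.injOn_iff_bijOn_of_mapsTo maps).1 inj.injOn).surjOn
  have all : ∀ P, h P ≤ c / 3 := by
    intro P
    by_contra hP
    have hf : ({x | h x ≤ h P} ∩ {x | ¬ h x ≤ c / 3}).Finite := (hN _).inter_of_left _
    obtain ⟨Q, ⟨hQ1, hQ2⟩, hmin⟩ := Set.exists_min_image _ h hf ⟨P, le_refl (h P), hP⟩
    have h1 := h4 Q
    have h2 : ¬ h Q ≤ c / 3 := hQ2
    have h3 : h Q ≤ h P := hQ1
    have h5 : h (r Q) ≤ c / 3 := by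
      by_contra h6
      have := hmin (r Q) ⟨show h (r Q) ≤ h P by linarith, h6⟩
      linarith
    obtain ⟨x, hx, e⟩ := sur h5
    rw [inj e] at hx
    exact h2 hx
  exact Set.finite_univ_iff.1 (hS.subset fun x _ => all x)

theorem ndvd [Finite G] {p : ℕ} (hp : p.Prime) (hd : ∀ P : G, ∃ Q, p • Q = P) :
    ¬ p ∣ Nat.card (AddCommGroup.torsion G) := by
  intro h
  have : Fact p.Prime := ⟨hp⟩
  obtain ⟨x, hx⟩ := exists_prime_addOrderOf_dvd_card' p h
  have inj : Function.Injective fun Q : G => p • Q := Finite.injective_iff_surjective.2 hd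
  have h1 : p • (x : G) = p • (0 : G) := by
    rw [smul_zero, ← hx]
    exact_mod_cast addOrderOf_nsmul_eq_zero x
  have h2 : x = 0 := Subtype.ext (inj h1)
  rw [h2, addOrderOf_zero] at hx
  exact hp.one_lt.ne hx

end FinA

theorem fin_of (hV : VC) : FIN := by
  intro E hE p hp hd
  suffices hf : Finite E.toAffine.Point from ⟨hf, FinA.ndvd hp hd⟩
  obtain ⟨θ, -⟩ := hV ℚ E _ ⟨1, 0, -E.a₁ / 2, -E.a₃ / 2⟩ rfl
  set W := (⟨1, 0, -E.a₁ / 2, -E.a₃ / 2⟩ : VariableChange ℚ) • E with hW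
  have h1 : W.a₁ = 0 := by
    rw [hW, variableChange_a₁]
    ring
  have h3 : W.a₃ = 0 := by
    rw [hW, variableChange_a₃]
    ring
  have : W.IsElliptic := ⟨by
    rw [hW, variableChange_Δ]
    simpa using hE⟩
  obtain ⟨C, hC⟩ := P017.H185.parallelogram W h1 h3
  have hN := P017.H185.northcott W h1 h3
  have : Finite W.toAffine.Point := FinA.fin P017.H185.ht_nonneg hC hN.finite_le hp.two_le
    fun P => by
      obtain ⟨Q, hQ⟩ := hd (θ P)
      exact ⟨θ.symm Q, θ.injective (by rw [map_nsmul, θ.apply_symm_apply, hQ])⟩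
  exact Finite.of_equiv _ θ.toEquiv

end Vale.Agent.P014Z
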