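import Vale.Agent.P014Z.Ga

/-!
# P014Z: Hilbert's theorem 90 for a stabilizer
-/

open scoped Classical

set_option linter.all false

noncomputable section

namespace Vale.Agent.P014Z

theorem h90 : H90 := by
  intro k Ω _ _ _ _ s u h5 hc ⟨A, hA⟩
  let L := (FiniteGaloisIntermediateField.adjoin k (insert s (A : Set Ω))).toIntermediateField
  have hL : insert s (A : Set Ω) ⊆ L := FiniteGaloisIntermediateField.subset_adjoin _ _
  let r : (Ω ≃ₐ[k] Ω) →* (L ≃ₐ[k] L) := AlgEquiv.restrictNormalHom L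
  have hr : ∀ σ (x : L), (r σ x : Ω) = σ x := fun σ x => AlgEquiv.restrictNormal_apply L σ x
  choose l hl using (AlgEquiv.restrictNormalHom_surjective Ω : Function.Surjective r)
  let s' : L := ⟨s, hL (Set.mem_insert _ _)⟩
  let H := MulAction.stabilizer (L ≃ₐ[k] L) s'
  have hH : ∀ σ, r σ ∈ H ↔ σ s = s := fun σ => by
    rw [MulAction.mem_stabilizer_iff, Subtype.ext_iff]
    exact Eq.congr_left (hr σ s')
  have u0 : ∀ σ, u σ ≠ 0 := fun σ h => by simpa [h] using h5 σ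
  have ur : ∀ σ τ, σ s = s → r σ = r τ → u τ = u σ := fun σ τ hs e => by
    have e1 : r (σ⁻¹ * τ) = 1 := by rw [map_mul, map_inv, e, inv_mul_cancel]
    have e2 : ∀ a ∈ insert s (A : Set Ω), (σ⁻¹ * τ) a = a := fun a ha => by
      have := hr (σ⁻¹ * τ) ⟨a, hL ha⟩
      rw [e1] at this
      exact this.symm
    have e3 := e2 s (Set.mem_insert _ _)
    have e4 := hc σ _ hs e3
    rw [hA _ e3 fun a ha => e2 a (Set.mem_insert_of_mem _ ha), map_one, mul_one,
      mul_inv_cancel_left] at e4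
    exact e4
  have ls : ∀ g : H, l g s = s := fun g => (hH _).1 (by rw [hl]; exact g.2)
  let φ : H → (L →* Ω) := fun g => ((algebraMap L Ω).comp (g.1 : L →+* L) : L →+* Ω)
  have φa : ∀ g b, φ g b = (g.1 b : Ω) := fun _ _ => rfl
  have hφ : Function.Injective φ := fun g g' e =>
    Subtype.ext (AlgEquiv.ext fun b => Subtype.ext (by rw [← φa, ← φa, e]))
  have li := (linearIndependent_monoidHom L Ω).comp φ hφ
  have ne : ∑ g : H, (u (l g))⁻¹ • (φ g : L → Ω) ≠ 0 := fun h =>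
    inv_ne_zero (u0 _) (Fintype.linearIndependent_iff.1 li _ h 1)
  obtain ⟨b, hb⟩ := Function.ne_iff.1 ne
  simp only [Finset.sum_apply, Pi.smul_apply, smul_eq_mul, Pi.zero_apply, φa] at hb
  refine ⟨_, hb, fun σ hσ => ?_⟩
  rw [map_sum, Finset.mul_sum, ← Equiv.sum_comp (Equiv.mulLeft (⟨r σ, (hH σ).2 hσ⟩ : H))
    fun g : H => u σ * ((u (l g))⁻¹ * (g.1 b : Ω))]
  refine Finset.sum_congr rfl fun g _ => ?_
  have e1 : u (l (r σ * g.1)) = u σ * σ (u (l g)) := by
    rw [← hc σ _ hσ (ls g)]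
    refine ur _ _ ?_ (by rw [map_mul, hl, hl])
    rw [AlgEquiv.mul_apply, ls, hσ]
  have e2 : (((r σ * g.1) b : L) : Ω) = σ (g.1 b) := by rw [AlgEquiv.mul_apply, hr]
  show σ _ = u σ * ((u (l (r σ * g.1)))⁻¹ * (((r σ * g.1) b : L) : Ω))
  rw [e1, e2, map_mul, map_inv₀, mul_inv, ← mul_assoc, ← mul_assoc, mul_inv_cancel₀ (u0 σ),
    one_mul]

end Vale.Agent.P014Z
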