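import Vale.Agent.P014Z.An

/-!
# P014Z: odd homomorphisms on `Γ₀(11)` which kill the parabolic elements
-/

namespace Vale.Agent.P014Z

namespace HomH

/-- the conclusion of `HOM` -/
def P (g : G0) : Prop := ∃ k : ℤ, ∀ (A : Type) [AddCommGroup A] (φ : G0 → A),
  (∀ x : A, x + x = 0 → x = 0) → Hm φ → φ g = k • φ G0.V

variable {g h : G0}

theorem P.mul : P g → P h → P (g.mul h) := fun ⟨k, a⟩ ⟨l, b⟩ =>
  ⟨k + l, fun A _ φ h2 hφ => by rw [hφ.mul, a A φ h2 hφ, b A φ h2 hφ, add_smul]⟩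

theorem P.left : P (g.mul h) → P h → P g := fun ⟨k, a⟩ ⟨l, b⟩ =>
  ⟨k - l, fun A _ φ h2 hφ => by rw [sub_smul, ← a A φ h2 hφ, ← b A φ h2 hφ, hφ.mul, add_sub_cancel_right]⟩

theorem P.right : P (g.mul h) → P g → P h := fun ⟨k, a⟩ ⟨l, b⟩ =>
  ⟨k - l, fun A _ φ h2 hφ => by rw [sub_smul, ← a A φ h2 hφ, ← b A φ h2 hφ, hφ.mul, add_sub_cancel_left]⟩

theorem P.bar : P g → P g.bar := fun ⟨k, a⟩ =>
  ⟨-k, fun A _ φ h2 hφ => by rw [hφ.odd, a A φ h2 hφ, neg_smul]⟩

theorem pT : P G0.T := ⟨0, fun _ _ _ _ hφ => by rw [hφ.T, zero_smul]⟩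

theorem pU : P G0.U := ⟨0, fun _ _ _ _ hφ => by rw [hφ.U, zero_smul]⟩

theorem pN : P G0.N := ⟨0, fun _ _ _ _ hφ => by rw [hφ.N, zero_smul]⟩

theorem pV : P G0.V := ⟨1, fun _ _ _ _ _ => by rw [one_smul]⟩

/-- translations -/
def Tj (j : ℤ) : G0 := ⟨1, j, 0, 1, by norm_num⟩

theorem Tj_succ (j : ℤ) : Tj (j + 1) = (Tj j).mul G0.T := by
  ext <;> simp [Tj, G0.mul, G0.T, add_comm]

theorem pTj (j : ℤ) : P (Tj j) := by
  induction j using Int.induction_on with
  | zero => exact (show G0.N.mul G0.N = Tj 0 from rfl) ▸ pN.mul pN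
  | succ j ih => exact Tj_succ j ▸ ih.mul pT
  | pred j ih => exact P.left (by rwa [← Tj_succ, sub_add_cancel]) pT

theorem P.same (hp : P h) (ha : g.a = h.a) (hc : g.c = h.c) : P g := by
  have k1 := g.det
  have k2 := h.det
  rw [ha, hc] at k1
  have : g = h.mul (Tj (h.d * g.b - h.b * g.d)) := by
    ext <;> simp only [Tj, G0.mul]
    · linear_combination ha
    · linear_combination h.b * k1 - g.b * k2
    · linear_combination hc
    · linear_combination h.d * k1 - g.d * k2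
  exact this ▸ hp.mul (pTj _)

theorem zero (hc : g.c = 0) : P g := by
  have k := g.det
  rw [hc, mul_zero, mul_zero, sub_zero] at k
  exact (Int.eq_one_or_neg_one_of_mul_eq_one k).elim (fun a => pT.same a hc) fun a => pN.same a hc

/-- the residue of `a` is represented -/
def R (a : ℤ) : Prop := ∀ g : G0, g.c = 1 → (g.a - a) % 11 = 0 → P g

theorem P.r (hp : P h) (hc : h.c = 1) : R h.a := fun g k1 k2 =>
  ((pTj ((g.a - h.a) / 11)).mul hp).same (by simp only [Tj, G0.mul, hc]; omega)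
    (by simp [Tj, G0.mul, hc, k1])

theorem P.r' (hp : P h) (hc : h.c = 1) : R h.a ∧ R (-h.a) ∧ R h.d ∧ R (-h.d) := by
  have k (h : G0) (hp : P h) (hc : h.c = 1) : R (-h.a) := by
    simpa [G0.mul, G0.N, G0.bar] using (pN.mul hp.bar).r (by simp [G0.mul, G0.N, G0.bar, hc])
  let h' : G0 := ⟨h.d, h.b, h.c, h.a, by linear_combination h.det⟩
  have k1 : P h' := (P.right (h := h'.bar) (zero (by simp [G0.mul, G0.bar, h', mul_comm])) hp).bar.same
    rfl (neg_neg _).symm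
  exact ⟨hp.r hc, k h hp hc, k1.r hc, k h' k1 hc⟩

theorem p6 : P ⟨6, 1, 1, 2, by norm_num⟩ := ⟨0, fun _ _ φ h2 hφ => by
  have k : G0.T.mul ((G0.bar ⟨6, 1, 1, 2, by norm_num⟩).mul G0.U) = ⟨6, 1, 1, 2, by norm_num⟩ := rfl
  have k1 := congrArg φ k
  rw [hφ.mul, hφ.mul, hφ.T, hφ.U, hφ.odd, zero_add, add_zero, neg_eq_iff_add_eq_zero] at k1
  rw [h2 _ k1, zero_smul]⟩

theorem ndvd (g : G0) : ¬ 11 ∣ g.a ∧ ¬ 11 ∣ g.d := by
  have k := g.det
  constructor <;> rintro ⟨i, hi⟩ <;> rw [hi] at k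
  · have : 11 * (i * g.d - g.b * g.c) = 1 := by linear_combination k
    omega
  · have : 11 * (i * g.a - g.b * g.c) = 1 := by linear_combination k
    omega

theorem one (hc : g.c = 1) : P g := by
  obtain ⟨a1, a2, -⟩ : R 1 ∧ R (-1) ∧ _ := pU.r' rfl
  obtain ⟨b1, b2, b3, b4⟩ : R 4 ∧ R (-4) ∧ R 3 ∧ R (-3) := pV.r' rfl
  obtain ⟨c1, c2, c3, c4⟩ : R 6 ∧ R (-6) ∧ R 2 ∧ R (-2) := p6.r' rfl
  have := (ndvd g).1
  by_contra hn
  have := mt (a1 g hc) hn
  have := mt (a2 g hc) hn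
  have := mt (b1 g hc) hn
  have := mt (b2 g hc) hn
  have := mt (b3 g hc) hn
  have := mt (b4 g hc) hn
  have := mt (c1 g hc) hn
  have := mt (c2 g hc) hn
  have := mt (c3 g hc) hn
  have := mt (c4 g hc) hn
  omega

theorem step {c d : ℤ} (hc : c ≠ 0) (hd : ¬ 11 ∣ d) :
    ∃ k, ¬ 11 ∣ k ∧ (c * k + d).natAbs < c.natAbs := by
  have h1 := Int.emod_nonneg d hc
  have h2 := Int.emod_lt d hc
  have h3 := Int.mul_ediv_add_emod d c
  by_cases h : 11 ∣ d / c
  · have h4 : d % c ≠ 0 := fun k => hd (by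
      rw [← h3, k, add_zero]
      exact h.mul_left c)
    rcases hc.lt_or_gt with h5 | h5
    · exact ⟨-(d / c) + 1, by omega, by
        rw [show c * (-(d / c) + 1) + d = d % c + c by linear_combination -h3]
        omega⟩
    · exact ⟨-(d / c) - 1, by omega, by
        rw [show c * (-(d / c) - 1) + d = d % c - c by linear_combination -h3]
        omega⟩
  · exact ⟨-(d / c), by omega, by
      rw [show c * -(d / c) + d = d % c by linear_combination -h3]
      omega⟩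

theorem all (g : G0) : P g := by
  induction hn : g.c.natAbs using Nat.strong_induction_on generalizing g with
  | _ n ih =>
    by_cases hc : g.c = 0
    · exact zero hc
    obtain ⟨k, h1, h2⟩ := step hc (ndvd g).2
    obtain ⟨u, v, h3⟩ := (Int.prime_iff_natAbs_prime.2 (by norm_num) : Prime (11 : ℤ)).coprime_iff_not_dvd.2 h1
    refine P.left (h := ⟨k, -u, 1, v, by linear_combination h3⟩) (ih _ ?_ _ rfl) (one rfl)
    simpa only [G0.mul, mul_one, ← hn] using h2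

end HomH

theorem hom : HOM := HomH.all

end Vale.Agent.P014Z
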