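import Vale.Agent.P014Z.Ga

/-!
# P014Z: the Kummer part, and the place eleven
-/

open NumberField
open scoped Classical
open Vale.Agent.P014

noncomputable section

namespace Vale.Agent.P014Z

namespace KumH

variable {p : ℕ} [Fact p.Prime]

theorem norm_root {t : Qp p} (h : t ^ 5 = 1) : ‖t‖ = 1 := by
  have h1 : ‖t‖ ^ 5 = 1 := by rw [← norm_pow, h, norm_one]
  exact (pow_eq_one_iff_of_nonneg (norm_nonneg t) (by norm_num)).1 h1

theorem sq_of (hV : VAL) {m : ℕ} {s : Qp p} (hs : s ^ 2 = -(m : Qp p)) {x y : Qp p} (hx : x ≠ 0)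
    (hy : ‖y‖ = ‖x‖ ^ 2) (h1 : ∀ τ : Gp p, Ine τ → τ s = s → τ y = y)
    (h2 : ∀ τ : Gp p, Ine τ → τ s = s → τ (x ^ 5) = x ^ 5) : ∃ k : ℤ, ‖x‖ ^ 2 = (p : ℝ) ^ k := by
  have hx0 : ‖x‖ ≠ 0 := norm_ne_zero_iff.2 hx
  have hp : (p : ℝ) ≠ 0 := Nat.cast_ne_zero.2 (Fact.out : p.Prime).ne_zero
  obtain ⟨k, hk⟩ := hV p m s hs y (norm_ne_zero_iff.1 (hy ▸ pow_ne_zero 2 hx0)) h1
  obtain ⟨l, hl⟩ := hV p m s hs (x ^ 5) (pow_ne_zero 5 hx) h2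
  refine ⟨l - k * 2, ?_⟩
  rw [zpow_sub₀ hp, zpow_mul, ← hk, ← hl, hy, norm_pow, zpow_ofNat]
  field_simp

theorem res_fix {ι : Qb →ₐ[ℚ] Qp p} {τ : Gp p} {σ : GQ} (h : Res ι τ σ) {s : Qb}
    (hs : τ (ι s) = ι s) : σ s = s := ι.toRingHom.injective ((h s).trans hs)

theorem res_neg {ι : Qb →ₐ[ℚ] Qp p} {τ : Gp p} {σ : GQ} (h : Res ι τ σ) {s : Qb}
    (hs : τ (ι s) = -ι s) : σ s = -s :=
  ι.toRingHom.injective ((h s).trans (hs.trans (map_neg ι s).symm))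

theorem res_uniq {ι : Qb →ₐ[ℚ] Qp p} {τ : Gp p} {σ σ' : GQ} (h : Res ι τ σ) (h' : Res ι τ σ') :
    σ = σ' := AlgEquiv.ext fun x => ι.toRingHom.injective ((h x).trans (h' x).symm)

theorem res_mul {ι : Qb →ₐ[ℚ] Qp p} {τ τ' : Gp p} {σ σ' : GQ} (h : Res ι τ σ)
    (h' : Res ι τ' σ') : Res ι (τ * τ') (σ * σ') := fun x => by
  rw [AlgEquiv.mul_apply, AlgEquiv.mul_apply, h, h']

theorem sq_map (ι : Qb →ₐ[ℚ] Qp p) {m : ℕ} {s : Qb} (hs : s ^ 2 = -(m : Qb)) :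
    (ι s) ^ 2 = -(m : Qp p) := by rw [← map_pow, hs, map_neg, map_natCast]

theorem neg_ne {m : ℕ} (hm : Ok m) {s : Qb} (hs : s ^ 2 = -(m : Qb)) : -s ≠ s := fun h => by
  have h1 : s = 0 := self_eq_neg.1 h.symm
  rw [h1, zero_pow two_ne_zero, eq_comm, neg_eq_zero, Nat.cast_eq_zero] at hs
  have := hm.gt
  omega

theorem conj_fix {k Ω : Type} [Field k] [Field Ω] [Algebra k Ω] {ρ σ : Ω ≃ₐ[k] Ω} {s : Ω}
    (hρ : ρ s = -s) (hσ : σ s = s) : (ρ⁻¹ * σ * ρ) s = s := by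
  rw [AlgEquiv.mul_apply, AlgEquiv.mul_apply, hρ, map_neg, hσ, ← hρ, ← AlgEquiv.mul_apply,
    inv_mul_cancel, AlgEquiv.one_apply]

theorem exists_zeta [Fact (Nat.Prime 11)] : ∃ ζ : ℚ_[11], ζ ^ 5 = 1 ∧ ζ ≠ 1 := by
  have h1 : ‖((405 : ℤ) : ℤ_[11])‖ = 1 := PadicInt.norm_intCast_eq_one_iff.2 (by decide)
  have h2 : ‖((242 : ℤ) : ℤ_[11])‖ < 1 := PadicInt.norm_intCast_lt_one_iff.2 (by decide)
  have h3 : ‖((-2 : ℤ) : ℤ_[11])‖ = 1 := PadicInt.norm_intCast_eq_one_iff.2 (by decide)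
  have e1 : (Polynomial.X ^ 5 - 1 : Polynomial ℤ).derivative.aeval (3 : ℤ_[11]) =
      ((405 : ℤ) : ℤ_[11]) := by
    simp [map_ofNat]
    norm_num
  have e2 : (Polynomial.X ^ 5 - 1 : Polynomial ℤ).aeval (3 : ℤ_[11]) = ((242 : ℤ) : ℤ_[11]) := by
    simp
    norm_num
  obtain ⟨z, hz, hd, -⟩ := hensels_lemma (F := (Polynomial.X ^ 5 - 1 : Polynomial ℤ))
    (a := (3 : ℤ_[11])) (by rw [e1, e2, h1, one_pow]; exact h2)
  rw [e1, h1] at hd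
  have h4 : z ^ 5 = 1 := by simpa [sub_eq_zero] using hz
  refine ⟨z, by rw [← PadicInt.coe_pow, h4, PadicInt.coe_one], fun h => ?_⟩
  have h5 : z = 1 := Subtype.ext h
  have h6 : z - 3 = ((-2 : ℤ) : ℤ_[11]) := by
    rw [h5]
    norm_num
  rw [h6, h3] at hd
  exact lt_irrefl _ hd

theorem root_eq [Fact (Nat.Prime 11)] {t : Qp 11} (h : t ^ 5 = 1) (h' : ‖t - 1‖ < 1) : t = 1 := by
  by_contra hne
  have h1 : t ^ 4 + t ^ 3 + t ^ 2 + t + 1 = 0 :=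
    mul_left_cancel₀ (sub_ne_zero.2 hne) (by linear_combination h)
  have h2 : ((5 : ℤ) : Qp 11) = (t - 1) * -(t ^ 3 + (2 : ℤ) * t ^ 2 + ((3 : ℤ) * t + (4 : ℤ))) := by
    push_cast
    linear_combination h1
  have h3 : ‖((5 : ℤ) : Qp 11)‖ = 1 := by
    rw [← map_intCast (algebraMap ℚ_[11] (Qp 11))]
    exact (PadicAlgCl.norm_extends 11 _).trans (Padic.norm_intCast_eq_one_iff.2 (by decide))
  have ht := norm_root h
  have hz : ∀ n : ℤ, ‖(n : Qp 11)‖ ≤ 1 := fun n => IsUltrametricDist.norm_intCast_le_one _ n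
  have h4 : ‖t ^ 3 + (2 : ℤ) * t ^ 2 + ((3 : ℤ) * t + (4 : ℤ))‖ ≤ 1 := by
    refine (IsUltrametricDist.norm_add_le_max _ _).trans (max_le
      ((IsUltrametricDist.norm_add_le_max _ _).trans (max_le ?_ ?_))
      ((IsUltrametricDist.norm_add_le_max _ _).trans (max_le ?_ (hz 4))))
    · rw [norm_pow, ht, one_pow]
    · rw [norm_mul, norm_pow, ht, one_pow, mul_one]
      exact hz 2
    · rw [norm_mul, ht, mul_one]
      exact hz 3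
  rw [h2, norm_mul, norm_neg] at h3
  exact absurd h3 (lt_of_le_of_lt (mul_le_of_le_one_right (norm_nonneg _) h4) h').ne

end KumH

open KumH

theorem kum_of (h90 : H90) (hR : RES) (hI : ISO) (hV : VAL) (hN : NS) (hF : FXK) (hP : FIF) :
    KUM := by
  intro m K _ _ hm hK s hs u hu hfin hc hc' hun
  have hm0 : 0 < m := by have := hm.gt; omega
  obtain ⟨A, hA⟩ := hfin
  have : IsAlgClosure ℚ Qb := AlgebraicClosure.instIsAlgClosure ℚ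
  have : IsGalois ℚ Qb := IsAlgClosure.isGalois ℚ Qb
  obtain ⟨x, hx, hσ⟩ := h90 ℚ Qb s u hu (fun σ τ h _ => hc σ τ h) ⟨A, fun σ _ h => hA σ h⟩
  obtain ⟨j, hj⟩ := hF m K hm0 hK s hs
  have h5 : ∀ σ : GQ, σ s = s → σ (x ^ 5) = x ^ 5 := fun σ h => by
    rw [map_pow, hσ σ h, mul_pow, hu, one_mul]
  obtain ⟨a, ha⟩ := (hj _).1 h5
  have ha0 : a ≠ 0 := by
    rintro rfl
    exact pow_ne_zero 5 hx (by rw [← ha, map_zero])
  have key : ∀ (p : ℕ) [Fact p.Prime] (ι : Qb →ₐ[ℚ] Qp p), ∃ k : ℤ, ‖ι x‖ ^ 2 = (p : ℝ) ^ k := by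
    intro p _ ι
    have hx' : ι x ≠ 0 := (map_ne_zero ι).2 hx
    by_cases hp : p = 5 ∨ p = 11
    · obtain ⟨τ₀, hτ₀⟩ := hN m hm p hp (ι s) (sq_map ι hs)
      obtain ⟨ρ, hρ⟩ := hR p ι τ₀
      have hρs := res_neg hρ hτ₀
      refine sq_of hV (sq_map ι hs) (y := ι (x * ρ x * u ρ)) hx' ?_ (fun τ _ hτ => ?_)
        fun τ _ hτ => ?_
      · rw [map_mul, map_mul, norm_mul, norm_mul, hρ, hI,
          norm_root (t := ι (u ρ)) (by rw [← map_pow, hu, map_one]), mul_one, sq]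
      · obtain ⟨σ, h⟩ := hR p ι τ
        have h1 := res_fix h hτ
        have h2 := hσ _ (conj_fix hρs h1)
        have h3 := hc σ ρ h1
        have h4 := hc' ρ (ρ⁻¹ * σ * ρ) (hρs ▸ neg_ne hm hs)
        have e : ρ * (ρ⁻¹ * σ * ρ) = σ * ρ := by group
        have h6 : σ (ρ x) = ρ (u (ρ⁻¹ * σ * ρ)) * ρ x := by
          rw [← map_mul, ← h2, ← AlgEquiv.mul_apply ρ, e, AlgEquiv.mul_apply]
        rw [e, h3] at h4
        rw [← h]
        congr 1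
        rw [map_mul, map_mul, hσ σ h1, h6]
        linear_combination x * ρ x * h4
      · obtain ⟨σ, h⟩ := hR p ι τ
        rw [← map_pow ι, ← h, h5 σ (res_fix h hτ)]
    · push Not at hp
      refine hV p m (ι s) (sq_map ι hs) _ hx' fun τ hτ hτ' => ?_
      obtain ⟨σ, h⟩ := hR p ι τ
      have h1 := res_fix h hτ'
      rw [← h, hσ σ h1, hun p hp.1 hp.2 ι τ σ h hτ h1, one_mul]
  obtain ⟨b, rfl⟩ := hP m K hm0 hK j a ha0 fun p _ ι => by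
    obtain ⟨k, hk⟩ := key p ι
    refine ⟨k, ?_⟩
    rw [ha, map_pow, norm_pow, ← pow_mul, mul_comm 5 2, pow_mul, hk, mul_comm, zpow_mul, zpow_ofNat]
  have hb : j b ≠ 0 := (map_ne_zero j).2 (pow_ne_zero_iff (by norm_num) |>.1 ha0)
  refine ⟨x / j b, ?_, fun σ h => ?_⟩
  · rw [div_pow, ← map_pow j, ha, div_self (pow_ne_zero 5 hx)]
  · rw [map_div₀, hσ σ h, (hj _).2 ⟨b, rfl⟩ σ h, mul_div_assoc]

theorem u11_of (h90 : H90) (hR : RES) (hI : ISO) (hV : VAL) (hN : NS) : U11 := by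
  intro m hm s hs α hfin hc p _ hp ι τ σ hτσ hτ hσs
  subst hp
  obtain ⟨ζ₀, hζ₀, hζ₁⟩ := exists_zeta
  obtain ⟨ζ, hζ⟩ : ∃ ζ, ζ = algebraMap ℚ_[11] (Qp 11) ζ₀ := ⟨_, rfl⟩
  have h5 : ζ ^ 5 = 1 := by rw [hζ, ← map_pow, hζ₀, map_one]
  have hfix : ∀ (τ : Gp 11) (n : ℕ), τ (ζ ^ n) = ζ ^ n := fun τ n => by
    rw [map_pow, hζ, AlgEquiv.commutes]
  have hadd : ∀ a b : ZMod 5, ζ ^ (a + b).val = ζ ^ a.val * ζ ^ b.val := fun a b => by
    rw [ZMod.val_add, ← pow_eq_pow_mod _ h5, pow_add]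
  choose res hres using hR 11 ι
  have hmul : ∀ τ τ', res (τ * τ') = res τ * res τ' := fun τ τ' =>
    res_uniq (hres _) (res_mul (hres τ) (hres τ'))
  have hu : ∀ τ, (ζ ^ (α (res τ)).val) ^ 5 = 1 := fun τ => by
    rw [← pow_mul, mul_comm, pow_mul, h5, one_pow]
  obtain ⟨A, hA⟩ := hfin
  obtain ⟨x, hx, hσ⟩ := h90 ℚ_[11] (Qp 11) (ι s) (fun τ => ζ ^ (α (res τ)).val) hu
    (fun τ τ' h _ => by
      rw [hmul, hc, hfix, eps, if_pos (res_fix (hres τ) h), Int.cast_one, one_mul, hadd])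
    ⟨A.image ι, fun τ _ h => by
      rw [hA _ fun a ha => res_fix (hres τ) (h _ (Finset.mem_image_of_mem ι ha))]
      simp⟩
  obtain ⟨τ₀, hτ₀⟩ := hN m hm 11 (Or.inr rfl) (ι s) (sq_map ι hs)
  have hρs := res_neg (hres τ₀) hτ₀
  obtain ⟨k, hk⟩ := sq_of hV (sq_map ι hs) (y := x * τ₀ x) hx (by rw [norm_mul, hI, sq])
    (fun τ _ h => by
      have h2 := hσ _ (conj_fix hτ₀ h)
      have e : τ₀ * (τ₀⁻¹ * τ * τ₀) = τ * τ₀ := by group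
      have h3 : α (res τ₀ * res (τ₀⁻¹ * τ * τ₀)) = α (res τ * res τ₀) := by
        rw [← hmul, ← hmul, e]
      rw [hc, hc, eps, eps, if_neg (hρs ▸ neg_ne hm hs), if_pos (res_fix (hres τ) h)] at h3
      have h4 : α (res τ) + α (res (τ₀⁻¹ * τ * τ₀)) = 0 := by
        push_cast at h3
        linear_combination -h3
      have h6 := hadd (α (res τ)) (α (res (τ₀⁻¹ * τ * τ₀)))
      rw [h4, ZMod.val_zero, pow_zero] at h6
      have h7 : τ (τ₀ x) = ζ ^ (α (res (τ₀⁻¹ * τ * τ₀))).val * τ₀ x := by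
        rw [← AlgEquiv.mul_apply, ← e, AlgEquiv.mul_apply, h2, map_mul, hfix]
      rw [map_mul, hσ τ h, h7]
      linear_combination -(x * τ₀ x) * h6)
    fun τ _ h => by rw [map_pow, hσ τ h, mul_pow, hu, one_mul]
  have hτs : τ (ι s) = ι s := by rw [← hτσ, hσs]
  have h11 : ‖((11 : ℕ) : Qp 11)‖ = ((11 : ℕ) : ℝ)⁻¹ := by
    rw [← map_natCast (algebraMap ℚ_[11] (Qp 11))]
    exact (PadicAlgCl.norm_extends 11 _).trans Padic.norm_p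
  have hv : ‖x ^ 2 * ((11 : ℕ) : Qp 11) ^ k‖ = 1 := by
    rw [norm_mul, norm_pow, norm_zpow, hk, h11, inv_zpow, mul_inv_cancel₀ (by positivity)]
  have h1 := hτ _ hv.le
  have h2 : τ (x ^ 2 * ((11 : ℕ) : Qp 11) ^ k) - x ^ 2 * ((11 : ℕ) : Qp 11) ^ k =
      ((ζ ^ (α (res τ)).val) ^ 2 - 1) * (x ^ 2 * ((11 : ℕ) : Qp 11) ^ k) := by
    rw [map_mul, map_pow, map_zpow₀, map_natCast, hσ τ hτs]
    ring
  rw [h2, norm_mul, hv, mul_one] at h1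
  have h3 := root_eq (by rw [← pow_mul, mul_comm, pow_mul, hu, one_pow]) h1
  have h4 : ζ ^ (α (res τ)).val = 1 := by
    have h6 := hu τ
    generalize ζ ^ (α (res τ)).val = t at h3 h6 ⊢
    linear_combination h6 - (t ^ 3 + t) * h3
  have : Fact (Nat.Prime 5) := ⟨by norm_num⟩
  have h7 : orderOf ζ = 5 := orderOf_eq_prime h5 fun h => hζ₁ (by
    rw [hζ] at h
    exact (map_eq_one_iff _ (algebraMap ℚ_[11] (Qp 11)).injective).1 h)
  rw [← orderOf_dvd_iff_pow_eq_one, h7] at h4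
  rw [res_uniq hτσ (hres τ), ← ZMod.val_eq_zero]
  exact Nat.eq_zero_of_dvd_of_lt h4 (ZMod.val_lt _)

end Vale.Agent.P014Z
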