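import Vale.Agent.P014Z.An

/-!
# P014Z: the periods of the form are periods of the curve
-/

open Complex Filter Topology WeierstrassCurve
open scoped Real
open Vale.Agent.P004H.H204
open Vale.Agent.P004H.H792 (Fc Fc_ne Fc_diff)
open Vale.Agent.P009.H844 (Pt curve)
open Vale.Agent.P009.Z (xc yc)

noncomputable section

namespace Vale.Agent.P014Z

namespace L1

/-- uniqueness for a linear system of two equations -/
theorem uniq {f g p r : ℂ → ℂ} {z : ℂ} (hf : AnalyticAt ℂ f z) (hg : AnalyticAt ℂ g z)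
    (hp : AnalyticAt ℂ p z) (hr : AnalyticAt ℂ r z) (f0 : f z = 0) (g0 : g z = 0)
    (h1 : deriv f =ᶠ[𝓝 z] p * g) (h2 : deriv g =ᶠ[𝓝 z] r * f) :
    (∀ᶠ w in 𝓝 z, f w = 0) ∧ ∀ᶠ w in 𝓝 z, g w = 0 := by
  have a1 := hf.analyticOrderAt_deriv_add_one
  have a2 := hg.analyticOrderAt_deriv_add_one
  simp only [f0, g0, sub_zero] at a1 a2
  rw [analyticOrderAt_congr h1, analyticOrderAt_mul hp hg] at a1
  rw [analyticOrderAt_congr h2, analyticOrderAt_mul hr hf] at a2
  have b1 : analyticOrderAt (fun w => f w) z = analyticOrderAt f z := rfl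
  have b2 : analyticOrderAt (fun w => g w) z = analyticOrderAt g z := rfl
  rw [b1] at a1
  rw [b2] at a2
  rw [← analyticOrderAt_eq_top, ← analyticOrderAt_eq_top]
  generalize analyticOrderAt f z = m at a1 a2
  generalize analyticOrderAt g z = n at a1 a2
  generalize analyticOrderAt p z = k at a1
  generalize analyticOrderAt r z = l at a2
  have key : ∀ m n k l : ℕ∞, k + n + 1 = m → l + m + 1 = n → m = ⊤ := by
    intro m n k l c1 c2
    by_contra hm
    lift m to ℕ using hm
    have hn : n ≠ ⊤ := by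
      rintro rfl
      simp at c1
    have hk : k ≠ ⊤ := by
      rintro rfl
      simp at c1
    lift n to ℕ using hn
    lift k to ℕ using hk
    have hl : l ≠ ⊤ := by
      rintro rfl
      simp at c2
    lift l to ℕ using hl
    have d1 : k + n + 1 = m := by exact_mod_cast c1
    have d2 : l + m + 1 = n := by exact_mod_cast c2
    omega
  exact ⟨key _ _ _ _ a1 a2, key _ _ _ _ a2 a1⟩

theorem hq : QF Vale.Agent.P004H.H792.a := ⟨fun _ hz => Vale.Agent.P004H.H792.hasSum_Fc hz⟩

theorem gg_zero {z : ℂ} (hz : 0 < z.im) : gg Vale.Agent.P004H.H792.a z = 0 := by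
  have h1 := hq.gg_eq hz
  have h2 := quartic_iff.1 quartic
  rw [← mk_cE] at h2
  have h3 : DD (cs Vale.Agent.P004H.H792.a) (cs cE) = 0 := by
    unfold cs
    rw [← map_DD, h2, map_zero]
  have h4 : ev (0 : PowerSeries ℂ) (qq z) = 0 := by
    simp [ev]
  rw [h3, h4, ← hq.eq hz] at h1
  exact (mul_eq_zero.1 h1).resolve_right (pow_ne_zero _ (Fc_ne hz))

/-- the first coordinate on the quartic -/
def u (z : ℂ) : ℂ := (uu z - 12) / 5

/-- the second coordinate on the quartic -/
def v (z : ℂ) : ℂ := vv Vale.Agent.P004H.H792.a z / 5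

theorem quart {z : ℂ} (hz : 0 < z.im) :
    v z ^ 2 = u z ^ 4 - 4 * u z ^ 3 - 88 * u z ^ 2 - 300 * u z - 304 := by
  have h := gg_zero hz
  unfold gg at h
  unfold u v
  linear_combination h / 625

theorem u_deriv {z : ℂ} (hz : 0 < z.im) : HasDerivAt u (v z * (2 * π * I * Fc z)) z := by
  have h := ((hq.uu_deriv hz).sub_const 12).div_const 5
  refine h.congr_deriv ?_
  unfold v
  ring

theorem v_diff {z : ℂ} (hz : 0 < z.im) : DifferentiableAt ℂ v z := by
  have h2 : DifferentiableAt ℂ (fun w => ev (th (cs cE)) (qq w)) z :=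
    ((conv_th convE).hasDerivAt hz).differentiableAt
  have h3 : DifferentiableAt ℂ (fun w => ev (th (cs Vale.Agent.P004H.H792.a)) (qq w)) z :=
    ((conv_th hq.conv).hasDerivAt hz).differentiableAt
  have h4 : DifferentiableAt ℂ (vv Vale.Agent.P004H.H792.a) z := by
    unfold vv
    exact ((h2.mul (Fc_diff hz)).sub ((e5_deriv hz).differentiableAt.mul h3)).div
      ((Fc_diff hz).pow 3) (pow_ne_zero 3 (Fc_ne hz))
  exact h4.div_const 5

theorem an {f : ℂ → ℂ} (h : ∀ z : ℂ, 0 < z.im → DifferentiableAt ℂ f z) {z : ℂ} (hz : 0 < z.im) :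
    AnalyticAt ℂ f z :=
  analyticAt_iff_eventually_differentiableAt.2 ((eventually_im hz).mono h)

theorem pre : IsPreconnected {z : ℂ | 0 < z.im} := (convex_halfSpace_im_gt 0).isPreconnected

theorem v_ne : ¬ ∀ z : ℂ, 0 < z.im → v z = 0 := by
  intro h
  have e : cs cE ∈ CR := convE
  have f : cs Vale.Agent.P004H.H792.a ∈ CR := hq.conv
  have te : th (cs cE) ∈ CR := conv_th convE
  have tf : th (cs Vale.Agent.P004H.H792.a) ∈ CR := conv_th hq.conv
  have hc : Conv (th (cs cE) * cs Vale.Agent.P004H.H792.a +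
      -(cs cE * th (cs Vale.Agent.P004H.H792.a))) :=
    mem_CR.1 (add_mem (mul_mem te f) (neg_mem (mul_mem e tf)))
  have h0 := hc.eq_zero fun q q0 q1 => by
    obtain ⟨z, hz, rfl⟩ := exists_qq q0 q1
    have h1 := h z hz
    unfold v vv at h1
    have h2 : ev (th (cs cE)) (qq z) * Fc z -
        e5 z * ev (th (cs Vale.Agent.P004H.H792.a)) (qq z) = 0 := by
      have h3 := Fc_ne hz
      field_simp at h1
      linear_combination h1
    have h3 := congrArg (evH (qq z) q1) (show (⟨_, hc⟩ : CR) =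
      ⟨_, te⟩ * ⟨_, f⟩ - ⟨_, e⟩ * ⟨_, tf⟩ from by
        apply Subtype.ext
        simp [sub_eq_add_neg])
    rw [evH_apply] at h3
    simp only [map_sub, map_mul, evH_apply] at h3
    rw [hq.eq hz, e5_eq hz] at h2
    exact h3.trans h2
  have h1 := congrArg (PowerSeries.coeff 1) h0
  rw [map_add, map_neg, PowerSeries.coeff_one_mul, PowerSeries.coeff_one_mul] at h1
  simp only [← PowerSeries.coeff_zero_eq_constantCoeff_apply, coeff_th, coeff_cs,
    Vale.Agent.P004H.H792.a_zero, Vale.Agent.P004H.H792.a_one, cE_table.1, cE_table.2.1] at h1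
  norm_num at h1

theorem v_deriv {z : ℂ} (hz : 0 < z.im) :
    HasDerivAt v ((2 * u z ^ 3 - 6 * u z ^ 2 - 88 * u z - 150) * (2 * π * I * Fc z)) z := by
  have hu : ∀ z : ℂ, 0 < z.im → AnalyticAt ℂ u z := fun z hz =>
    an (fun w hw => (u_deriv hw).differentiableAt) hz
  have hv : ∀ z : ℂ, 0 < z.im → AnalyticAt ℂ v z := fun z hz => an (fun w hw => v_diff hw) hz
  have hF : ∀ z : ℂ, 0 < z.im → AnalyticAt ℂ Fc z := fun z hz => an (fun w hw => Fc_diff hw) hz
  have h1 : AnalyticOnNhd ℂ (fun z => deriv v z -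
      (2 * u z ^ 3 - 6 * u z ^ 2 - 88 * u z - 150) * (2 * π * I * Fc z)) {z : ℂ | 0 < z.im} := by
    intro z hz
    have a1 := hu z hz
    have a2 := (hv z hz).deriv
    have a3 := hF z hz
    fun_prop
  have h2 := AnalyticOnNhd.eq_zero_or_eq_zero_of_mul_eq_zero (f := v) (fun z hz => hv z hz) h1
    (fun z hz => by
      have b1 := (v_diff hz).hasDerivAt.pow 2
      have b2 := u_deriv hz
      have b3 := (((((b2.pow 4).sub ((b2.pow 3).const_mul 4)).sub ((b2.pow 2).const_mul 88)).sub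
        (b2.const_mul 300)).sub_const 304)
      have b4 := b1.unique (b3.congr_of_eventuallyEq
        ((eventually_im hz).mono fun w hw => by simpa using quart hw))
      simp only [Nat.cast_ofNat, Nat.add_one_sub_one] at b4
      linear_combination b4 / 2) pre
  have h3 := h2.resolve_left v_ne z hz
  rw [sub_eq_zero] at h3
  rw [← h3]
  exact (v_diff hz).hasDerivAt

/-- the first coordinate on the cubic -/
def X (z : ℂ) : ℂ := (u z ^ 2 - 2 * u z - 46 - v z) / 2 + 47 / 3

/-- the second coordinate on the cubic -/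
def Y (z : ℂ) : ℂ := 121 / 2 - (u z ^ 2 - 2 * u z - 46 - v z) / 2 * (u z - 1)

theorem cub {z : ℂ} (hz : 0 < z.im) : Y z ^ 2 = X z ^ 3 + A0 * X z + B0 := by
  unfold X Y A0 B0
  linear_combination (-(u z ^ 2 - 2 * u z - 46 - v z) / 8) * quart hz

theorem x0_deriv {z : ℂ} (hz : 0 < z.im) :
    HasDerivAt (fun z => (u z ^ 2 - 2 * u z - 46 - v z) / 2) (2 * Y z * (2 * π * I * Fc z)) z := by
  have b2 := u_deriv hz
  have h := ((((b2.pow 2).sub (b2.const_mul 2)).sub_const 46).sub (v_deriv hz)).div_const 2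
  refine h.congr_deriv ?_
  unfold Y
  simp only [Nat.cast_ofNat, Nat.add_one_sub_one]
  ring

theorem X_deriv {z : ℂ} (hz : 0 < z.im) : HasDerivAt X (2 * Y z * (2 * π * I * Fc z)) z :=
  (x0_deriv hz).add_const _

theorem Y_deriv {z : ℂ} (hz : 0 < z.im) :
    HasDerivAt Y ((3 * X z ^ 2 + A0) * (2 * π * I * Fc z)) z := by
  have h := ((x0_deriv hz).mul ((u_deriv hz).sub_const 1)).const_sub (121 / 2)
  refine h.congr_deriv ?_
  unfold X Y A0
  linear_combination (-(2 * π * I * Fc z) / 4) * quart hz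

theorem ns {z : ℂ} (hz : 0 < z.im) : (curve A0 B0).Nonsingular (X z) (Y z) := by
  rw [← Affine.equation_iff_nonsingular_of_Δ_ne_zero, Affine.equation_iff]
  · simp only [curve]
    linear_combination cub hz
  · simp only [curve, WeierstrassCurve.Δ, WeierstrassCurve.b₂, WeierstrassCurve.b₄,
      WeierstrassCurve.b₆, WeierstrassCurve.b₈, A0, B0]
    norm_num

/-- the modular parametrization -/
def P (z : {z : ℂ | 0 < z.im}) : Pt A0 B0 := .some (X z) (Y z) (ns z.2)

theorem eq_P {Q : Pt A0 B0} (z : {z : ℂ | 0 < z.im}) (h0 : Q ≠ 0) (hx : xc Q = X z)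
    (hy : yc Q = Y z) : Q = P z := by
  cases Q with
  | zero => exact absurd rfl h0
  | some x y h =>
    simp only [xc, yc] at hx hy
    subst hx hy
    rfl

theorem P_ne (z : {z : ℂ | 0 < z.im}) : P z ≠ 0 := by
  intro h
  cases h

theorem ne_near {ex : ℂ →+ Pt A0 B0} (h : Ex ex) {w : ℂ} (hw : ex w ≠ 0) :
    ∀ᶠ t in 𝓝 w, ex t ≠ 0 := by
  have h1 : ∀ᶠ t in 𝓝[≠] (0 : ℂ), ex t ≠ 0 := by
    filter_upwards [h.poleX.eventually_ne one_ne_zero] with t ht h0
    apply ht
    rw [h0]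
    exact mul_zero _
  rw [eventually_nhdsWithin_iff, Metric.eventually_nhds_iff] at h1
  obtain ⟨ε, hε, h1⟩ := h1
  by_cases h2 : ∃ s, dist s w < ε / 2 ∧ ex s = 0
  · obtain ⟨s, hs, s0⟩ := h2
    have h3 : w ≠ s := by
      rintro rfl
      exact hw s0
    filter_upwards [Metric.ball_mem_nhds w (half_pos hε), eventually_ne_nhds h3] with t ht hts t0
    refine h1 (y := t - s) ?_ (sub_ne_zero.2 hts) (by rw [map_sub, t0, s0, sub_zero])
    rw [dist_zero_right, ← dist_eq_norm]
    have := dist_triangle_right t s w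
    rw [Metric.mem_ball] at ht
    linarith
  · filter_upwards [Metric.ball_mem_nhds w (half_pos hε)] with t ht t0
    exact h2 ⟨t, ht, t0⟩

theorem loc (hP : PRF) {ex : ℂ →+ Pt A0 B0} (h : Ex ex) {z : ℂ} (hz : 0 < z.im) :
    ∃ k : ℂ, ∀ᶠ t in 𝓝 z, ex (uF t + k) ≠ 0 ∧ xc (ex (uF t + k)) = X t ∧
      yc (ex (uF t + k)) = Y t := by
  obtain ⟨w, hw⟩ := h.surj (P ⟨z, hz⟩)
  refine ⟨w - uF z, ?_⟩
  have e0 : uF z + (w - uF z) = w := by ring
  have hl : ∀ t : ℂ, 0 < t.im → HasDerivAt (fun t => uF t + (w - uF z)) (2 * π * I * Fc t) t :=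
    fun t ht => (hP.2 t ht).add_const _
  have n1 : ∀ᶠ t in 𝓝 z, ex (uF t + (w - uF z)) ≠ 0 := by
    have c1 := (hl z hz).continuousAt.tendsto
    simp only [e0] at c1
    exact c1.eventually (ne_near h (by rw [hw]; exact P_ne _))
  have dX : ∀ᶠ t in 𝓝 z, HasDerivAt (fun t => xc (ex (uF t + (w - uF z))))
      (2 * yc (ex (uF t + (w - uF z))) * (2 * π * I * Fc t)) t := by
    filter_upwards [n1, eventually_im hz] with t h1 h2
    exact (h.hX _ h1).comp t (hl t h2)
  have dY : ∀ᶠ t in 𝓝 z, HasDerivAt (fun t => yc (ex (uF t + (w - uF z))))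
      ((3 * xc (ex (uF t + (w - uF z))) ^ 2 + A0) * (2 * π * I * Fc t)) t := by
    filter_upwards [n1, eventually_im hz] with t h1 h2
    exact (h.hY _ h1).comp t (hl t h2)
  have a1 : AnalyticAt ℂ (fun t => xc (ex (uF t + (w - uF z)))) z :=
    analyticAt_iff_eventually_differentiableAt.2 (dX.mono fun t ht => ht.differentiableAt)
  have a2 : AnalyticAt ℂ (fun t => yc (ex (uF t + (w - uF z)))) z :=
    analyticAt_iff_eventually_differentiableAt.2 (dY.mono fun t ht => ht.differentiableAt)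
  have a3 : AnalyticAt ℂ X z := an (fun w hw => (X_deriv hw).differentiableAt) hz
  have a4 : AnalyticAt ℂ Y z := an (fun w hw => (Y_deriv hw).differentiableAt) hz
  have a5 : AnalyticAt ℂ Fc z := an (fun w hw => Fc_diff hw) hz
  have hu := uniq (f := fun t => xc (ex (uF t + (w - uF z))) - X t)
    (g := fun t => yc (ex (uF t + (w - uF z))) - Y t)
    (p := fun t => 2 * (2 * π * I * Fc t))
    (r := fun t => 3 * (xc (ex (uF t + (w - uF z))) + X t) * (2 * π * I * Fc t)) (z := z)
    (a1.sub a3) (a2.sub a4) (by fun_prop) (by fun_prop)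
    (by simp only [e0, hw, P, xc, sub_self]) (by simp only [e0, hw, P, yc, sub_self])
    (by
      filter_upwards [dX, eventually_im hz] with t h1 h2
      rw [(h1.fun_sub (X_deriv h2)).deriv, Pi.mul_apply]
      ring)
    (by
      filter_upwards [dY, eventually_im hz] with t h1 h2
      rw [(h1.fun_sub (Y_deriv h2)).deriv, Pi.mul_apply]
      ring)
  filter_upwards [n1, hu.1, hu.2] with t h1 h2 h3
  exact ⟨h1, sub_eq_zero.1 h2, sub_eq_zero.1 h3⟩

theorem glob (hP : PRF) {ex : ℂ →+ Pt A0 B0} (h : Ex ex) (z t : {z : ℂ | 0 < z.im}) :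
    P z - ex (uF z) = P t - ex (uF t) := by
  have : PreconnectedSpace {z : ℂ | 0 < z.im} := isPreconnected_iff_preconnectedSpace.1 pre
  refine IsLocallyConstant.apply_eq_of_preconnectedSpace
    (f := fun z : {z : ℂ | 0 < z.im} => P z - ex (uF z)) ?_ z t
  rw [IsLocallyConstant.iff_eventually_eq]
  intro s
  obtain ⟨k, hk⟩ := loc hP h s.2
  have h1 : ∀ᶠ y : {z : ℂ | 0 < z.im} in 𝓝 s, P y - ex (uF y) = ex k := by
    filter_upwards [continuous_subtype_val.continuousAt.tendsto.eventually hk] with y hy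
    rw [← eq_P y hy.1 hy.2.1 hy.2.2, map_add, add_sub_cancel_left]
  filter_upwards [h1] with y hy
  rw [hy, h1.self_of_nhds]

end L1

/-- **LAT1** -/
theorem lat1_of (hP : PRF) : LAT1 := by
  intro ex h g w hw
  have h0 : 0 < (I : ℂ).im := by simp
  have h1 : 0 < (g.mob I).im := mob_im g.det h0
  have h2 := L1.glob hP h ⟨g.mob I, h1⟩ ⟨I, h0⟩
  have hu : L1.u (g.mob I) = L1.u I := by
    unfold L1.u G0.mob
    rw [uu_mob g.det h0]
  have hv : L1.v (g.mob I) = L1.v I := by
    unfold L1.v G0.mob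
    rw [L1.hq.vv_mob g.det h0]
  have h3 : L1.P ⟨g.mob I, h1⟩ = L1.P ⟨I, h0⟩ := by
    refine L1.eq_P _ (L1.P_ne _) ?_ ?_
    · simp only [L1.P, xc, L1.X, hu, hv]
    · simp only [L1.P, yc, L1.Y, hu, hv]
  rw [h3, sub_right_inj] at h2
  simp only [hw I h0, map_add] at h2
  simpa using h2

end Vale.Agent.P014Z
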