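import Vale.Agent.P014Z.An

/-!
# P014Z: the imaginary periods of `11a1`
-/

open Complex Filter Topology Set MeasureTheory
open Vale.Agent.P009.H844 (Pt curve)
open Vale.Agent.P009.Z (xc yc)

noncomputable section

namespace Vale.Agent.P014Z

namespace L2

/-- the differential equations on the imaginary axis -/
structure Reg (X Y : ℝ → ℂ) (τ : ℝ) : Prop where
  dX : HasDerivAt X (2 * Y τ * I) τ
  dY : HasDerivAt Y ((3 * X τ ^ 2 + A0) * I) τ
  eq : Y τ ^ 2 = X τ ^ 3 + A0 * X τ + B0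

/-- the behaviour at the origin -/
structure Pole (X Y : ℝ → ℂ) : Prop where
  y0 : Y 0 = 0
  tX : Tendsto (fun τ : ℝ => (τ * I) ^ 2 * X τ) (𝓝[>] 0) (𝓝 1)
  tY : Tendsto (fun τ : ℝ => (τ * I) ^ 3 * Y τ) (𝓝[>] 0) (𝓝 (-1))

/-- the vector field in the coordinates at the origin -/
def vf (p : ℂ × ℂ) : ℂ × ℂ :=
  (1 + 2 * A0 * p.1 * p.2 + 3 * B0 * p.2 ^ 2, -3 * p.1 ^ 2 - A0 * p.2 ^ 2)

/-- conjugation -/
def cj : ℂ × ℂ →L[ℝ] ℂ × ℂ := (conjCLE : ℂ →L[ℝ] ℂ).prodMap (conjCLE : ℂ →L[ℝ] ℂ)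

theorem cj_apply (p : ℂ × ℂ) : cj p = ((starRingEnd ℂ) p.1, (starRingEnd ℂ) p.2) := rfl

theorem cj_vf (p : ℂ × ℂ) : cj (vf p) = vf (cj p) := by
  simp [cj_apply, vf, map_ofNat]

theorem vf_cd : ContDiff ℝ 1 vf := by
  unfold vf
  fun_prop

variable {X Y : ℝ → ℂ} {τ b : ℝ}

theorem Reg.dF (h : Reg X Y τ) (h0 : Y τ ≠ 0) :
    HasDerivAt (fun σ => (I * X σ / Y σ, I / Y σ)) (vf (I * X τ / Y τ, I / Y τ)) τ := by
  have e := h.eq
  have h1 := ((h.dX.const_mul I).fun_div h.dY h0).prodMk ((hasDerivAt_const τ I).fun_div h.dY h0)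
  have hy := mul_inv_cancel₀ h0
  refine h1.congr_deriv (Prod.ext ?_ ?_) <;> simp only [vf, div_eq_mul_inv, ← inv_pow]
  · linear_combination (Y τ)⁻¹ ^ 2 * (Y τ ^ 2 * 2 - 3 * X τ ^ 3 - 3 * A0 * X τ - 3 * B0) * I_sq +
      (Y τ * (Y τ)⁻¹ + 1) * hy - 3 * (Y τ)⁻¹ ^ 2 * e
  · ring

theorem tI : Tendsto (fun τ : ℝ => (τ : ℂ) * I) (𝓝 0) (𝓝 0) :=
  Continuous.tendsto' (by fun_prop) 0 0 (by simp)

theorem Pole.tF (h : Pole X Y) :
    Tendsto (fun σ => (I * X σ / Y σ, I / Y σ)) (𝓝[>] 0) (𝓝 (I * X 0 / Y 0, I / Y 0)) := by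
  have h1 := tI.mono_left (nhdsWithin_le_nhds (s := Ioi 0))
  have h2 := (((h.tX.mul h1).const_mul I).div h.tY (by norm_num)).prodMk_nhds
    (((h1.pow 3).const_mul I).div h.tY (by norm_num))
  rw [h.y0, div_zero, div_zero]
  simp only [mul_zero, zero_div, ne_eq, OfNat.ofNat_ne_zero, not_false_eq_true, zero_pow] at h2
  refine h2.congr' (eventually_mem_nhdsWithin.mono fun σ hσ => ?_)
  have h3 : (σ : ℂ) ≠ 0 := ofReal_ne_zero.2 (ne_of_gt hσ)
  refine Prod.ext ?_ ?_ <;> simp only [Pi.div_apply] <;> by_cases h4 : Y σ = 0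
  · simp [h4]
  · field_simp
  · simp [h4]
  · field_simp

theorem real (hp : Pole X Y) (hb : 0 < b) (h : ∀ τ ∈ Ioc 0 b, Reg X Y τ ∧ Y τ ≠ 0) :
    (X b).im = 0 ∧ (Y b).re = 0 := by
  set F : ℝ → ℂ × ℂ := fun σ => (I * X σ / Y σ, I / Y σ) with hF
  have d1 : ∀ τ ∈ Ioc 0 b, HasDerivAt F (vf (F τ)) τ := fun τ k => (h τ k).1.dF (h τ k).2
  have c0 : ContinuousWithinAt F (Ioi 0) 0 := hp.tF
  have c1 : ContinuousOn F (Icc 0 b) := fun τ k => by
    rcases k.1.eq_or_lt with rfl | k1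
    · exact (continuousWithinAt_Ioi_iff_Ici.1 c0).mono Icc_subset_Ici_self
    · exact (d1 τ ⟨k1, k.2⟩).continuousAt.continuousWithinAt
  have d2 : ∀ τ ∈ Ico 0 b, HasDerivWithinAt F (vf (F τ)) (Ici τ) τ := fun τ k => by
    rcases k.1.eq_or_lt with rfl | k1
    · refine hasDerivWithinAt_Ici_of_tendsto_deriv (s := Ioc 0 b)
        (fun σ hσ => (d1 σ hσ).differentiableAt.differentiableWithinAt)
        (c0.mono Ioc_subset_Ioi_self) (Ioc_mem_nhdsGT hb) ?_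
      exact ((vf_cd.continuous.tendsto _).comp c0).congr'
        (mem_of_superset (Ioc_mem_nhdsGT hb) fun σ hσ => (d1 σ hσ).deriv.symm)
    · exact (d1 τ ⟨k1, k.2.le⟩).hasDerivWithinAt
  obtain ⟨R, hR⟩ := isCompact_Icc.exists_bound_of_continuousOn c1
  obtain ⟨K, hK⟩ := vf_cd.locallyLipschitz.locallyLipschitzOn.exists_lipschitzOnWith_of_compact
    (isCompact_closedBall (0 : ℂ × ℂ) R)
  have u := ODE_solution_unique_of_mem_Icc_right (v := fun _ => vf)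
    (s := fun _ => Metric.closedBall 0 R) (g := fun σ => cj (F σ)) (fun _ _ => hK) c1 d2
    (fun τ k => mem_closedBall_zero_iff.2 (hR τ (Ico_subset_Icc_self k)))
    (cj.continuous.comp_continuousOn c1)
    (fun τ k => cj_vf _ ▸ cj.hasFDerivAt.comp_hasDerivWithinAt τ (d2 τ k))
    (fun τ k => mem_closedBall_zero_iff.2 (by
      simpa only [cj_apply, Prod.norm_def, RCLike.norm_conj] using hR τ (Ico_subset_Icc_self k)))
    (by simp [hF, cj_apply, hp.y0]) ⟨hb.le, le_rfl⟩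
  have h0 := (h b ⟨hb, le_rfl⟩).2
  have h1 : (starRingEnd ℂ) (Y b) ≠ 0 := (map_ne_zero _).2 h0
  have u1 : I * X b / Y b = (starRingEnd ℂ) (I * X b / Y b) := congrArg Prod.fst u
  have u2 : I / Y b = (starRingEnd ℂ) (I / Y b) := congrArg Prod.snd u
  simp only [map_div₀, map_mul, conj_I] at u1 u2
  have u3 : (starRingEnd ℂ) (Y b) = -Y b := by
    field_simp at u2
    linear_combination u2
  rw [u3] at u1
  field_simp at u1
  have u4 := congrArg re u3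
  rw [conj_re, neg_re] at u4
  exact ⟨conj_eq_iff_im.1 u1.symm, by linarith⟩

theorem Reg.dx (h : Reg X Y τ) : HasDerivAt (fun σ => (X σ).re) (-2 * (Y τ).im) τ :=
  (reCLM.hasFDerivAt.comp_hasDerivAt τ h.dX).congr_deriv (by simp)

theorem Reg.dy (h : Reg X Y τ) (k : (X τ).im = 0) :
    HasDerivAt (fun σ => (Y σ).im) (3 * (X τ).re ^ 2 - 31 / 3) τ :=
  (imCLM.hasFDerivAt.comp_hasDerivAt τ h.dY).congr_deriv (by simp [pow_two, k]; ring)

theorem Reg.psi (h : Reg X Y τ) (k : (X τ).im = 0 ∧ (Y τ).re = 0) :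
    psi0 ((X τ).re + 1 / 3) = -4 * (Y τ).im ^ 2 := by
  have e := congrArg re h.eq
  simp [pow_succ, k.1, k.2] at e
  unfold psi0
  linear_combination -4 * e

theorem neg (hp : Pole X Y) (hb : 0 < b) (h : ∀ τ ∈ Ioc 0 b, Reg X Y τ ∧ Y τ ≠ 0) :
    (Y b).im < 0 := by
  have r : ∀ τ ∈ Ioc 0 b, (Y τ).re = 0 := fun τ k =>
    (real hp k.1 fun σ hσ => h σ ⟨hσ.1, hσ.2.trans k.2⟩).2
  have h1 := ((continuous_re.tendsto _).comp hp.tY).eventually
    (gt_mem_nhds (show (-1 : ℂ).re < 0 by simp))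
  obtain ⟨τ, k1, k2⟩ := (h1.and (Ioc_mem_nhdsGT hb)).exists
  have k3 : (Y τ).im < 0 := by
    simp [pow_succ] at k1
    by_contra! k
    exact absurd k1 (not_lt.2 (by have := k2.1; positivity))
  by_contra! k
  obtain ⟨σ, l1, l2⟩ := isPreconnected_Ioc.intermediate_value k2 ⟨hb, le_rfl⟩
    (f := fun σ => (Y σ).im) (fun σ hσ => (continuous_im.continuousAt.comp
      (h σ hσ).1.dY.continuousAt).continuousWithinAt) ⟨k3.le, k⟩
  exact (h σ l1).2 (Complex.ext (r σ l1) l2)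

theorem not_all (hp : Pole X Y) (h : ∀ τ, 0 < τ → Reg X Y τ ∧ Y τ ≠ 0) : False := by
  have r : ∀ τ, 0 < τ → (X τ).im = 0 ∧ (Y τ).re = 0 := fun τ k => real hp k fun σ l => h σ l.1
  have n : ∀ τ, 0 < τ → (Y τ).im < 0 := fun τ k => neg hp k fun σ l => h σ l.1
  have d : ∀ τ, 0 < τ → HasDerivAt (fun σ => (Y σ).im + 2 * (X σ).re - σ)
      (3 * (X τ).re ^ 2 - 31 / 3 + 2 * (-2 * (Y τ).im) - 1) τ := fun τ k =>
    (((h τ k).1.dy (r τ k).1).add ((h τ k).1.dx.const_mul 2)).sub (hasDerivAt_id τ)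
  have m := strictMonoOn_of_deriv_pos (convex_Ioi 0)
    (fun τ k => (d τ k).continuousAt.continuousWithinAt) fun τ k => by
      rw [interior_Ioi] at k
      rw [(d τ k).deriv]
      have e := (h τ k).1.psi (r τ k)
      have l := n τ k
      unfold psi0 at e
      by_cases c : 4 ≤ (X τ).re ^ 2
      · linarith
      · have c1 : (X τ).re ≤ 2 := by nlinarith
        have c2 : -2 ≤ (X τ).re := by nlinarith
        have c3 : 9 ≤ (Y τ).im ^ 2 := by
          nlinarith [mul_nonneg (sub_nonneg.2 c1) (sq_nonneg ((X τ).re + 2)),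
            mul_nonneg (sub_nonneg.2 c1) (sub_nonneg.2 c2)]
        nlinarith [sq_nonneg (X τ).re]
  set c := (Y 1).im + 2 * (X 1).re with hc
  have k : 0 < 2 + |10 - c| := by positivity
  have h1 := m (mem_Ioi.2 one_pos) (mem_Ioi.2 k) (by linarith [abs_nonneg (10 - c)])
  have e := (h _ k).1.psi (r _ k)
  have l := n _ k
  have h2 : (X (2 + |10 - c|)).re < 5 := by
    by_contra! c1
    unfold psi0 at e
    nlinarith [sq_nonneg (Y (2 + |10 - c|)).im, mul_nonneg (sub_nonneg.2 c1) (sub_nonneg.2 c1),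
      mul_nonneg (mul_nonneg (sub_nonneg.2 c1) (sub_nonneg.2 c1)) (sub_nonneg.2 c1)]
  simp only at h1
  linarith [le_abs_self (10 - c)]

theorem lt_root {x y : ℝ} (hx : psi0 x < 0) (hy : psi0 y = 0) : x < y := by
  unfold psi0 at hx hy
  have h1 : 4 ≤ y := by
    by_contra! c
    by_cases c1 : y ≤ -2 ∨ -1 ≤ y
    · rcases c1 with c1 | c1
      · nlinarith [mul_nonneg (sub_nonneg.2 c.le) (mul_nonneg (sub_nonneg.2 c1)
          (by linarith : 0 ≤ -1 - y))]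
      · nlinarith [mul_nonneg (sub_nonneg.2 c.le) (mul_nonneg (sub_nonneg.2 c1)
          (by linarith : 0 ≤ y + 2))]
    · push Not at c1
      nlinarith [mul_nonneg (sub_nonneg.2 c.le) (sq_nonneg (2 * y + 3))]
  by_contra! c
  have h2 : 0 ≤ 4 * (x ^ 2 + x * y + y ^ 2) - 4 * (x + y) - 40 := by nlinarith
  nlinarith [mul_nonneg (sub_nonneg.2 c) h2]

theorem period (hp : Pole X Y) (hb : 0 < b) (h : ∀ τ ∈ Ioo 0 b, Reg X Y τ ∧ Y τ ≠ 0)
    (hT : Reg X Y b) (h0 : Y b = 0) : Im0 = 2 * b := by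
  have r : ∀ τ ∈ Ioo 0 b, (X τ).im = 0 ∧ (Y τ).re = 0 := fun τ k =>
    real hp k.1 fun σ l => h σ ⟨l.1, l.2.trans_lt k.2⟩
  have n : ∀ τ ∈ Ioo 0 b, (Y τ).im < 0 := fun τ k =>
    neg hp k.1 fun σ l => h σ ⟨l.1, l.2.trans_lt k.2⟩
  have d : ∀ τ, Reg X Y τ → HasDerivAt (fun σ => (X σ).re + 1 / 3) (-2 * (Y τ).im) τ :=
    fun τ k => k.dx.add_const _
  have e : ∀ τ ∈ Ioo 0 b, psi0 ((X τ).re + 1 / 3) = -4 * (Y τ).im ^ 2 := fun τ k =>
    (h τ k).1.psi (r τ k)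
  have eT : psi0 ((X b).re + 1 / 3) = 0 := by
    have c1 : ContinuousAt (fun σ => (X σ).im) b := continuous_im.continuousAt.comp hT.dX.continuousAt
    have c2 : (X b).im = 0 := tendsto_nhds_unique (c1.tendsto.mono_left (nhdsWithin_le_nhds (s := Iio b)))
      (tendsto_const_nhds.congr' (mem_of_superset (Ioo_mem_nhdsLT hb) fun σ k => (r σ k).1.symm))
    simpa [h0] using hT.psi ⟨c2, by simp [h0]⟩
  have t1 : Tendsto (fun σ => (X σ).re) (𝓝[>] 0) atBot := by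
    have t2 := (((continuous_re.tendsto _).comp hp.tX).neg.neg_mul_atTop (by simp)
      tendsto_inv_nhdsGT_zero).atBot_mul_atTop₀ tendsto_inv_nhdsGT_zero
    refine t2.congr' (eventually_mem_nhdsWithin.mono fun σ hσ => ?_)
    have : σ ≠ 0 := ne_of_gt hσ
    simp [pow_succ]
    field_simp
  have im : (fun σ => (X σ).re + 1 / 3) '' Ioo 0 b = {x | psi0 x < 0} := by
    refine Subset.antisymm ?_ fun x hx => ?_
    · rintro _ ⟨τ, k, rfl⟩
      have := n τ k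
      exact (e τ k).trans_lt (by nlinarith)
    · obtain ⟨τ, k1, k2⟩ := ((t1.eventually (eventually_le_atBot (x - 1 / 3))).and
        (Ioo_mem_nhdsGT hb)).exists
      obtain ⟨σ, l1, l2⟩ := intermediate_value_Ico k2.2.le (f := fun σ => (X σ).re + 1 / 3)
        (fun σ l => (d σ (l.2.eq_or_lt.elim (fun c => c ▸ hT) fun c =>
          (h σ ⟨k2.1.trans_le l.1, c⟩).1)).continuousAt.continuousWithinAt)
        ⟨by linarith, lt_root hx eT⟩
      exact ⟨σ, ⟨k2.1.trans_le l1.1, l1.2⟩, l2⟩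
  have m := strictMonoOn_of_deriv_pos (convex_Ioo 0 b)
    (fun τ k => (d τ (h τ k).1).continuousAt.continuousWithinAt) fun τ k => by
      rw [interior_Ioo] at k
      rw [(d τ (h τ k).1).deriv]
      linarith [n τ k]
  rw [Im0, ← im, integral_image_eq_integral_abs_deriv_smul measurableSet_Ioo
    (fun τ k => (d τ (h τ k).1).hasDerivWithinAt) m.injOn,
    setIntegral_congr_fun (g := fun _ => 2) measurableSet_Ioo fun τ k => ?_]
  · simp [hb.le, mul_comm]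
  · have := n τ k
    simp only [e τ k, smul_eq_mul]
    rw [show -(-4 * (Y τ).im ^ 2) = (-2 * (Y τ).im) ^ 2 by ring, Real.sqrt_sq_eq_abs,
      mul_div_cancel₀ _ (abs_pos.2 (by linarith : (0 : ℝ) < -2 * (Y τ).im).ne').ne']

theorem two (P : Pt A0 B0) (h : P ≠ 0) :
    yc P ^ 2 = xc P ^ 3 + A0 * xc P + B0 ∧ (P + P = 0 ↔ yc P = 0) := by
  rcases P with _ | ⟨x, y, k⟩
  · exact absurd rfl h
  have e := (WeierstrassCurve.Affine.equation_iff _ _).1 k.1
  have n : (curve A0 B0).negY x y = -y := by simp [curve, WeierstrassCurve.Affine.negY]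
  refine ⟨by simpa [curve, xc, yc] using e, fun c => by_contra fun c1 => ?_, fun c => ?_⟩
  · rw [WeierstrassCurve.Affine.Point.add_self_of_Y_ne (n ▸ fun c2 => c1 (show y = 0 by
      linear_combination c2 / 2))] at c
    exact WeierstrassCurve.Affine.Point.some_ne_zero _ c
  · exact WeierstrassCurve.Affine.Point.add_self_of_Y_eq (by rw [n, show y = 0 from c, neg_zero])

end L2

open L2 in
theorem lat2 : LAT2 := by
  intro ex hex
  set X : ℝ → ℂ := fun τ => xc (ex (τ * I)) with hX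
  set Y : ℝ → ℂ := fun τ => yc (ex (τ * I)) with hY
  have t0 : Tendsto (fun τ : ℝ => (τ : ℂ) * I) (𝓝[≠] 0) (𝓝[≠] 0) :=
    tendsto_nhdsWithin_iff.2 ⟨tI.mono_left nhdsWithin_le_nhds, eventually_mem_nhdsWithin.mono
      fun σ hσ => mul_ne_zero (ofReal_ne_zero.2 hσ) I_ne_zero⟩
  have t1 := t0.mono_left (nhdsGT_le_nhdsNE 0)
  have hp : Pole X Y := ⟨by simp [hY, yc], hex.poleX.comp t1, hex.poleY.comp t1⟩
  have hr : ∀ τ : ℝ, ex (τ * I) ≠ 0 → Reg X Y τ := fun τ k =>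
    have h1 := ((hex.hX _ k).comp_of_eq (τ : ℂ) (hasDerivAt_mul_const I) rfl).comp_ofReal
    have h2 := ((hex.hY _ k).comp_of_eq (τ : ℂ) (hasDerivAt_mul_const I) rfl).comp_ofReal
    ⟨h1, h2, (two _ k).1⟩
  let φ : ℝ →+ Pt A0 B0 := ex.comp ((AddMonoidHom.mulRight I).comp ofRealHom.toAddMonoidHom)
  have hφ : ∀ τ : ℝ, τ ∈ φ.ker ↔ ex (τ * I) = 0 := fun τ => Iff.rfl
  have good : ∀ τ : ℝ, τ + τ ∉ φ.ker → Reg X Y τ ∧ Y τ ≠ 0 := fun τ k => by
    have k1 : ex (τ * I) ≠ 0 := fun c => k (add_mem ((hφ τ).2 c) ((hφ τ).2 c))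
    exact ⟨hr τ k1, fun c => k ((map_add φ τ τ).trans ((two _ k1).2.2 c))⟩
  rcases φ.ker.dense_or_cyclic with c | ⟨a, ha⟩
  · have h1 := (hex.poleX.comp t1).eventually_ne one_ne_zero
    obtain ⟨u, hu, h2⟩ := (nhdsGT_basis (0 : ℝ)).eventually_iff.1 h1
    obtain ⟨τ, k1, k2⟩ := c.exists_mem_open isOpen_Ioo (nonempty_Ioo.2 hu)
    exact absurd (by simp [(hφ τ).1 k1, xc]) (h2 k2)
  have mem : ∀ τ : ℝ, τ ∈ φ.ker ↔ ∃ n : ℤ, τ = n * |a| := fun τ => by
    rw [ha, AddSubgroup.mem_closure_singleton]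
    rcases abs_choice a with c | c <;> rw [c]
    · exact exists_congr fun n => by rw [zsmul_eq_mul, eq_comm]
    · exact ⟨fun ⟨n, k⟩ => ⟨-n, by simp [← k]⟩, fun ⟨n, k⟩ => ⟨-n, by simp [k]⟩⟩
  have nm : ∀ τ : ℝ, 0 < τ → (τ < |a| ∨ |a| = 0) → τ ∉ φ.ker := fun τ k1 k2 c => by
    obtain ⟨n, rfl⟩ := (mem τ).1 c
    rcases k2 with k2 | k2
    · have h1 : (0 : ℝ) < n := pos_of_mul_pos_left k1 (abs_nonneg a)
      have h2 : (1 : ℝ) ≤ n := by exact_mod_cast (by exact_mod_cast h1 : 0 < n)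
      nlinarith [abs_nonneg a]
    · simp [k2] at k1
  rcases (abs_nonneg a).eq_or_lt with c | c
  · exact (not_all hp fun τ k => good τ (nm _ (by linarith) (.inr c.symm))).elim
  have k1 : ex ((|a| / 2 : ℝ) * I) ≠ 0 := nm _ (by linarith) (.inl (by linarith))
  have e := period hp (b := |a| / 2) (by linarith)
    (fun τ k => good τ (nm _ (by linarith [k.1]) (.inl (by linarith [k.2])))) (hr _ k1)
    ((two _ k1).2.1 ((map_add φ _ _).symm.trans ((mem _).2 ⟨1, by simp⟩)))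
  intro t
  rw [← hφ, mem, e, mul_div_cancel₀ _ two_ne_zero]

end Vale.Agent.P014Z
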