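import Vale.Agent.P014Z.Ga

/-!
# P014Z: local Galois groups
-/

open scoped Classical

set_option linter.all false

noncomputable section

namespace Vale.Agent.P014Z

namespace LocA

theorem res_gen {E K : Type} [Field E] [Field K] [Algebra ℚ E] [Algebra ℚ K] [Normal ℚ E]
    (ι : E →ₐ[ℚ] K) (τ : K →+* K) : ∃ σ : E ≃ₐ[ℚ] E, ∀ x, ι (σ x) = τ (ι x) := by
  letI : Algebra E K := ι.toRingHom.toAlgebra
  haveI : IsScalarTower ℚ E K := IsScalarTower.of_algebraMap_eq fun x => (ι.commutes x).symm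
  exact ⟨τ.toRatAlgHom.restrictNormal' E, fun x => τ.toRatAlgHom.restrictNormal_commutes E x⟩

theorem no_root {m p : ℕ} [Fact p.Prime] (hm : Squarefree m) (hj : jacobiSym (-m) p ≠ 1)
    (t : ℚ_[p]) (ht : t ^ 2 = -(m : ℚ_[p])) : False := by
  have hp : p.Prime := Fact.out
  have h1 : ‖t‖ ≤ 1 := by
    have h : ‖t‖ ^ 2 ≤ 1 := by
      rw [← norm_pow, ht, norm_neg]
      exact_mod_cast Padic.norm_int_le_one (p := p) (m : ℤ)
    exact (pow_le_one_iff_of_nonneg (norm_nonneg _) two_ne_zero).1 h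
  set z : ℤ_[p] := ⟨t, h1⟩ with hz
  have hz2 : z ^ 2 = -(m : ℤ_[p]) := Subtype.ext (by
    rw [PadicInt.coe_pow, PadicInt.coe_neg, PadicInt.coe_natCast]; exact ht)
  by_cases hd : p ∣ m
  · have h2 : (p : ℤ_[p]) ∣ z ^ 2 := by
      rw [hz2, dvd_neg]
      exact Nat.cast_dvd_cast hd
    have h3 : (p : ℤ_[p]) ^ 2 ∣ ((m : ℤ) : ℤ_[p]) := by
      have h4 := pow_dvd_pow_of_dvd (PadicInt.prime_p.dvd_of_dvd_pow h2) 2
      rw [hz2, dvd_neg] at h4
      exact_mod_cast h4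
    have h5 : p ^ 2 ∣ m := by exact_mod_cast (PadicInt.pow_p_dvd_int_iff 2 (m : ℤ)).1 h3
    exact hp.one_lt.ne' (Nat.isUnit_iff.1 (hm p (by rwa [← sq])))
  · refine hj ?_
    rw [← jacobiSym.legendreSym.to_jacobiSym, legendreSym.eq_one_iff]
    · refine ⟨PadicInt.toZMod z, ?_⟩
      rw [← sq, ← map_pow, hz2]
      simp
    · simpa [ZMod.natCast_eq_zero_iff] using hd

end LocA

theorem iso : ISO := fun p _ τ x => (spectralNorm_eq_of_equiv τ x).symm

theorem qb_closure : IsAlgClosure ℚ Qb := AlgebraicClosure.instIsAlgClosure ℚ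

theorem qb_normal : Normal ℚ Qb := @IsAlgClosure.normal ℚ Qb _ _ _ qb_closure

theorem res : RES := fun p _ ι τ =>
  haveI := qb_normal
  LocA.res_gen ι (τ : Qp p →+* Qp p)

theorem ns : NS := by
  intro m hm p _ hp s hs
  by_contra h
  have hf : ∀ τ : Gp p, τ s = s := fun τ => by
    have e : τ s ^ 2 = s ^ 2 := by rw [← map_pow, hs, map_neg, map_natCast]
    exact (sq_eq_sq_iff_eq_or_eq_neg.1 e).resolve_right fun k => h ⟨τ, k⟩
  obtain ⟨t, rfl⟩ := (InfiniteGalois.mem_range_algebraMap_iff_fixed s).2 hf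
  refine LocA.no_root hm.sf ?_ t ((algebraMap ℚ_[p] (Qp p)).injective ?_)
  · rcases hp with rfl | rfl
    exacts [hm.n5, hm.n11]
  · rw [map_pow, hs, map_neg, map_natCast]

end Vale.Agent.P014Z
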