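import Vale.Agent.P014Z.An
import Vale.Agent.P004H.H742.BaseF
import Vale.Agent.P004G.H575.Ent

/-!
# P014Z: the central value as a limit
-/

open Complex Filter Topology MeasureTheory Set
open scoped Real
open P004G P004G.ML
open Vale.Agent.P004H

noncomputable section

namespace Vale.Agent.P014Z
namespace Mel

variable {A : ℕ → ℤ} {q κ : ℝ}

lemma neg_pi {n : ℕ} (hn : 0 < n) : -π * n < 0 := by
  have : (0 : ℝ) < n := by exact_mod_cast hn
  have := Real.pi_pos
  nlinarith

lemma term_int (hA : LD A) (u : ℝ) (n : ℕ) :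
    IntegrableOn (fun t : ℝ => (A n : ℝ) * Real.exp (-π * n * t)) (Ioi u) := by
  rcases Nat.eq_zero_or_pos n with rfl | hn
  · rw [hA.zero]
    simp
  · exact (integrableOn_exp_mul_Ioi (neg_pi hn) u).const_mul _

lemma term_val (c : ℝ) (u : ℝ) {n : ℕ} (hn : 0 < n) :
    ∫ t in Ioi u, c * Real.exp (-π * n * t) = 1 / π * (c / n * Real.exp (-π * n * u)) := by
  rw [integral_const_mul, integral_exp_mul_Ioi (neg_pi hn)]
  have : (n : ℝ) ≠ 0 := by exact_mod_cast hn.ne'
  have := Real.pi_ne_zero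
  field_simp

/-- the tail integral -/
lemma tail (hA : LD A) {u : ℝ} (hu : 0 < u) :
    ∫ t in Ioi u, TH A t = 4 / π * ∑' n : ℕ, (A n : ℝ) / n * Real.exp (-π * n * u) := by
  have h1 : Summable fun n : ℕ => ∫ t in Ioi u, ‖(A n : ℝ) * Real.exp (-π * n * t)‖ := by
    refine Summable.of_nonneg_of_le (fun n => integral_nonneg fun t => norm_nonneg _)
      (fun n => ?_) (Rk.summable_TH hA hu).norm
    rcases Nat.eq_zero_or_pos n with rfl | hn
    · rw [hA.zero]
      simp
    · have e : ∀ t : ℝ, ‖(A n : ℝ) * Real.exp (-π * n * t)‖ =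
          |(A n : ℝ)| * Real.exp (-π * n * t) := fun t => by
        rw [norm_mul, Real.norm_eq_abs, Real.norm_of_nonneg (Real.exp_pos _).le]
      simp only [e]
      rw [term_val _ u hn]
      have hn1 : (1 : ℝ) ≤ n := by exact_mod_cast hn
      have h3 := Real.pi_gt_three
      have h4 : 1 / π ≤ 1 := by
        rw [div_le_one (by linarith)]
        linarith
      have h5 : |(A n : ℝ)| / n ≤ |(A n : ℝ)| := div_le_self (abs_nonneg _) hn1
      have h6 := Real.exp_pos (-π * n * u)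
      calc 1 / π * (|(A n : ℝ)| / n * Real.exp (-π * n * u))
          ≤ 1 * (|(A n : ℝ)| * Real.exp (-π * n * u)) := by gcongr
        _ = _ := one_mul _
  have h2 := integral_tsum_of_summable_integral_norm (μ := volume.restrict (Ioi u))
    (F := fun (n : ℕ) (t : ℝ) => (A n : ℝ) * Real.exp (-π * n * t)) (term_int hA u) h1
  unfold TH
  rw [integral_const_mul, ← h2]
  have e : ∀ n : ℕ, ∫ t in Ioi u, (A n : ℝ) * Real.exp (-π * n * t) =
      1 / π * ((A n : ℝ) / n * Real.exp (-π * n * u)) := by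
    intro n
    rcases Nat.eq_zero_or_pos n with rfl | hn
    · rw [hA.zero]
      simp
    · exact term_val _ u hn
  simp only [e]
  rw [tsum_mul_left]
  ring

lemma th_int (hA : LD A) (hF : FEq A q κ) : IntegrableOn (TH A) (Ioi 0) := by
  have h := Rk.PhiA_conv hA hF 1
  unfold MellinConvergent at h
  simp only [sub_self, cpow_zero, one_smul] at h
  have h2 : Integrable (fun x => TH A x) (volume.restrict (Ioi 0)) := by simpa using h.re
  exact h2

lemma phi_one : Rk.PhiA A 1 = ((∫ t in Ioi (0 : ℝ), TH A t : ℝ) : ℂ) := by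
  unfold Rk.PhiA mellin
  simp only [sub_self, cpow_zero, one_smul]
  exact integral_ofReal

lemma tail_lim (hA : LD A) (hF : FEq A q κ) :
    Tendsto (fun u : ℝ => ∫ t in Ioi u, TH A t) (𝓝[>] 0) (𝓝 (∫ t in Ioi (0 : ℝ), TH A t)) := by
  have hi := th_int hA hF
  rw [tendsto_iff_norm_sub_tendsto_zero]
  have h0 : Tendsto (fun u : ℝ => Rk.KK 6 * (1 + q) ^ 3 * u) (𝓝[>] 0) (𝓝 0) := by
    have h1 : Continuous fun u : ℝ => Rk.KK 6 * (1 + q) ^ 3 * u := by fun_prop
    have h2 := h1.tendsto 0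
    rw [mul_zero] at h2
    exact h2.mono_left nhdsWithin_le_nhds
  refine squeeze_zero' (Eventually.of_forall fun u => norm_nonneg _) ?_ h0
  filter_upwards [self_mem_nhdsWithin] with u hu
  have hu0 : (0 : ℝ) < u := hu
  have hdis : Disjoint (Ioc (0 : ℝ) u) (Ioi u) :=
    Set.disjoint_left.2 fun x h1 h2 => absurd h1.2 (not_le.2 h2)
  rw [← Ioc_union_Ioi_eq_Ioi hu0.le, setIntegral_union hdis measurableSet_Ioi
    (hi.mono_set Ioc_subset_Ioi_self) (hi.mono_set (Ioi_subset_Ioi hu0.le)), norm_sub_rev,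
    add_sub_cancel_right]
  have h := norm_setIntegral_le_of_norm_le_const (μ := volume) (s := Ioc (0 : ℝ) u)
    (f := TH A) (C := Rk.KK 6 * (1 + q) ^ 3) (by simp) fun t ht => Rk.TH_unif hA hF ht.1
  simpa [hu0.le] using h

/-- the central value as a limit -/
theorem lim (hA : LD A) (hF : FEq A q κ) {L : ℂ → ℂ} (hL : IsL A L) :
    Tendsto (fun y : ℝ => ∑' n : ℕ, ((A n : ℂ) / n) * cexp (-(2 * π * n * y))) (𝓝[>] 0)
      (𝓝 (L 1)) := by
  have h1 : L 1 = ((π / 4 * ∫ t in Ioi (0 : ℝ), TH A t : ℝ) : ℂ) := by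
    rw [Rk.isL_unique (Rk.isL_PhiA hA hF) hL]
    show Rk.PhiA A 1 * Rk.hf 1 = _
    rw [phi_one]
    unfold Rk.hf
    rw [cpow_one, Complex.Gamma_one]
    push_cast
    ring
  have h2 : Tendsto (fun y : ℝ => 2 * y) (𝓝[>] 0) (𝓝[>] 0) := by
    refine tendsto_nhdsWithin_iff.2 ⟨?_, ?_⟩
    · have h3 : Continuous fun y : ℝ => 2 * y := by fun_prop
      have h4 := h3.tendsto 0
      rw [mul_zero] at h4
      exact h4.mono_left nhdsWithin_le_nhds
    · filter_upwards [self_mem_nhdsWithin] with y hy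
      have : (0 : ℝ) < y := hy
      show 0 < 2 * y
      positivity
  have h3 := (continuous_ofReal.tendsto _).comp (((tail_lim hA hF).comp h2).const_mul (π / 4))
  rw [h1]
  refine h3.congr' ?_
  filter_upwards [self_mem_nhdsWithin] with y hy
  have hy0 : (0 : ℝ) < y := hy
  show ((π / 4 * ∫ t in Ioi (2 * y), TH A t : ℝ) : ℂ) = _
  rw [tail hA (by positivity), ← mul_assoc, show π / 4 * (4 / π) = 1 by
    have := Real.pi_ne_zero
    field_simp, one_mul, ofReal_tsum]
  refine tsum_congr fun n => ?_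
  push_cast
  congr 2
  ring

lemma fund {m : ℕ} (hs : Squarefree m) (h4 : m % 4 = 3) : Fund1 (-(m : ℤ)) :=
  Or.inr ⟨by omega, Or.inl ⟨by omega, by
    rw [← Int.squarefree_natAbs, Int.natAbs_neg, Int.natAbs_natCast]
    exact hs⟩⟩

lemma coef {m : ℕ} (hs : Squarefree m) (h4 : m % 4 = 3) (n : ℕ) :
    H742.LT (-(m : ℤ)) n = H792.a n * chi m n := by
  have h1 : H742.LT (-(m : ℤ)) n = _ := H742.r7F _ (fund hs h4) n
  rw [h1]
  rcases eq_or_ne n 0 with rfl | hn
  · rw [H792.a_zero, zero_mul, zero_mul]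
  · rw [H871.kron_eq (H871.fd_of_fund1 (fund hs h4)) hn]
    unfold H871.kr chi
    rw [if_pos (by omega), Int.natAbs_neg, Int.natAbs_natCast]

end Mel

/-- **MEL** -/
theorem mel_of (hLF : LF) : MEL := by
  intro m hs h4 L hL
  have hD := Mel.fund hs h4
  have hA : LD (H742.LT (-(m : ℤ))) :=
    (H742.allMLG (-13392) (-1080432) (by norm_num) _ hD).1 (H742.baseKF.hasse _ hD)
  have hF := H871.feq hD (H742.r7F _ hD)
  have hI : IsL (H742.LT (-(m : ℤ))) L := by
    refine ⟨hL.1, fun s hs' => ?_⟩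
    have h1 := (hL.2 s hs').tsum_eq
    rw [← h1]
    refine tsum_congr fun n => ?_
    rw [LSeries.term_def]
    split_ifs with hn
    · rw [hn, hA.zero]
      simp
    · rw [(hLF m hs h4).1 n, Mel.coef hs h4]
  refine (Mel.lim hA hF hI).congr fun y => tsum_congr fun n => ?_
  rw [Mel.coef hs h4]
  push_cast
  ring

end Vale.Agent.P014Z
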