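import Vale.Agent.P014Z.An

/-!
# P014Z: numerical bounds
-/

open Complex Filter Topology MeasureTheory Set
open scoped Real
open Vale.Agent.P004H (H792.a)
open Vale.Agent.P004H.H204 (qq)
open Vale.Agent.P004H.H792 (EP EP11 coeff_mul_range a_succ a_table a_zero)

noncomputable section

namespace Vale.Agent.P014Z

namespace Nm

/-! ### the cubic -/

theorem root : ∃ e : ℝ, 4.34 < e ∧ e < 4.35 ∧ psi0 e = 0 := by
  have hc : ContinuousOn psi0 (Icc 4.34 4.35) := by unfold psi0; fun_prop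
  obtain ⟨e, he, h⟩ := intermediate_value_Ioo (by norm_num : (4.34 : ℝ) ≤ 4.35) hc
    (show (0 : ℝ) ∈ Ioo (psi0 4.34) (psi0 4.35) by unfold psi0; constructor <;> norm_num)
  exact ⟨e, he.1, he.2, h⟩

theorem fac {e : ℝ} (h1 : 4.34 < e) (h2 : e < 4.35) (h : psi0 e = 0) (y : ℝ) :
    ∃ Q : ℝ, -psi0 (e - y) = 4 * y * Q ∧ 1 ≤ Q ∧ y ^ 2 ≤ 36 * Q := by
  refine ⟨y ^ 2 - (3 * e - 1) * y + (3 * e ^ 2 - 2 * e - 10), ?_, ?_, ?_⟩
  · unfold psi0 at h ⊢
    linear_combination -h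
  · nlinarith [sq_nonneg (y - (3 * e - 1) / 2)]
  · nlinarith [sq_nonneg (35 * y - 18 * (3 * e - 1))]

theorem neg_iff {e : ℝ} (h1 : 4.34 < e) (h2 : e < 4.35) (h : psi0 e = 0) (x : ℝ) :
    psi0 x < 0 ↔ x < e := by
  obtain ⟨Q, k1, k2, -⟩ := fac h1 h2 h (e - x)
  rw [sub_sub_cancel] at k1
  constructor
  · intro hx
    by_contra hh
    nlinarith [mul_nonneg (show 0 ≤ x - e by linarith) (show 0 ≤ Q by linarith)]
  · intro hx
    nlinarith [mul_pos (show 0 < e - x by linarith) (show 0 < Q by linarith)]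

theorem two_div_le {A B : ℝ} (hA : 0 < A) (hB : 0 ≤ B) (h : 4 ≤ B ^ 2 * A) : 2 / √A ≤ B := by
  rw [div_le_iff₀ (Real.sqrt_pos.2 hA), ← Real.sqrt_sq hB, ← Real.sqrt_mul (sq_nonneg B)]
  exact Real.le_sqrt_of_sq_le (by linarith)

theorem le_two_div {A c : ℝ} (hA : 0 < A) (hc : 0 ≤ c) (h : c ^ 2 * A ≤ 4) : c ≤ 2 / √A := by
  rw [le_div_iff₀ (Real.sqrt_pos.2 hA), ← Real.sqrt_sq hc, ← Real.sqrt_mul (sq_nonneg c)]
  exact Real.sqrt_le_iff.2 ⟨by norm_num, by linarith⟩

theorem meas0 : Measurable fun x : ℝ => 2 / √(-psi0 x) := by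
  unfold psi0
  fun_prop

/-- the integral which defines `Im0` converges -/
theorem int0 : IntegrableOn (fun x : ℝ => 2 / √(-psi0 x)) {x | psi0 x < 0} := by
  obtain ⟨e, h1, h2, h⟩ := root
  have hS : {x | psi0 x < 0} = Iio e := Set.ext (neg_iff h1 h2 h)
  have hm : Measurable fun y : ℝ => 2 / √(-psi0 (e - y)) := meas0.comp (measurable_const_sub e)
  have k1 : IntegrableOn (fun y : ℝ => 2 / √(-psi0 (e - y))) (Ioc 0 1) := by
    have := (intervalIntegrable_iff_integrableOn_Ioc_of_le zero_le_one).1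
      (intervalIntegral.intervalIntegrable_rpow' (a := 0) (b := 1) (r := -1 / 2) (by norm_num))
    refine this.mono' hm.aestronglyMeasurable
      ((ae_restrict_iff' measurableSet_Ioc).2 (Eventually.of_forall fun y hy => ?_))
    obtain ⟨Q, q1, q2, -⟩ := fac h1 h2 h y
    have hy0 := hy.1
    rw [Real.norm_of_nonneg (by positivity), q1]
    refine two_div_le (by positivity) (by positivity) ?_
    rw [← Real.rpow_natCast, ← Real.rpow_mul hy0.le]
    norm_num
    rw [Real.rpow_neg_one]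
    field_simp
    linarith
  have k2 : IntegrableOn (fun y : ℝ => 2 / √(-psi0 (e - y))) (Ioi 1) := by
    have := (integrableOn_Ioi_rpow_of_lt (a := -3 / 2) (by norm_num) zero_lt_one).const_mul 6
    refine this.mono' hm.aestronglyMeasurable
      ((ae_restrict_iff' measurableSet_Ioi).2 (Eventually.of_forall fun y hy => ?_))
    obtain ⟨Q, q1, q2, q3⟩ := fac h1 h2 h y
    have hy0 : 0 < y := zero_lt_one.trans hy
    rw [Real.norm_of_nonneg (by positivity), q1]
    refine two_div_le (by positivity) (by positivity) ?_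
    rw [mul_pow, ← Real.rpow_natCast (y ^ _), ← Real.rpow_mul hy0.le,
      show (-3 / 2 * ((2 : ℕ) : ℝ)) = -((3 : ℕ) : ℝ) by norm_num, Real.rpow_neg hy0.le,
      Real.rpow_natCast]
    field_simp
    linarith
  have k3 := k1.union k2
  rw [Ioc_union_Ioi_eq_Ioi zero_le_one] at k3
  rw [hS, ← (Measure.measurePreserving_sub_left volume e).integrableOn_comp_preimage
    (MeasurableEquiv.subLeft e).measurableEmbedding]
  simpa only [preimage_const_sub_Iio, sub_self, Function.comp_def] using k3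

theorem neg_of {x : ℝ} (hx : x ≤ 4.3) : psi0 x < 0 := by
  obtain ⟨e, h1, h2, h⟩ := root
  exact (neg_iff h1 h2 h x).2 (by linarith)

theorem ii {a b : ℝ} (hab : a ≤ b) (hb : b ≤ 4.3) :
    IntervalIntegrable (fun x : ℝ => 2 / √(-psi0 x)) volume a b :=
  (intervalIntegrable_iff_integrableOn_Ioc_of_le hab).2
    (int0.mono_set fun _ hx => neg_of (hx.2.trans hb))

theorem piece (a b M c : ℝ) (hab : a ≤ b) (hb : b ≤ 4.3) (hc : 0 ≤ c) (hM : c ^ 2 * M ≤ 4)
    (h : ∀ x, 0 ≤ x - a → 0 ≤ b - x → -(4 * x ^ 3 - 4 * x ^ 2 - 40 * x - 79) ≤ M) :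
    (b - a) * c ≤ ∫ x in a..b, 2 / √(-psi0 x) := by
  have := intervalIntegral.integral_mono_on hab (intervalIntegrable_const (c := c)) (ii hab hb)
    fun x hx => le_two_div (neg_pos.2 (neg_of (hx.2.trans hb))) hc
      ((mul_le_mul_of_nonneg_left (h x (sub_nonneg.2 hx.1) (sub_nonneg.2 hx.2))
        (sq_nonneg c)).trans hM)
  simpa only [intervalIntegral.integral_const, smul_eq_mul] using this

theorem im0_gt : 1.8 < Im0 := by
  have k0 : ∫ x in (-10 : ℝ)..4.3, 2 / √(-psi0 x) ≤ Im0 := by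
    rw [intervalIntegral.integral_of_le (by norm_num)]
    exact setIntegral_mono_set int0 (Eventually.of_forall fun x => by positivity)
      (LE.le.eventuallyLE fun x hx => neg_of hx.2)
  have ad : ∀ a b : ℝ, a ≤ b → b ≤ 4.3 → ∫ x in a..4.3, 2 / √(-psi0 x) =
      (∫ x in a..b, 2 / √(-psi0 x)) + ∫ x in b..4.3, 2 / √(-psi0 x) := fun a b h1 h2 =>
    (intervalIntegral.integral_add_adjacent_intervals (ii h1 h2) (ii h2 le_rfl)).symm
  rw [ad (-10) (-6) (by norm_num) (by norm_num), ad (-6) (-4) (by norm_num) (by norm_num),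
    ad (-4) (-3) (by norm_num) (by norm_num), ad (-3) (-2) (by norm_num) (by norm_num),
    ad (-2) (-1) (by norm_num) (by norm_num), ad (-1) 0 (by norm_num) (by norm_num),
    ad 0 1 (by norm_num) (by norm_num), ad 1 3 (by norm_num) (by norm_num),
    ad 3 4 (by norm_num) (by norm_num)] at k0
  have p1 := piece (-10) (-6) 4079 0.031 (by norm_num) (by norm_num) (by norm_num) (by norm_num)
    fun x h1 h2 => by nlinarith [mul_nonneg h1 (sq_nonneg x), mul_nonneg h1 h2]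
  have p2 := piece (-6) (-4) 847 0.068 (by norm_num) (by norm_num) (by norm_num) (by norm_num)
    fun x h1 h2 => by nlinarith [mul_nonneg h1 (sq_nonneg x), mul_nonneg h1 h2]
  have p3 := piece (-4) (-3) 239 0.129 (by norm_num) (by norm_num) (by norm_num) (by norm_num)
    fun x h1 h2 => by nlinarith [mul_nonneg h1 (sq_nonneg x), mul_nonneg h1 h2]
  have p4 := piece (-3) (-2) 103 0.197 (by norm_num) (by norm_num) (by norm_num) (by norm_num)
    fun x h1 h2 => by nlinarith [mul_nonneg h1 (sq_nonneg x), mul_nonneg h1 h2]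
  have p5 := piece (-2) (-1) 47 0.291 (by norm_num) (by norm_num) (by norm_num) (by norm_num)
    fun x h1 h2 => by nlinarith [mul_nonneg (mul_nonneg h1 h2) h2, mul_nonneg h1 h2]
  have p6 := piece (-1) 0 79 0.225 (by norm_num) (by norm_num) (by norm_num) (by norm_num)
    fun x h1 h2 => by nlinarith [mul_nonneg (mul_nonneg h1 h2) h2, mul_nonneg h1 h2]
  have p7 := piece 0 1 119 0.183 (by norm_num) (by norm_num) (by norm_num) (by norm_num)
    fun x h1 h2 => by nlinarith [mul_nonneg (mul_nonneg h1 h2) h2, mul_nonneg h1 h2]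
  have p8 := piece 1 3 146 0.165 (by norm_num) (by norm_num) (by norm_num) (by norm_num)
    fun x h1 h2 => by nlinarith [mul_nonneg h1 (sq_nonneg (x - 2.2)), sq_nonneg (x - 2.2)]
  have p9 := piece 3 4 127 0.177 (by norm_num) (by norm_num) (by norm_num) (by norm_num)
    fun x h1 h2 => by nlinarith [mul_nonneg h1 (mul_nonneg h1 h1), mul_nonneg h1 h1]
  have p10 := piece 4 4.3 47 0.291 (by norm_num) (by norm_num) (by norm_num) (by norm_num)
    fun x h1 h2 => by nlinarith [mul_nonneg h1 (mul_nonneg h1 h1), mul_nonneg h1 h1]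
  norm_num at p1 p2 p3 p4 p5 p6 p7 p8 p9 p10 k0 ⊢
  linarith

/-! ### the series -/

theorem abs_mul_le {p r : PowerSeries ℤ} {A B : ℤ} {n : ℕ} (hp : ∀ i ≤ n, |p.coeff i| ≤ A)
    (hr : ∀ i ≤ n, |r.coeff i| ≤ B) : |(p * r).coeff n| ≤ (n + 1) * (A * B) := by
  rw [coeff_mul_range]
  refine (Finset.abs_sum_le_sum_abs _ _).trans ((Finset.sum_le_card_nsmul _ _ (A * B)
    fun i hi => ?_).trans (by simp))
  rw [abs_mul]
  exact mul_le_mul (hp i (Nat.lt_succ_iff.1 (Finset.mem_range.1 hi))) (hr _ (Nat.sub_le _ _))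
    (abs_nonneg _) ((abs_nonneg _).trans (hp 0 (Nat.zero_le _)))

theorem ep_le (n : ℕ) : |EP.coeff n| ≤ 1 := by
  by_cases h : n ∈ Set.range pentagonal
  · obtain ⟨k, rfl⟩ := h
    rw [Vale.Agent.P004H.H792.EP_coeff, Vale.Agent.P004H.H792.ec_pent, Int.abs_negOnePow]
  · rw [show EP.coeff n = 0 from PowerSeries.coeff_pentagonalSeries_eq_zero ℤ h]
    norm_num

theorem ep11_le (n : ℕ) : |EP11.coeff n| ≤ 1 := by
  simp only [EP11, PowerSeries.coeff_mk]
  split_ifs
  · exact ep_le _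
  · norm_num

theorem a_le (n : ℕ) : |H792.a n| ≤ (n : ℤ) ^ 3 := by
  rcases n with _ | n
  · simp [a_zero]
  have k : ∀ p : PowerSeries ℤ, (∀ i, |p.coeff i| ≤ 1) → ∀ i ≤ n, |(p ^ 2).coeff i| ≤ n + 1 :=
    fun p hp i hi => by
      rw [pow_two]
      refine (abs_mul_le (fun j _ => hp j) fun j _ => hp j).trans ?_
      simpa using hi
  rw [a_succ]
  refine (abs_mul_le (k _ ep_le) (k _ ep11_le)).trans (le_of_eq ?_)
  push_cast
  ring

theorem term_le {s : ℂ} (hs : ‖s‖ ≤ 0.54) (n : ℕ) :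
    ‖(H792.a (n + 14) : ℂ) / (n + 14 : ℕ) * s ^ (n + 14)‖ ≤ 0.036 * 0.62 ^ n := by
  have h0 : (0 : ℝ) < (n + 14 : ℕ) := by positivity
  have h1 : ‖(H792.a (n + 14) : ℂ) / (n + 14 : ℕ)‖ ≤ ((n + 14 : ℕ) : ℝ) ^ 2 := by
    rw [norm_div, Complex.norm_natCast, Complex.norm_intCast, div_le_iff₀ h0, ← pow_succ]
    exact_mod_cast a_le (n + 14)
  have h2 : ((n + 14 : ℕ) : ℝ) ≤ 14 * (1 + 1 / 14) ^ n := by
    have := one_add_mul_le_pow (show (-2 : ℝ) ≤ 1 / 14 by norm_num) n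
    push_cast
    linarith
  rw [norm_mul, norm_pow]
  calc _ ≤ (14 * (1 + 1 / 14) ^ n) ^ 2 * (0.54 : ℝ) ^ (n + 14) := by
        gcongr
        exact h1.trans (by gcongr)
    _ = 196 * 0.54 ^ 14 * ((1 + 1 / 14) ^ 2 * 0.54) ^ n := by
        rw [mul_pow, mul_pow, ← pow_mul, ← pow_mul, mul_comm n 2, pow_add]
        ring
    _ ≤ _ := by gcongr <;> norm_num

theorem im_bound {s : ℂ} {q r : ℝ} (h1 : 0.36 ≤ q) (h2 : q ≤ 0.54) (hr : 0 ≤ r) (hr2 : r ^ 2 = 3)
    (hs : s = q * (-1 / 2 + r / 2 * I)) :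
    0 < (∑' n : ℕ, (H792.a n : ℂ) / n * s ^ n).im ∧
      (∑' n : ℕ, (H792.a n : ℂ) / n * s ^ n).im < 0.9 := by
  have hr3 : (r : ℂ) ^ 2 = 3 := by exact_mod_cast hr2
  have hn : ‖s‖ = q := by
    have : ‖s‖ ^ 2 = q ^ 2 := by
      rw [Complex.sq_norm, Complex.normSq_apply, hs]
      simp
      linear_combination (q ^ 2 / 4) * hr2
    exact (pow_left_inj₀ (norm_nonneg _) (by linarith) two_ne_zero).1 this
  have hs' : ‖s‖ ≤ 0.54 := hn ▸ h2
  have hg : HasSum (fun n : ℕ => (0.036 : ℝ) * 0.62 ^ n) (0.036 * (1 - 0.62)⁻¹) :=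
    (hasSum_geometric_of_lt_one (by norm_num) (by norm_num)).mul_left _
  have hsum : Summable fun n : ℕ => (H792.a n : ℂ) / n * s ^ n :=
    (summable_nat_add_iff 14).1 (Summable.of_norm_bounded hg.summable (term_le hs'))
  have ht := tsum_of_norm_bounded hg (term_le hs')
  rw [← hsum.sum_add_tsum_nat_add 14]
  generalize (∑' n : ℕ, (H792.a (n + 14) : ℂ) / (n + 14 : ℕ) * s ^ (n + 14)) = T at ht ⊢
  obtain ⟨a0, a1, a2, a3, a4, a5, a6, a7, a8, a9, a10, a11, a12, a13⟩ := a_table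
  have e3 : s ^ 3 = ((q ^ 3 : ℝ) : ℂ) := by
    rw [hs]
    push_cast
    linear_combination (q : ℂ) ^ 3 * ((-3 / 8 * r ^ 2 + r ^ 3 / 8 * I) * Complex.I_sq +
      (3 / 8 - r / 8 * I) * hr3)
  obtain ⟨R, hR, hR'⟩ : ∃ R : ℂ, ‖R‖ ≤ 0.07 ∧ ∑ n ∈ Finset.range 14, (H792.a n : ℂ) / n * s ^ n =
      s - s ^ 2 - s ^ 3 / 3 + R := by
    refine ⟨∑ n ∈ Finset.range 10, (H792.a (n + 4) : ℂ) / (n + 4 : ℕ) * s ^ (n + 4), ?_, ?_⟩
    · refine (norm_sum_le_of_le _ (n := fun n => ‖(H792.a (n + 4) : ℂ) / (n + 4 : ℕ)‖ *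
        0.54 ^ (n + 4)) fun n _ => ?_).trans ?_
      · rw [norm_mul, norm_pow]
        gcongr
      · simp only [Finset.sum_range_succ, Finset.sum_range_zero, Nat.reduceAdd, a4, a5, a6, a7, a8,
          a9, a10, a11, a12, a13, norm_div, Complex.norm_natCast, Complex.norm_intCast]
        norm_num
    · simp only [Finset.sum_range_succ, Finset.sum_range_zero, Nat.reduceAdd, a0, a1, a2, a3]
      push_cast
      ring
  have e1 : (s - s ^ 2).im = r / 2 * (q + q ^ 2) := by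
    rw [hs, pow_two]
    simp
    ring
  rw [hR', add_im, add_im, sub_im, e1, e3, show ((q ^ 3 : ℝ) : ℂ) / 3 = ((q ^ 3 / 3 : ℝ) : ℂ) by
    push_cast; ring, ofReal_im]
  have b1 := abs_le.1 ((abs_im_le_norm R).trans hR)
  have b2 := abs_le.1 ((abs_im_le_norm T).trans ht)
  have r1 : 1.7 ≤ r := by nlinarith
  have r2 : r ≤ 1.74 := by nlinarith
  have q1 : 0.48 ≤ q + q ^ 2 := by nlinarith
  have q2 : q + q ^ 2 ≤ 0.832 := by nlinarith
  norm_num at b2
  constructor <;> nlinarith [mul_le_mul r1 q1 (by norm_num) hr,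
    mul_le_mul r2 q2 (by linarith) (by norm_num)]

theorem im_pos_of {z : ℂ} (hz : 0 < z.im) : 0 < (-1 / (11 * z)).im := by
  have h0 : z ≠ 0 := fun h => by simp [h] at hz
  rw [neg_div, one_div, neg_im, inv_im, neg_div, neg_neg]
  exact div_pos (by simpa using hz) (Complex.normSq_pos.2 (mul_ne_zero (by norm_num) h0))

end Nm

open Nm in
/-- **NUM** -/
theorem num : NUM := by
  intro C w h
  have hC : C.im = 0 := by
    have k : ∀ y : ℝ, 0 < y → (uF (y * I)).im = 0 := fun y hy => by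
      have := h.cj (y * I) (by simpa using hy)
      rw [one_mul, map_mul, conj_ofReal, conj_I, mul_neg, neg_neg] at this
      exact conj_eq_iff_im.1 this.symm
    have k1 := h.W ((1 : ℝ) * I) (by simp)
    rw [show -1 / (11 * (((1 : ℝ) : ℂ) * I)) = ((1 / 11 : ℝ) : ℂ) * I by
      push_cast
      field_simp
      rw [I_sq]] at k1
    have k2 := congrArg Complex.im k1
    rwa [sub_im, k 1 one_pos, k _ (by norm_num), sub_zero, eq_comm] at k2
  have hu : (0 : ℝ) < √99 := by positivity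
  have hu2 : √99 ^ 2 = (99 : ℝ) := Real.sq_sqrt (by norm_num)
  have hu3 : 9.9 < √99 ∧ √99 < (10 : ℝ) := by constructor <;> nlinarith
  obtain ⟨y, hy, hy2⟩ : ∃ y : ℝ, y = (√99)⁻¹ ∧ y ^ 2 = 1 / 99 :=
    ⟨_, rfl, by rw [inv_pow, hu2, one_div]⟩
  have y1 : 0.1 ≤ y := by rw [hy, le_inv_comm₀ (by norm_num) hu]; linarith [hu3.2]
  have y2 : y ≤ 0.1015 := by rw [hy, inv_le_comm₀ hu (by norm_num)]; linarith [hu3.1]
  obtain ⟨t, ht⟩ : ∃ t : ℂ, t = 1 / 3 + y * I := ⟨_, rfl⟩
  have t1 : 0 < t.im := by rw [ht]; simp; linarith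
  have t0 : t ≠ 0 := fun h => by simp [h] at t1
  have t2 : 3 * t - 1 ≠ 0 := fun h => by
    have := congrArg Complex.im h
    simp at this
    linarith
  have t3 : 33 * t ^ 2 - 22 * t + 4 = 0 := by
    have : (y : ℂ) ^ 2 = 1 / 99 := by rw [← ofReal_pow, hy2]; push_cast; rfl
    rw [ht]
    linear_combination 33 * (y : ℂ) ^ 2 * I_sq - 33 * this
  have t4 : G0.V.mob (-1 / (11 * t)) = t := by
    have : (11 : ℂ) * (-1 / (11 * t)) + 3 = (3 * t - 1) / t := by field_simp; ring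
    simp only [G0.mob, G0.V]
    push_cast
    rw [this, div_eq_iff (div_ne_zero t2 t0), mul_div_cancel₀ _ t0,
      show 4 * (-1 / (11 * t)) + 1 = (11 * t - 4) / (11 * t) by field_simp; ring,
      div_eq_iff (mul_ne_zero (by norm_num) t0)]
    linear_combination -t3
  have k1 := h.mob G0.V _ (im_pos_of t1)
  rw [t4, h.W t t1] at k1
  have k2 : (w G0.V).im = 2 * (uF t).im := by
    have := congrArg Complex.im k1
    rw [add_im, sub_im, hC] at this
    linarith
  have p1 := Real.pi_gt_d2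
  have p2 := Real.pi_lt_d2
  have x1 : 0.628 ≤ 2 * π * y := by nlinarith
  have x2 : 2 * π * y ≤ 0.64 := by nlinarith
  have k3 := im_bound (s := qq t) (q := Real.exp (-(2 * π * y))) (r := √3)
    (by linarith [Real.add_one_le_exp (-(2 * π * y))])
    (by
      have e := Real.sum_le_exp_of_nonneg (x := 0.628) (by norm_num) 4
      simp only [Finset.sum_range_succ, Finset.sum_range_zero, Nat.factorial] at e
      rw [Real.exp_neg, inv_le_comm₀ (Real.exp_pos _) (by norm_num)]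
      refine le_trans ?_ (e.trans (Real.exp_le_exp.2 x1))
      norm_num)
    (Real.sqrt_nonneg _) (Real.sq_sqrt (by norm_num))
    (by
      rw [qq, ht, show 2 * (π : ℂ) * I * (1 / 3 + y * I) =
          ((-(2 * π * y) : ℝ) : ℂ) + ((π - π / 3 : ℝ) : ℂ) * I by
        push_cast
        linear_combination 2 * (π : ℂ) * y * I_sq, Complex.exp_add, Complex.exp_mul_I,
        ← ofReal_cos, ← ofReal_sin, Real.cos_pi_sub, Real.sin_pi_sub, Real.cos_pi_div_three,
        Real.sin_pi_div_three, ← ofReal_exp]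
      push_cast
      ring)
  rw [k2]
  change 0 < (uF t).im ∧ (uF t).im < 0.9 at k3
  constructor <;> linarith [k3.1, k3.2, im0_gt]

end Vale.Agent.P014Z
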