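import Vale.Agent.P014Z.Ga

/-!
# P014Z, row P5: the fifth division polynomial of `11a1`
-/

open WeierstrassCurve
open scoped Classical

namespace Vale.Agent.P014Z

namespace P5A

theorem alg {F : Type} [Field F] {x y l x2 y2 m : F}
    (he : y ^ 2 + y = x ^ 3 - x ^ 2 - 10 * x - 20)
    (hl : l * (2 * y + 1) = 3 * x ^ 2 - 2 * x - 10) (hx2 : x2 = l ^ 2 + 1 - 2 * x)
    (hy2 : y2 = -(l * (x2 - x) + y) - 1) (hm : m * (x2 - x) = y2 - y)
    (h3 : m ^ 2 + 1 - x2 - x = x2) :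
    (x - 5) * (x - 16) * (5 * x ^ 2 + 5 * x - 29) * (x ^ 4 + x ^ 3 + 11 * x ^ 2 + 41 * x + 101) *
      (x ^ 4 + 15 * x ^ 3 + 120 * x ^ 2 + 200 * x + 155) = 0 := by
  obtain ⟨w, hw⟩ : ∃ w, w = 2 * y + 1 := ⟨_, rfl⟩
  obtain ⟨d, hd⟩ : ∃ d, d = x2 - x := ⟨_, rfl⟩
  obtain ⟨N, hN⟩ : ∃ N, N = 3 * x ^ 2 - 2 * x - 10 := ⟨_, rfl⟩
  obtain ⟨s, hs⟩ : ∃ s, s = 4 * x ^ 3 - 4 * x ^ 2 - 40 * x - 79 := ⟨_, rfl⟩
  have h1 : w ^ 2 = s := by rw [hw, hs]; linear_combination 4 * he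
  have h2 : l * w = N := by rw [hw, hN, hl]
  have h4 : m * d = -(l * d) - w := by rw [hd, hm, hy2, hw]; ring
  have h5 : m ^ 2 = l ^ 2 + d := by rw [hd]; linear_combination h3 + hx2
  have h6 : d ^ 3 = 2 * N * d + s := by
    have h7 : (m * d) ^ 2 = (-(l * d) - w) ^ 2 := by rw [h4]
    linear_combination h7 - d ^ 2 * h5 + 2 * d * h2 + h1
  have h8 : d * s = N ^ 2 + (1 - 3 * x) * s := by
    rw [hd, hx2, ← h2, ← h1]; ring
  have h9 : (d * s) ^ 3 = 2 * N * (d * s) * s ^ 2 + s ^ 4 := by linear_combination s ^ 3 * h6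
  rw [h8, hN, hs] at h9
  linear_combination h9

theorem gen {F : Type} [Field F] (W : Affine F) (h1 : W.a₁ = 0) (h2 : W.a₂ = -1) (h3 : W.a₃ = 1)
    (h4 : W.a₄ = -10) (h6 : W.a₆ = -20) (x y : F) (h : W.Nonsingular x y)
    (h5 : 5 • (Affine.Point.some x y h) = 0) :
    (x - 5) * (x - 16) * (5 * x ^ 2 + 5 * x - 29) * (x ^ 4 + x ^ 3 + 11 * x ^ 2 + 41 * x + 101) *
      (x ^ 4 + 15 * x ^ 3 + 120 * x ^ 2 + 200 * x + 155) = 0 := by
  set P := Affine.Point.some x y h with hP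
  have hP0 : P ≠ 0 := Affine.Point.some_ne_zero h
  have h5' : P + P + P + P + P = 0 := by rw [← h5]; abel
  have hy : y ≠ W.negY x y := by
    intro hy
    have h7 : P + P = 0 := Affine.Point.add_self_of_Y_eq hy
    apply hP0
    rw [← h5', add_assoc (P + P) P P, h7]; simp
  have hQ : P + P = Affine.Point.some _ _ _ := Affine.Point.add_self_of_Y_ne hy
  have hx : W.addX x x (W.slope x x y y) ≠ x := by
    intro hx
    have h7 : P + P = P ∨ P + P = -P := by
      rw [hQ]; exact Affine.Point.X_eq_iff.mp hx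
    rcases h7 with h7 | h7
    · exact hP0 (add_eq_left.mp h7)
    · have h8 : P + P + P = 0 := by rw [h7, neg_add_cancel]
      have h9 : P + P = 0 := by rw [← h5', h8]; simp
      apply hP0
      rw [← h8, h9, zero_add]
  have hR : P + P + P = -(P + P) := by
    rw [eq_neg_iff_add_eq_zero, ← h5']; abel
  rw [hQ, hP, Affine.Point.add_of_X_ne hx, Affine.Point.neg_some, Affine.Point.some.injEq] at hR
  have he := h.1
  rw [Affine.equation_iff, h1, h2, h3, h4, h6] at he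
  have hw : y - W.negY x y = 2 * y + 1 := by rw [Affine.negY, h1, h3]; ring
  refine alg (y := y) (l := W.slope x x y y) (x2 := W.addX x x (W.slope x x y y))
    (y2 := W.addY x x y (W.slope x x y y))
    (m := W.slope (W.addX x x (W.slope x x y y)) x (W.addY x x y (W.slope x x y y)) y)
    (by linear_combination he) ?_ ?_ ?_ ?_ ?_
  · rw [Affine.slope_of_Y_ne rfl hy, ← hw, div_mul_cancel₀ _ (sub_ne_zero.mpr hy), h1, h2, h4]
    ring
  · rw [Affine.addX, h1, h2]; ring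
  · rw [Affine.addY, Affine.negY, Affine.negAddY, h1, h3]; ring
  · rw [Affine.slope_of_X_ne hx, div_mul_cancel₀ _ (sub_ne_zero.mpr hx)]
  · have h7 := hR.1
    rw [Affine.addX, h1, h2] at h7
    linear_combination h7

end P5A

theorem p5 : P5 := by
  intro F _ _ x y h h5
  exact P5A.gen _ (by simp [E0]) (by simp [E0]) (by simp [E0]) (by simp [E0]) (by simp [E0])
    x y h h5

end Vale.Agent.P014Z
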