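import Mathlib

/-!
# P014Z: Hilbert's theorem 94 for a quintic extension of an imaginary quadratic field
-/

open NumberField NumberField.Units NumberField.InfinitePlace Module
open scoped nonZeroDivisors

namespace Vale.Agent.P014Z

namespace H94

/-- invariant ideals descend when all inertia groups are trivial -/
theorem desc {A B G : Type*} [CommRing A] [CommRing B] [Algebra A B] [Group G] [Fintype G]
    [MulSemiringAction G B] [Algebra.IsInvariant A B G]
    (hI : ∀ P : Ideal B, P.IsMaximal → ∀ σ : G, (∀ x : B, σ • x - x ∈ P) → σ = 1)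
    {I : Ideal B} (hG : ∀ σ : G, ∀ x ∈ I, σ • x ∈ I) :
    (I.comap (algebraMap A B)).map (algebraMap A B) = I := by
  classical
  refine le_antisymm Ideal.map_comap_le fun a ha => ?_
  set J := (I.comap (algebraMap A B)).map (algebraMap A B)
  by_contra hn
  obtain ⟨P, hP, hle⟩ := Ideal.exists_le_maximal (Submodule.comap (LinearMap.mulRight B a) J)
    fun h => hn (by simpa using (Ideal.eq_top_iff_one _).1 h)
  choose! z hz using fun σ (h : σ ≠ 1) => not_forall.1 (mt (hI P hP σ) h)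
  have key (s : Finset G) : ∀ x ∈ I, ∑ τ : G, (∏ σ ∈ s, (σ • z σ - τ • z σ)) * τ • x ∈ J := by
    induction s using Finset.induction_on with
    | empty =>
      intro x hx
      obtain ⟨c, hc⟩ := Algebra.IsInvariant.isInvariant (A := A) (G := G) (∑ τ : G, τ • x)
        fun g => by
          simp only [Finset.smul_sum, ← mul_smul]
          exact Fintype.sum_equiv (Equiv.mulLeft g) _ _ fun _ => rfl
      simp only [Finset.prod_empty, one_mul]
      rw [← hc]
      exact Ideal.mem_map_of_mem _ (Ideal.mem_comap.2 (hc ▸ I.sum_mem fun τ _ => hG τ x hx))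
    | insert σ s hs ih =>
      intro x hx
      have k := J.sub_mem (J.mul_mem_left (σ • z σ) (ih x hx)) (ih _ (I.mul_mem_left (z σ) hx))
      rw [Finset.mul_sum, ← Finset.sum_sub_distrib] at k
      rwa [Finset.sum_congr rfl fun τ _ => ?_]
      rw [Finset.prod_insert hs, smul_mul']
      ring
  have k := key (Finset.univ.erase 1) a ha
  rw [Finset.sum_eq_single 1 (fun τ _ h => by
    rw [Finset.prod_eq_zero (Finset.mem_erase.2 ⟨h, Finset.mem_univ _⟩) (sub_self _), zero_mul])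
    (by simp), one_smul] at k
  obtain ⟨σ, h1, h2⟩ := Ideal.IsPrime.prod_mem_iff (hp := hP.isPrime) |>.1 (hle k)
  exact hz σ (Finset.ne_of_mem_erase h1) (by simpa using h2)

theorem fin {A : Type*} [AddCommGroup A] (S : A →+ A) (h5 : ∀ e, S (S (S (S (S e)))) = e) {c : ℕ}
    (hc : ¬ 5 ∣ c) (h : ∀ u, ∃ e, c • u + S e = e) (φ : A →+ ZMod 5) : φ = 0 := by
  have : Fact (Nat.Prime 5) := ⟨by norm_num⟩
  have hD (ψ : A →+ ZMod 5) (k : ψ.comp S - ψ = 0) : ψ = 0 := by
    ext u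
    obtain ⟨e, he⟩ := h u
    have k1 : ψ (S e) - ψ e = 0 := DFunLike.congr_fun k e
    have k2 := congrArg ψ he
    rw [map_add, map_nsmul, nsmul_eq_mul] at k2
    exact (mul_eq_zero.1 (by linear_combination k2 - k1 : (c : ZMod 5) * ψ u = 0)).resolve_left
      (mt (ZMod.natCast_eq_zero_iff c 5).1 hc)
  refine hD _ (hD _ (hD _ (hD _ (hD _ ?_))))
  ext e
  have k : (5 : ZMod 5) = 0 := rfl
  simp only [AddMonoidHom.sub_apply, AddMonoidHom.comp_apply, AddMonoidHom.zero_apply, h5]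
  linear_combination (φ (S e) - 2 * φ (S (S e)) + 2 * φ (S (S (S e))) - φ (S (S (S (S e))))) * k

variable {K : Type} [Field K] [NumberField K]

theorem tor {m : ℕ} (hm : 0 < m) (hK : finrank ℚ K = 2) (hs : ∃ s : K, s ^ 2 = -(m : K))
    (x : (𝓞 K)ˣ) : x ^ torsionOrder K = 1 := by
  classical
  obtain ⟨s, hs⟩ := hs
  have h0 : nrRealPlaces K = 0 := Fintype.card_eq_zero_iff.2 ⟨fun w => by
    have k := congrArg (embedding_of_isReal w.2) hs
    rw [map_pow, map_neg, map_natCast] at k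
    have : (0 : ℝ) < m := by exact_mod_cast hm
    nlinarith [sq_nonneg (embedding_of_isReal w.2 s)]⟩
  have h1 := card_add_two_mul_card_eq_rank K
  have h2 := card_eq_nrRealPlaces_add_nrComplexPlaces K
  have : IsEmpty (Fin (rank K)) := ⟨fun i => by
    have := i.2
    unfold rank at this
    omega⟩
  obtain ⟨ζ, h, -⟩ := exist_unique_eq_mul_prod K x
  rw [h, Fintype.prod_empty, mul_one]
  exact congrArg Subtype.val (pow_card_eq_one' (x := ζ.1))

theorem five (hK : finrank ℚ K = 2) : ¬ 5 ∣ torsionOrder K := fun h => by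
  have : Fact (Nat.Prime 5) := ⟨by norm_num⟩
  obtain ⟨ζ, hζ⟩ := exists_prime_orderOf_dvd_card' 5 h
  have h1 : IsPrimitiveRoot (((ζ : (𝓞 K)ˣ) : 𝓞 K) : K) 5 := IsPrimitiveRoot.coe_coe_iff.2
    (IsPrimitiveRoot.coe_submonoidClass_iff.2 (hζ ▸ IsPrimitiveRoot.orderOf ζ))
  have h2 := h1.lcm_totient_le_finrank h1 (Polynomial.cyclotomic.irreducible_rat (by norm_num))
  rw [hK, Nat.lcm_self, Nat.totient_prime (by norm_num)] at h2
  omega

variable {L : Type} [Field L] [NumberField L] [Algebra K L] [IsGalois K L]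

theorem unit (hI : ∀ P : Ideal (𝓞 L), P.IsMaximal → ∀ σ : L ≃ₐ[K] L,
    (∀ x : 𝓞 L, σ • x - x ∈ P) → σ = 1) {g : L ≃ₐ[K] L} (hg : ∀ x, x ∈ Subgroup.zpowers g)
    {u : (𝓞 L)ˣ} (hu : Algebra.norm K ((u : 𝓞 L) : L) = 1) :
    ∃ e : (𝓞 L)ˣ, (u : 𝓞 L) ^ classNumber K * g • (e : 𝓞 L) = e := by
  have : IsCyclic (L ≃ₐ[K] L) := ⟨g, hg⟩
  obtain ⟨a, h0, ha⟩ := groupCohomology.exists_mul_galRestrict_of_norm_eq_one (A := 𝓞 K) hg hu
  replace ha : (u : 𝓞 L) * g • a = a := by
    refine Eq.trans ?_ ha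
    congr 1
    exact RingOfIntegers.ext (algebraMap_galRestrict_apply (𝓞 K) g a).symm
  have hG (σ : L ≃ₐ[K] L) : ∀ x ∈ Ideal.span {a}, σ • x ∈ Ideal.span {a} := by
    obtain ⟨n, rfl⟩ := mem_powers_iff_mem_zpowers.2 (hg σ)
    induction n with
    | zero => simp
    | succ n ih =>
      intro x hx
      obtain ⟨y, hy⟩ := Ideal.mem_span_singleton.1 (ih x hx)
      simp only [pow_succ', mul_smul] at hy ⊢
      rw [hy, smul_mul']
      exact Ideal.mem_span_singleton.2 (Dvd.dvd.mul_right ⟨↑u⁻¹, by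
        rw [eq_comm, Units.mul_inv_eq_iff_eq_mul, mul_comm, ha]⟩ _)
  have hd := desc (A := 𝓞 K) hI hG
  have hJ : (Ideal.span {a}).comap (algebraMap (𝓞 K) (𝓞 L)) ∈ (Ideal (𝓞 K))⁰ :=
    mem_nonZeroDivisors_of_ne_zero fun h => h0 (by
      rw [h, Ideal.zero_eq_bot, Ideal.map_bot, eq_comm] at hd
      exact Ideal.span_singleton_eq_bot.1 hd)
  have h1 : ClassGroup.mk0 (⟨_, hJ⟩ ^ classNumber K) = 1 := by
    rw [map_pow]
    exact pow_card_eq_one
  obtain ⟨b, hb⟩ := (ClassGroup.mk0_eq_one_iff _).1 h1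
  have h2 := congrArg (Ideal.map (algebraMap (𝓞 K) (𝓞 L))) hb
  rw [Ideal.map_pow, hd, Ideal.span_singleton_pow, Ideal.submodule_span_eq,
    Ideal.map_span, Set.image_singleton] at h2
  obtain ⟨e, he⟩ := Ideal.span_singleton_eq_span_singleton.1 h2.symm
  have h3 := congrArg (g • ·) he
  have h4 := congrArg (· ^ classNumber K) ha
  simp only [smul_mul', smul_pow', smul_algebraMap, mul_pow] at h3 h4
  exact ⟨e, mul_left_cancel₀ (left_ne_zero_of_mul (he ▸ pow_ne_zero _ h0))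
    (by linear_combination (u : 𝓞 L) ^ classNumber K * h3 + h4 - he)⟩

theorem hom (h : 0 < rank K) : ∃ φ : Additive (𝓞 K)ˣ →+ ZMod 5, φ ≠ 0 := by
  let ψ : Additive (𝓞 K)ˣ →+ unitLattice K :=
    (logEmbedding K).codRestrict (unitLattice K) fun _ => Submodule.mem_map_of_mem trivial
  have h1 : ψ (.ofMul (fundSystem K ⟨0, h⟩)) = basisUnitLattice K ⟨0, h⟩ :=
    Subtype.ext (logEmbedding_fundSystem K _)
  refine ⟨(Int.castAddHom (ZMod 5)).comp
    (((basisUnitLattice K).coord ⟨0, h⟩).toAddMonoidHom.comp ψ), fun k => ?_⟩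
  have k1 := DFunLike.congr_fun k (.ofMul (fundSystem K ⟨0, h⟩))
  rw [AddMonoidHom.comp_apply, AddMonoidHom.comp_apply, h1] at k1
  simp at k1
  exact absurd k1 (by decide)

end H94

open H94

theorem h94 (K L : Type) [Field K] [NumberField K] [Field L] [NumberField L] [Algebra K L]
    [IsGalois K L] (m : ℕ) (hm : 0 < m) (hK : finrank ℚ K = 2) (hs : ∃ s : K, s ^ 2 = -(m : K))
    (h5 : finrank K L = 5) (hh : ¬ 5 ∣ classNumber K)
    (hI : ∀ P : Ideal (𝓞 L), P.IsMaximal → ∀ σ : L ≃ₐ[K] L, (∀ x : 𝓞 L, σ • x - x ∈ P) → σ = 1) :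
    False := by
  have : Fact (Nat.Prime 5) := ⟨by norm_num⟩
  have hc : Nat.card (L ≃ₐ[K] L) = 5 := (IsGalois.card_aut_eq_finrank K L).trans h5
  have := isCyclic_of_prime_card hc
  obtain ⟨g, hg⟩ := IsCyclic.exists_generator (α := L ≃ₐ[K] L)
  have h1 := card_add_two_mul_card_eq_rank L
  have h2 := card_eq_nrRealPlaces_add_nrComplexPlaces L
  rw [← finrank_mul_finrank ℚ K L, hK, h5] at h1
  obtain ⟨φ, hφ⟩ := hom (K := L) (by unfold rank; omega)
  obtain ⟨S, hS⟩ : ∃ S : Additive (𝓞 L)ˣ →+ Additive (𝓞 L)ˣ,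
      ∀ e, ((S e).toMul : 𝓞 L) = g • (e.toMul : 𝓞 L) :=
    ⟨MonoidHom.toAdditive (Units.map (MulDistribMulAction.toMonoidHom (𝓞 L) g)), fun _ => rfl⟩
  refine hφ (fin S (fun e => Additive.toMul.injective (Units.ext ?_))
    (c := torsionOrder K * classNumber K)
    (fun h => ((Nat.Prime.dvd_mul (by norm_num)).1 h).elim (five hK) hh) (fun u => ?_) φ)
  · have k : g ^ 5 = 1 := hc ▸ pow_card_eq_one'
    simp only [hS, ← mul_smul]
    rw [show g * (g * (g * (g * g))) = g ^ 5 by simp [pow_succ, mul_assoc], k, one_smul]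
  · obtain ⟨e, he⟩ := unit hI hg (u := u.toMul ^ torsionOrder K) (by
      have k := congrArg (fun x : (𝓞 K)ˣ => ((x : 𝓞 K) : K))
        (tor hm hK hs (Units.map (RingOfIntegers.norm K) u.toMul))
      simpa [RingOfIntegers.coe_norm] using k)
    refine ⟨.ofMul e, Additive.toMul.injective (Units.ext ?_)⟩
    rw [Units.val_pow_eq_pow_val, ← pow_mul] at he
    rw [toMul_add, toMul_nsmul, Units.val_mul, Units.val_pow_eq_pow_val, hS]
    exact he

end Vale.Agent.P014Z
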