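import Vale.Agent.P014Z.Ga
import Vale.Agent.P014Z.H94

/-!
# P014Z: places, the quadratic field, fifth powers
-/

open NumberField IsDedekindDomain WithZero
open scoped Classical IntermediateField
open Vale.Agent.P014

noncomputable section

namespace Vale.Agent.P014Z

namespace Plc

variable {p : ℕ} [Fact p.Prime] {F : Type} [Field F] [NumberField F]

theorem int_le {x : Qp p} (hx : IsIntegral ℤ x) : ‖x‖ ≤ 1 := by
  have h := (Valuation.integer.integers (PadicAlgCl.valued p).v).mem_of_integral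
    (hx.tower_top (A := (PadicAlgCl.valued p).v.integer))
  exact h

omit [NumberField F] in
theorem emb_le (φ : F →+* Qp p) (x : 𝓞 F) : ‖φ x‖ ≤ 1 :=
  int_le (map_isIntegral_int φ x.isIntegral_coe)

theorem norm_p : ‖(p : Qp p)‖ = (p : ℝ)⁻¹ := by
  rw [← Padic.norm_p, ← PadicAlgCl.norm_extends]
  simp

theorem norm_p_lt : ‖(p : Qp p)‖ < 1 := by
  rw [norm_p]
  exact inv_lt_one_of_one_lt₀ (Nat.one_lt_cast.2 (Fact.out : p.Prime).one_lt)

/-- the prime ideal of an embedding -/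
def pr (φ : F →+* Qp p) : Ideal (𝓞 F) where
  carrier := {x | ‖φ x‖ < 1}
  add_mem' := fun {a b} ha hb => by
    change ‖φ ((a + b : 𝓞 F) : F)‖ < 1
    rw [RingOfIntegers.coe_eq_algebraMap, map_add, map_add]
    exact (IsUltrametricDist.norm_add_le_max _ _).trans_lt (max_lt ha hb)
  zero_mem' := by simp
  smul_mem' := fun c x hx => by
    change ‖φ ((c * x : 𝓞 F) : F)‖ < 1
    rw [RingOfIntegers.coe_eq_algebraMap, map_mul, map_mul, norm_mul]
    exact mul_lt_one_of_nonneg_of_lt_one_right (emb_le φ c) (norm_nonneg _) hx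

theorem pr_prime (φ : F →+* Qp p) : (pr φ).IsPrime := by
  refine ⟨(Ideal.ne_top_iff_one _).2 fun h => ?_, fun {a b} h => ?_⟩
  · change ‖φ ((1 : 𝓞 F) : F)‖ < 1 at h
    simp at h
  · change ‖φ ((a * b : 𝓞 F) : F)‖ < 1 at h
    rw [RingOfIntegers.coe_eq_algebraMap, map_mul, map_mul, norm_mul] at h
    by_contra h'
    rw [not_or] at h'
    exact h.not_ge (one_le_mul_of_one_le_of_one_le (not_lt.1 h'.1) (not_lt.1 h'.2))

theorem exists_pr (P : Ideal (𝓞 F)) (hP : P.IsMaximal) (hp : ∀ n : ℕ, (n : 𝓞 F) ∈ P → p ∣ n) :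
    ∃ φ : F →ₐ[ℚ] Qp p, P = pr (φ : F →+* Qp p) := by
  have φ₀ : F →ₐ[ℚ] Qp p := IsAlgClosed.lift
  obtain ⟨φ, -, hφ⟩ := (Ideal.subset_union_prime (s := Finset.univ)
    (f := fun φ : F →ₐ[ℚ] Qp p => pr (φ : F →+* Qp p)) φ₀ φ₀ (fun φ _ _ _ => pr_prime _)
    (I := P)).1 fun x hx => by
      have h1 := hp _ ((Ideal.span_singleton_le_iff_mem P).2 hx (Ideal.absNorm_mem _))
      rw [Ideal.absNorm_span_singleton] at h1
      obtain ⟨k, hk⟩ := Int.natCast_dvd.2 h1
      have h2 := Algebra.norm_eq_prod_embeddings ℚ (Qp p) (x : F)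
      rw [← Algebra.coe_norm_int, hk] at h2
      have h3 : ‖∏ φ : F →ₐ[ℚ] Qp p, φ x‖ < 1 := by
        rw [← h2, map_intCast, Int.cast_mul, Int.cast_natCast, norm_mul]
        exact mul_lt_one_of_nonneg_of_lt_one_left (norm_nonneg _) norm_p_lt
          (int_le (isIntegral_algebraMap (x := k)))
      by_contra h4
      simp only [Finset.coe_univ, Set.mem_univ, Set.iUnion_true, Set.mem_iUnion, not_exists] at h4
      rw [norm_prod] at h3
      exact h3.not_ge (Finset.one_le_prod fun φ _ => not_lt.1 (h4 φ))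
  exact ⟨φ, hP.eq_of_le (pr_prime _).ne_top hφ⟩

/-- the norm of an element is determined by its order -/
theorem norm_eq (v : HeightOneSpectrum (𝓞 F)) (φ : F →+* Qp p)
    (h : ∀ x : 𝓞 F, x ∈ v.asIdeal ↔ ‖φ x‖ < 1) :
    ∃ c : ℝ, 0 < c ∧ ∀ (x : F) (n : ℤ), v.valuation F x = exp (-n) → ‖φ x‖ = c ^ n := by
  have h1 : ∀ x : 𝓞 F, x ∉ v.asIdeal → ‖φ x‖ = 1 := fun x hx =>
    le_antisymm (emb_le φ x) (not_lt.1 fun h' => hx ((h x).2 h'))
  have h2 : ∀ u : F, v.valuation F u = 1 → ‖φ u‖ = 1 := fun u hu => by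
    obtain ⟨n, d, hd⟩ := v.exists_primeCompl_mul_eq_of_integer u hu.le
    have h3 : n ∉ v.asIdeal := by
      rw [← v.valuation_eq_one_iff_notMem (K := F), ← hd, map_mul, hu, one_mul,
        v.valuation_eq_one_iff_notMem]
      exact d.2
    have h4 := congrArg (fun x => ‖φ x‖) hd
    simp only [map_mul, norm_mul] at h4
    rwa [show ‖φ (algebraMap _ F (d : 𝓞 F))‖ = 1 from h1 d d.2,
      show ‖φ (algebraMap _ F n)‖ = 1 from h1 n h3, mul_one] at h4
  obtain ⟨π, hπ⟩ := v.valuation_exists_uniformizer F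
  have h0 : π ≠ 0 := by rintro rfl; exact exp_ne_zero (hπ.symm.trans (map_zero _))
  have hc : 0 < ‖φ π‖ := norm_pos_iff.2 ((map_ne_zero φ).2 h0)
  refine ⟨_, hc, fun x n hx => ?_⟩
  have h5 := h2 (x / π ^ n) (by
    rw [map_div₀, map_zpow₀, hx, hπ, ← exp_zsmul, smul_neg, smul_eq_mul, mul_one,
      div_self exp_ne_zero])
  rwa [map_div₀, map_zpow₀, norm_div, norm_zpow, div_eq_one_iff_eq (zpow_pos hc n).ne'] at h5

end Plc

open Plc

theorem plc : PLC := by
  intro F _ _ j P hP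
  have h0 : P ≠ ⊥ := Ring.ne_bot_of_isMaximal_of_not_isField hP (RingOfIntegers.not_isField F)
  have : Finite (𝓞 F ⧸ P) := Ideal.finiteQuotientOfFreeOfNeBot P h0
  have hp : Fact (ringChar (𝓞 F ⧸ P)).Prime := ⟨CharP.char_is_prime (𝓞 F ⧸ P) _⟩
  obtain ⟨φ, hφ⟩ := exists_pr (p := ringChar (𝓞 F ⧸ P)) P hP fun n hn =>
    (ringChar.spec _ n).1 (by
      rwa [← map_natCast (Ideal.Quotient.mk P), Ideal.Quotient.eq_zero_iff_mem])
  refine ⟨_, hp, ?_⟩
  let _ : Algebra F Qb := (j : F →+* Qb).toAlgebra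
  let _ : Algebra F (Qp (ringChar (𝓞 F ⧸ P))) := (φ : F →+* _).toAlgebra
  have : Algebra.IsAlgebraic ℚ Qb := AlgebraicClosure.isAlgebraic ℚ
  have : Algebra.IsAlgebraic F Qb := Algebra.IsAlgebraic.tower_top (K := ℚ) F
  let ι : Qb →ₐ[F] Qp (ringChar (𝓞 F ⧸ P)) := IsAlgClosed.lift
  refine ⟨(ι : Qb →+* _).toRatAlgHom, fun x => ?_⟩
  have h1 : ι (j x) = φ x := ι.commutes (x : F)
  change _ ↔ ‖ι (j x)‖ < 1
  rw [h1]
  exact SetLike.ext_iff.1 hφ x

theorem fxk : FXK := by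
  intro m K _ _ hm hK s hs
  have : IsAlgClosure ℚ Qb := AlgebraicClosure.instIsAlgClosure ℚ
  have j : K →ₐ[ℚ] Qb := IsAlgClosed.lift
  obtain ⟨r, hr, h1⟩ : ∃ r : K, r ^ 2 = -(m : K) ∧ j r = s := by
    obtain ⟨r, hr⟩ := hK.rt
    have h1 : j r ^ 2 = s ^ 2 := by rw [← map_pow, hr, hs, map_neg, map_natCast]
    rcases sq_eq_sq_iff_eq_or_eq_neg.1 h1 with h | h
    · exact ⟨r, hr, h⟩
    · exact ⟨-r, by rw [neg_sq, hr], by rw [map_neg, h, neg_neg]⟩
  have h2 : ℚ⟮r⟯ = ⊤ := by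
    refine ((IntermediateField.isSimpleOrder_of_finrank_prime ℚ K
      (hK.deg ▸ Nat.prime_two)).eq_bot_or_eq_top _).resolve_left fun h => ?_
    obtain ⟨q, rfl⟩ := IntermediateField.mem_bot.1
      (h ▸ IntermediateField.mem_adjoin_simple_self ℚ r)
    have h3 : q ^ 2 = -(m : ℚ) := (algebraMap ℚ K).injective (by simpa using hr)
    have h4 : (0 : ℚ) < m := Nat.cast_pos.2 hm
    nlinarith [sq_nonneg q]
  have h3 : ∀ y, y ∈ ℚ⟮s⟯ ↔ ∃ x, j x = y := fun y => by
    rw [← h1, ← Set.image_singleton, ← IntermediateField.adjoin_map, h2]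
    exact ⟨fun ⟨x, _, h⟩ => ⟨x, h⟩, fun ⟨x, h⟩ => ⟨x, trivial, h⟩⟩
  refine ⟨j, fun y => ?_⟩
  rw [← h3]
  constructor
  · intro h
    rw [← InfiniteGalois.fixedField_fixingSubgroup ℚ⟮s⟯, IntermediateField.mem_fixedField_iff]
    exact fun σ hσ => h σ ((IntermediateField.mem_fixingSubgroup_iff _ _).1 hσ s
      (IntermediateField.mem_adjoin_simple_self ℚ s))
  · intro h σ hσ
    have h4 : ℚ⟮s⟯ ≤ IntermediateField.fixedField (MulAction.stabilizer GQ s) :=
      IntermediateField.adjoin_simple_le_iff.2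
        ((IntermediateField.mem_fixedField_iff _ _).2 fun τ hτ => hτ)
    exact (IntermediateField.mem_fixedField_iff _ _).1 (h4 h) σ hσ

theorem fif_of (hP : PLC) : FIF := by
  intro m K _ _ hm hK j a ha h
  have key : ∀ (v : HeightOneSpectrum (𝓞 K)) (n : ℤ), v.valuation K a = exp (-n) → 5 ∣ n := by
    intro v n hn
    obtain ⟨p, hp, ι, hι⟩ := hP K j v.asIdeal v.isMaximal
    obtain ⟨c, hc, h1⟩ := norm_eq v ((ι : Qb →+* Qp p).comp (j : K →+* Qb)) hι
    obtain ⟨k, hk⟩ := h p ι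
    have hp0 : (p : K) ≠ 0 := Nat.cast_ne_zero.2 hp.out.ne_zero
    have h2 := h1 p (-log (v.valuation K p))
      (by rw [neg_neg, exp_log ((Valuation.ne_zero_iff _).2 hp0)])
    rw [map_natCast, norm_p] at h2
    have h3 : ‖ι (j a)‖ = c ^ n := h1 a n hn
    have h4 : c ≠ 1 := by
      rintro rfl
      rw [one_zpow, inv_eq_one, Nat.cast_eq_one] at h2
      exact hp.out.one_lt.ne' h2
    rw [h3, ← inv_inv (p : ℝ), h2, ← zpow_natCast, ← zpow_mul, ← zpow_neg, ← zpow_mul] at hk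
    have h5 := zpow_right_injective₀ hc h4 hk
    have h6 : (5 : ℤ) ∣ n * 2 := ⟨- -log (v.valuation K p) * k, by
      rw [show n * 2 = n * ((2 : ℕ) : ℤ) from rfl, h5]; ring⟩
    omega
  obtain ⟨x, d, hd, rfl⟩ := IsFractionRing.div_surjective (A := 𝓞 K) a
  have hd0 : d ≠ 0 := nonZeroDivisors.ne_zero hd
  have hd1 : algebraMap (𝓞 K) K d ≠ 0 := RingOfIntegers.coe_ne_zero_iff.2 hd0
  have hx0 : x ≠ 0 := by rintro rfl; simp at ha
  have hy0 : x * d ^ 4 ≠ 0 := mul_ne_zero hx0 (pow_ne_zero _ hd0)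
  have e : algebraMap (𝓞 K) K x / algebraMap (𝓞 K) K d =
      algebraMap (𝓞 K) K (x * d ^ 4) / algebraMap (𝓞 K) K d ^ 5 := by
    rw [map_mul, map_pow]
    field_simp
  obtain ⟨I, hI⟩ := Associates.is_pow_of_dvd_count (a := Associates.mk (Ideal.span {x * d ^ 4}))
    (k := 5) (by simpa using ⟨hx0, hd0⟩) fun q hq => by
      obtain ⟨q, rfl⟩ := Associates.mk_surjective q
      have hq' : Prime q := (Associates.irreducible_mk.1 hq).prime
      let v : HeightOneSpectrum (𝓞 K) := ⟨q, Ideal.isPrime_of_prime hq', hq'.ne_zero⟩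
      have h1 := key v ((Associates.mk q).count (Associates.mk (Ideal.span {x * d ^ 4})).factors -
        5 * (Associates.mk q).count (Associates.mk (Ideal.span {d})).factors) (by
          rw [e, map_div₀, map_pow, v.valuation_of_algebraMap, v.valuation_of_algebraMap,
            v.intValuation_if_neg hy0, v.intValuation_if_neg hd0, ← exp_nsmul, ← exp_sub]
          congr 1
          simp only [v, nsmul_eq_mul]
          push_cast
          ring)
      omega
  obtain ⟨I, rfl⟩ := Associates.mk_surjective I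
  rw [← Associates.mk_pow, Associates.mk_eq_mk_iff_associated, associated_iff_eq] at hI
  obtain ⟨b, hb⟩ := (Ideal.IsPrincipal.of_isPrincipal_pow_of_coprime
    ((Nat.Prime.coprime_iff_not_dvd Nat.prime_five).2 hK.cl) (I := I) (hI ▸ inferInstance)).1
  rw [hb, Ideal.submodule_span_eq, Ideal.span_singleton_pow,
    Ideal.span_singleton_eq_span_singleton] at hI
  obtain ⟨u, hu⟩ := hI.symm
  obtain ⟨t, ht⟩ := exists_pow_eq_self_of_coprime (x := u) (n := 5)
    (((Nat.Prime.coprime_iff_not_dvd Nat.prime_five).2 (H94.five hK.deg)).coprime_dvd_right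
      (orderOf_dvd_of_pow_eq_one (H94.tor hm hK.deg hK.rt u)))
  refine ⟨algebraMap (𝓞 K) K (b * ((u ^ t : (𝓞 K)ˣ) : 𝓞 K)) / algebraMap (𝓞 K) K d, ?_⟩
  rw [e, div_pow, ← map_pow _ (b * _), mul_pow, ← Units.val_pow_eq_pow_val, ← pow_mul, mul_comm t,
    pow_mul, ht, hu]

end Vale.Agent.P014Z
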