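import Vale.Agent.P014Z.Ga

/-!
# P014Z: inertia acts trivially on the reduction of `11a1`
-/

open WeierstrassCurve
open scoped Classical

noncomputable section

namespace Vale.Agent.P014Z

namespace Red

section norm

variable {F : Type} [NormedField F] [IsUltrametricDist F] {a b x y x₁ x₂ y₁ y₂ l : F}

variable (F) in
/-- the valuation ring -/
def R : Subring F where
  carrier := {z | ‖z‖ ≤ 1}
  mul_mem' ha hb := (norm_mul_le _ _).trans (mul_le_one₀ ha (norm_nonneg _) hb)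
  one_mem' := norm_one.le
  add_mem' ha hb := (IsUltrametricDist.norm_add_le_max _ _).trans (max_le ha hb)
  zero_mem' := norm_zero.trans_le zero_le_one
  neg_mem' ha := (norm_neg _).trans_le ha

theorem lt_add (ha : ‖a‖ < 1) (hb : ‖b‖ < 1) : ‖a + b‖ < 1 :=
  (IsUltrametricDist.norm_add_le_max _ _).trans_lt (max_lt ha hb)

theorem lt_mul (ha : ‖a‖ < 1) (hb : b ∈ R F) : ‖a * b‖ < 1 :=
  (norm_mul_le _ _).trans_lt (mul_lt_one_of_nonneg_of_lt_one_left (norm_nonneg _) ha hb)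

theorem add_big (ha : 1 < ‖a‖) (hb : b ∈ R F) : ‖a + b‖ = ‖a‖ :=
  (IsUltrametricDist.norm_add_eq_max_of_norm_ne_norm (lt_of_le_of_lt hb ha).ne').trans
    (max_eq_left (le_trans hb ha.le))

theorem y_mem (h : y ^ 2 + y = x ^ 3 - x ^ 2 - 10 * x - 20) (hx : x ∈ R F) : y ∈ R F := by
  by_contra c
  have c1 : 1 < ‖y‖ := not_le.1 c
  have h1 : y * (y + 1) ∈ R F := by
    rw [show y * (y + 1) = x ^ 3 - x ^ 2 - 10 * x - 20 by linear_combination h]
    apply_rules [sub_mem, mul_mem, pow_mem, ofNat_mem]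
  have h2 : ‖y * (y + 1)‖ ≤ 1 := h1
  rw [norm_mul, add_big c1 (one_mem _)] at h2
  nlinarith

theorem disc (h11 : ‖(11 : F)‖ = 1) (h : y ^ 2 + y = x ^ 3 - x ^ 2 - 10 * x - 20) (hx : x ∈ R F)
    (hu : ‖2 * y + 1‖ < 1) (hg : ‖3 * x ^ 2 - 2 * x - 10‖ < 1) : False := by
  have hy := y_mem h hx
  have h1 := lt_add (lt_mul hu (b := 16 * (3 * x - 1) ^ 3 * (2 * y + 1) + 27 * (2 * y + 1) ^ 3 -
      72 * (3 * x - 1) * (3 * x ^ 2 - 2 * x - 10) * (2 * y + 1))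
      (by apply_rules [sub_mem, add_mem, mul_mem, pow_mem, ofNat_mem, one_mem]))
    (lt_mul hg (b := 64 * (3 * x ^ 2 - 2 * x - 10) ^ 2 - 16 * (3 * x - 1) ^ 2 * (3 * x ^ 2 - 2 * x - 10))
      (by apply_rules [sub_mem, add_mem, mul_mem, pow_mem, ofNat_mem, one_mem]))
  refine absurd ((congrArg norm ?_).trans ((norm_pow (11 : F) 5).trans (by rw [h11, one_pow]))) h1.ne
  linear_combination (4 * (16 * (3 * x - 1) ^ 3 + 27 * ((2 * y + 1) ^ 2 +
    (4 * x ^ 3 - 4 * x ^ 2 - 40 * x - 79)) - 72 * (3 * x - 1) * (3 * x ^ 2 - 2 * x - 10))) * h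

/-- the sum of two points of the kernel of reduction -/
theorem big (h1 : 1 < ‖x₁‖) (h2 : 1 < ‖x₂‖) (hx : x = l ^ 2 + 1 - x₁ - x₂)
    (h : y ^ 2 + y = x ^ 3 - x ^ 2 - 10 * x - 20)
    (e : (x₁ - x) * (x₂ - x) = 3 * x ^ 2 - 2 * x - 10 - l * (2 * y + 1)) : 1 < ‖x‖ := by
  by_contra c
  have c1 : x ∈ R F := not_lt.1 c
  have hy := y_mem h c1
  have k1 : ‖x₁ - x‖ = ‖x₁‖ := by rw [sub_eq_add_neg, add_big h1 (neg_mem c1)]
  have k2 : ‖x₂ - x‖ = ‖x₂‖ := by rw [sub_eq_add_neg, add_big h2 (neg_mem c1)]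
  have k3 := congrArg norm e
  rw [norm_mul, k1, k2] at k3
  have hg : 3 * x ^ 2 - 2 * x - 10 ∈ R F := by apply_rules [sub_mem, mul_mem, pow_mem, ofNat_mem]
  have hu : 2 * y + 1 ∈ R F := by apply_rules [add_mem, mul_mem, ofNat_mem, one_mem]
  by_cases hl : l ∈ R F
  · have k4 : ‖3 * x ^ 2 - 2 * x - 10 - l * (2 * y + 1)‖ ≤ 1 := sub_mem hg (mul_mem hl hu)
    nlinarith
  · have l1 : 1 < ‖l‖ := not_le.1 hl
    have k4 : ‖3 * x ^ 2 - 2 * x - 10 - l * (2 * y + 1)‖ ≤ ‖l‖ := by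
      rw [sub_eq_add_neg]
      refine (IsUltrametricDist.norm_add_le_max _ _).trans (max_le (le_trans hg l1.le) ?_)
      rw [norm_neg, norm_mul]
      exact mul_le_of_le_one_right (norm_nonneg _) hu
    have k5 : ‖x₁ + x₂‖ = ‖l‖ ^ 2 := by
      rw [show x₁ + x₂ = l ^ 2 + (1 - x) by linear_combination hx, add_big ?_
        (sub_mem (one_mem _) c1), norm_pow]
      rw [norm_pow]
      nlinarith
    have k6 := IsUltrametricDist.norm_add_le_max x₁ x₂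
    rw [k5] at k6
    rcases le_max_iff.1 k6 with k | k <;> nlinarith

/-- the difference of two points with the same reduction -/
theorem near (h11 : ‖(11 : F)‖ = 1) (h : y ^ 2 + y = x ^ 3 - x ^ 2 - 10 * x - 20) (hx : x ∈ R F)
    (dx : ‖x₁ - x‖ < 1) (dy : ‖y₁ - y‖ < 1) (e1 : -y - 1 - y₁ = l * (x - x₁))
    (e2 : l * (y₁ - y) = x₁ ^ 2 + x₁ * x + x ^ 2 - (x₁ + x) - 10) : 1 < ‖l ^ 2 + 1 - x₁ - x‖ := by
  have hx₁ : x₁ ∈ R F := by simpa using add_mem (show x₁ - x ∈ R F from dx.le) hx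
  by_cases hl : l ∈ R F
  · refine (disc h11 h hx ?_ ?_).elim
    · rw [show 2 * y + 1 = (x₁ - x) * l + (y₁ - y) * (-1) by linear_combination -e1]
      exact lt_add (lt_mul dx hl) (lt_mul dy (neg_mem (one_mem _)))
    · rw [show 3 * x ^ 2 - 2 * x - 10 = (y₁ - y) * l + (x₁ - x) * (1 - x₁ - 2 * x) by
        linear_combination -e2]
      exact lt_add (lt_mul dy hl) (lt_mul dx (by apply_rules [sub_mem, mul_mem, ofNat_mem, one_mem]))
  · have l1 : 1 < ‖l ^ 2‖ := by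
      rw [norm_pow]
      exact one_lt_pow₀ (not_le.1 hl) two_ne_zero
    rwa [show l ^ 2 + 1 - x₁ - x = l ^ 2 + (1 - x₁ - x) by ring,
      add_big l1 (sub_mem (sub_mem (one_mem _) hx₁) hx)]

end norm

variable {F : Type} [Field F] [Algebra ℚ F] {x y x₁ x₂ y₁ y₂ : F}

theorem a1 : (E0⁄F).toAffine.a₁ = 0 := map_zero (algebraMap ℚ F)

theorem a2 : (E0⁄F).toAffine.a₂ = -1 := (map_neg (algebraMap ℚ F) 1).trans (by rw [map_one])

theorem a3 : (E0⁄F).toAffine.a₃ = 1 := map_one (algebraMap ℚ F)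

theorem a4 : (E0⁄F).toAffine.a₄ = -10 := (map_neg (algebraMap ℚ F) 10).trans (by rw [map_ofNat])

theorem a6 : (E0⁄F).toAffine.a₆ = -20 := (map_neg (algebraMap ℚ F) 20).trans (by rw [map_ofNat])

theorem eqn (h : (E0⁄F).toAffine.Equation x y) : y ^ 2 + y = x ^ 3 - x ^ 2 - 10 * x - 20 := by
  rw [Affine.equation_iff, a1, a2, a3, a4, a6] at h
  linear_combination h

theorem negY (x y : F) : (E0⁄F).toAffine.negY x y = -y - 1 := by
  rw [Affine.negY, a1, a3]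
  ring

theorem addX (x₁ x₂ l : F) : (E0⁄F).toAffine.addX x₁ x₂ l = l ^ 2 + 1 - x₁ - x₂ := by
  rw [Affine.addX, a1, a2]
  ring

theorem slp (h₁ : (E0⁄F).toAffine.Equation x₁ y₁) (h₂ : (E0⁄F).toAffine.Equation x₂ y₂)
    (h : ¬(x₁ = x₂ ∧ y₁ = (E0⁄F).toAffine.negY x₂ y₂)) :
    y₂ - y₁ = (E0⁄F).toAffine.slope x₁ x₂ y₁ y₂ * (x₂ - x₁) ∧
    (E0⁄F).toAffine.slope x₁ x₂ y₁ y₂ * (y₁ + y₂ + 1) =
      x₁ ^ 2 + x₁ * x₂ + x₂ ^ 2 - (x₁ + x₂) - 10 := by
  by_cases hx : x₁ = x₂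
  · have hy := not_and.1 h hx
    obtain rfl := Affine.Y_eq_of_Y_ne h₁ h₂ hx hy
    rw [Affine.slope_of_Y_ne hx hy]
    subst hx
    have k := sub_ne_zero.2 hy
    rw [negY] at k
    rw [negY, a1, a2, a4, div_mul_eq_mul_div, div_mul_eq_mul_div, div_eq_iff k]
    exact ⟨by simp, by ring⟩
  · have k := sub_ne_zero.2 hx
    rw [Affine.slope_of_X_ne hx, div_mul_eq_mul_div, div_mul_eq_mul_div, div_eq_iff k, eq_div_iff k]
    exact ⟨by ring, by linear_combination eqn h₁ - eqn h₂⟩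

end Red

open Red in
theorem red_of (hI : ISO) : RED := by
  intro p _ hp τ hτ P
  have h11 : ‖(11 : Qp p)‖ = 1 := by
    rw [← map_ofNat (algebraMap ℚ_[p] (Qp p)), PadicAlgCl.norm_extends]
    exact Padic.norm_natCast_eq_one_iff.2
      ((Nat.coprime_primes Fact.out (by norm_num : Nat.Prime 11)).2 hp)
  rcases P with _ | ⟨x, y, h⟩
  · rw [← Affine.Point.zero_def, map_zero, sub_zero]
    trivial
  rw [Affine.Point.map_some, sub_eq_add_neg, Affine.Point.neg_some]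
  have h₁ := Affine.Equation.baseChange (W := E0) (τ : Qp p →ₐ[ℚ_[p]] Qp p) h.1
  have h₂ := (Affine.equation_neg _ _).2 h.1
  by_cases c : (τ : Qp p →ₐ[ℚ_[p]] Qp p) x = x ∧ (τ : Qp p →ₐ[ℚ_[p]] Qp p) y =
      (E0⁄(Qp p)).toAffine.negY x ((E0⁄(Qp p)).toAffine.negY x y)
  · rw [Affine.Point.add_of_Y_eq c.1 c.2]
    trivial
  rw [Affine.Point.add_some c]
  obtain ⟨e1, e2⟩ := slp h₁ h₂ c
  have e3 := eqn (Affine.equation_negAdd h₁ h₂ c)
  change 1 < ‖(E0⁄(Qp p)).toAffine.addX _ _ _‖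
  rw [Affine.negAddY] at e3
  generalize (E0⁄(Qp p)).toAffine.slope _ _ _ _ = l at e1 e2 e3 ⊢
  rw [negY] at e1 e2
  by_cases hx : x ∈ R (Qp p)
  · rw [addX]
    exact near (y₁ := (τ : Qp p →ₐ[ℚ_[p]] Qp p) y) h11 (eqn h.1) hx (hτ x hx)
      (hτ y (y_mem (eqn h.1) hx)) e1 (by linear_combination e2)
  · refine big (x₁ := (τ : Qp p →ₐ[ℚ_[p]] Qp p) x) ((not_le.1 hx).trans_eq (hI p τ x).symm)
      (not_le.1 hx) (addX _ _ l) e3 ?_
    rw [addX]
    linear_combination e2 - l * e1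

end Vale.Agent.P014Z
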