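import Vale.Agent.P014Z.Ga

/-!
# P014Z: the twisted Selmer group of `11a1` vanishes
-/

open WeierstrassCurve NumberField
open scoped Classical
open Vale.Agent.P014

noncomputable section

namespace Vale.Agent.P014Z

namespace Sel

theorem last {G M : Type} [Group G] [AddCommGroup M] {ρ : G → M →+ M} {ε : G → ℤ} {c : G → M}
    (hρ : ∀ σ τ P, ρ (σ * τ) P = ρ σ (ρ τ P)) (hε : ∀ σ τ, ε (σ * τ) = ε σ * ε τ)
    (hv : ∀ σ, ε σ = 1 ∨ ε σ = -1) (h5 : ∀ σ, 5 • c σ = 0)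
    (hc : ∀ σ τ, c (σ * τ) = c σ + ε σ • ρ σ (c τ)) {R : M} (hR : 5 • R = 0)
    (h : ∀ σ, ε σ = 1 → c σ = ρ σ R - R) : ∃ R, 5 • R = 0 ∧ ∀ σ, c σ = ε σ • ρ σ R - R := by
  by_cases! k : ∀ σ, ε σ = 1
  · exact ⟨R, hR, fun σ => by rw [h σ (k σ), k, one_smul]⟩
  obtain ⟨r, hr⟩ := k
  replace hr := (hv r).resolve_left hr
  obtain ⟨d, hd⟩ : ∃ d : G → M, ∀ σ, d σ = c σ - (ε σ • ρ σ R - R) := ⟨_, fun _ => rfl⟩
  have d0 : ∀ σ, ε σ = 1 → d σ = 0 := fun σ k => by rw [hd, h σ k, k, one_smul, sub_self]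
  have dc : ∀ σ τ, d (σ * τ) = d σ + ε σ • ρ σ (d τ) := fun σ τ => by
    simp only [hd, hc, hε, hρ, map_sub, map_zsmul, smul_sub, mul_smul]
    abel
  have d1 : ∀ σ, ε σ = -1 → d σ = d r := fun σ k => by
    have e := hε r (r⁻¹ * σ)
    rw [mul_inv_cancel_left, k, hr] at e
    rw [← mul_inv_cancel_left r σ, dc, d0 (r⁻¹ * σ) (by omega), map_zero, smul_zero, add_zero]
  have d2 : ∀ σ, ρ σ (d r) = d r := fun σ => by
    have e := dc σ r
    rcases hv σ with k | k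
    · rw [d1 _ (by rw [hε, k, hr, one_mul]), d0 σ k, k, one_smul, zero_add] at e
      exact e.symm
    · rw [d0 _ (by rw [hε, k, hr]; rfl), d1 σ k, k, neg_smul, one_smul, ← sub_eq_add_neg] at e
      exact (sub_eq_zero.1 e.symm).symm
  have d5 : 5 • d r = 0 := by
    rw [hd, smul_sub, smul_sub, h5, smul_comm, ← map_nsmul, hR, map_zero, smul_zero, sub_self,
      sub_self]
  refine ⟨R + 2 • d r, by rw [smul_add, hR, smul_comm, d5, smul_zero, add_zero], fun σ => ?_⟩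
  rw [map_add, map_nsmul, d2, eq_add_of_sub_eq (hd σ).symm]
  rcases hv σ with k | k
  · rw [d0 σ k, k]
    abel
  · rw [d1 σ k, k]
    linear_combination (norm := module) d5

theorem act_mul (σ τ : GQ) (P : Pbar E0) : act E0 (σ * τ) P = act E0 σ (act E0 τ P) := by
  cases P <;> rfl

theorem eps_one {s : Qb} {σ : GQ} : eps s σ = 1 ↔ σ s = s := by
  unfold eps
  split_ifs with h <;> simp [h]

theorem eps_val (s : Qb) (σ : GQ) : eps s σ = 1 ∨ eps s σ = -1 := by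
  unfold eps
  split_ifs <;> simp

theorem eps_mul {s : Qb} {m : ℕ} (hs : s ^ 2 = -(m : Qb)) (σ τ : GQ) :
    eps s (σ * τ) = eps s σ * eps s τ := by
  have h : ∀ σ : GQ, σ s ≠ s → σ s = -s := fun σ k =>
    (sq_eq_sq_iff_eq_or_eq_neg.1 (by rw [← map_pow, hs, map_neg, map_natCast])).resolve_left k
  unfold eps
  rw [AlgEquiv.mul_apply]
  by_cases k : τ s = s
  · rw [k, if_pos rfl, mul_one]
  · rw [if_neg k, h τ k, map_neg]
    by_cases k' : σ s = s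
    · rw [if_pos k', k', if_neg fun e => k ((h τ k).trans e), one_mul]
    · rw [if_neg k', h σ k', neg_neg, if_pos rfl]
      rfl

theorem kill {P : Pbar E0} (h : 5 • P = 0) {x : ℤ} (k : 5 ∣ x) : x • P = 0 := by
  obtain ⟨y, rfl⟩ := k
  rw [mul_comm, mul_smul, show (5 : ℤ) • P = 5 • P from natCast_zsmul P 5, h, zsmul_zero]

end Sel

open Sel in
theorem sel_of (hT : T5) (hR : RED) (hU : U11) (hG : UNG) (hK : KUM) : SEL := by
  intro m K _ _ hm hq s hs c h5 hc hf hl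
  obtain ⟨ζ, hζ⟩ := HasEnoughRootsOfUnity.exists_primitiveRoot Qb 5
  obtain ⟨T, S, hT5, hS5, gen, ind, aT, aS, loc⟩ := hT ζ hζ
  choose a b hab using fun σ => gen (c σ) (h5 σ)
  choose κ _ hκ using fun σ : GQ => hζ.eq_pow_of_pow_eq_one (ξ := σ ζ)
    (by rw [← map_pow, hζ.pow_eq_one, map_one])
  have z0 := hζ.ne_zero (by norm_num)
  have zp : ∀ x y : ℤ, ζ ^ x = ζ ^ y ↔ 5 ∣ x - y := fun x y => by
    rw [← div_eq_one_iff_eq (zpow_ne_zero y z0), ← zpow_sub₀ z0, hζ.zpow_eq_one_iff_dvd]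
    rfl
  have zs : ∀ (σ : GQ) (x : ℤ), σ (ζ ^ x) = ζ ^ (κ σ * x) := fun σ x => by
    rw [map_zpow₀, ← hκ, zpow_mul, zpow_natCast]
  have coc : ∀ σ τ, 5 ∣ a (σ * τ) - (a σ + eps s σ * a τ) ∧
      5 ∣ b (σ * τ) - (b σ + eps s σ * (κ σ * b τ)) := fun σ τ => ind _ _ (by
    have e := hc σ τ
    rw [hab, hab σ, hab τ, map_add, map_zsmul, map_zsmul, aT, aS σ _ (hκ σ).symm,
      ← natCast_zsmul] at e
    linear_combination (norm := module) e)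
  have a0 : ∀ σ, ((a σ : ℤ) : ZMod 5) = 0 ↔ 5 ∣ a σ := fun σ =>
    ZMod.intCast_zmod_eq_zero_iff_dvd (a σ) 5
  have b0 : ∀ σ, 5 ∣ b σ → ζ ^ b σ = 1 := fun σ k => (hζ.zpow_eq_one_iff_dvd _).2 k
  obtain ⟨A, hA⟩ := hf
  have fa : Fin0 (fun σ => ((a σ : ℤ) : ZMod 5)) 0 :=
    ⟨A, fun σ k => (a0 σ).2 (ind _ _ ((hab σ).symm.trans (hA σ k))).1⟩
  have ca : ∀ σ τ, ((a (σ * τ) : ℤ) : ZMod 5) = a σ + eps s σ * a τ := fun σ τ => by
    have e := (ZMod.intCast_zmod_eq_zero_iff_dvd _ 5).2 (coc σ τ).1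
    push_cast at e
    exact sub_eq_zero.1 e
  have lc : ∀ (p : ℕ) [Fact p.Prime], p ≠ 11 → ∀ (ι : Qb →ₐ[ℚ] Qp p) (τ : Gp p) (σ : GQ),
      Res ι τ σ → Ine τ → σ s = s → 5 ∣ a σ ∧ (p ≠ 5 → 5 ∣ b σ) := fun p _ hp ι τ σ k1 k2 k3 => by
    obtain ⟨P, hP⟩ := hl p ι
    exact loc p ι _ _ (by rw [← hab, hP τ σ k1 k3]; exact hR p hp τ k2 P)
  have az := hG m K (by have := hm.gt; omega) hq s hs _ fa
    (fun σ τ k _ => by rw [ca, eps_one.2 k, Int.cast_one, one_mul]) fun p _ ι τ σ k1 k2 k3 => by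
      by_cases hp : p = 11
      · exact hU m hm s hs _ fa ca p hp ι τ σ k1 k2 k3
      · exact (a0 σ).2 (lc p hp ι τ σ k1 k2 k3).1
  obtain ⟨η, h1, h2⟩ := hK m K hm hq s hs (fun σ => ζ ^ b σ)
    (fun σ => by rw [← zpow_natCast, ← zpow_mul, hζ.zpow_eq_one_iff_dvd]; exact Dvd.intro_left _ rfl)
    ⟨A, fun σ k => b0 σ (ind _ _ ((hab σ).symm.trans (hA σ k))).2⟩
    (fun σ τ k => by
      have e := (coc σ τ).2
      rw [eps_one.2 k, one_mul] at e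
      rwa [zs, ← zpow_add₀ z0, zp])
    (fun σ τ k => by
      have e := (coc σ τ).2
      rw [(eps_val s σ).resolve_left (mt eps_one.1 k)] at e
      rw [zs, ← zpow_add₀ z0, zp]
      omega)
    fun p _ k5 k11 ι τ σ k1 k2 k3 => b0 σ ((lc p k11 ι τ σ k1 k2 k3).2 k5)
  obtain ⟨j, -, rfl⟩ := hζ.eq_pow_of_pow_eq_one h1
  refine last act_mul (eps_mul hs) (eps_val s) h5 hc (R := (j : ℤ) • S)
    (by rw [smul_comm, hS5, zsmul_zero]) fun σ k => ?_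
  have e := h2 σ (eps_one.1 k)
  rw [← zpow_natCast, zs, ← zpow_add₀ z0, zp] at e
  have e1 := kill hS5 e
  rw [hab, kill hT5 ((a0 σ).1 (az σ (eps_one.1 k))), map_zsmul, aS σ _ (hκ σ).symm, ← natCast_zsmul]
  linear_combination (norm := module) -e1

end Vale.Agent.P014Z
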