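import Vale.Agent.P014Z.Ga

/-!
# P014Z: consequences of the vanishing of the Selmer group
-/

open WeierstrassCurve
open scoped Classical Topology
open Vale.Agent.P014

noncomputable section

namespace Vale.Agent.P014Z

namespace Sha

variable {E : WeierstrassCurve ℚ}

theorem act_mul (σ τ : GQ) (Q : Pbar E) : act E (σ * τ) Q = act E σ (act E τ Q) := by
  cases Q <;> rfl

theorem fin_pt (Q : Pbar E) : Fin0 (fun σ => act E σ Q) Q := by
  cases Q with
  | zero => exact ⟨∅, fun _ _ => rfl⟩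
  | some x y h =>
    refine ⟨{x, y}, fun σ k => ?_⟩
    simp only [act, Affine.Point.map_some, Affine.Point.some.injEq]
    exact ⟨k x (by simp), k y (by simp)⟩

theorem lt_sub {K : Type} [Field K] [Algebra ℚ K] {c : GQ → Pbar E} (h : LocallyTrivial E K c)
    (Q : Pbar E) : LocallyTrivial E K fun σ => c σ - (act E σ Q - Q) := fun ι => by
  obtain ⟨P, hP⟩ := h ι
  refine ⟨P - Affine.Point.map (W' := E) ι Q, fun τ σ k => ?_⟩
  have : Affine.Point.map (W' := E) ι (act E σ Q) = Affine.Point.map (W' := E)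
      (τ : AlgebraicClosure K →ₐ[K] AlgebraicClosure K) (Affine.Point.map (W' := E) ι Q) := by
    cases Q with
    | zero => rfl
    | some x y _ =>
      simp only [act, Affine.Point.map_some, Affine.Point.some.injEq]
      exact ⟨k x, k y⟩
  rw [map_sub, map_sub, map_sub, hP τ σ k, this]
  abel

theorem fin_lc {X : Type} {c : GQ → X} (h : IsLocallyConstant c) : Fin0 c (c 1) := by
  obtain ⟨F, _, hF⟩ := (krullTopology_mem_nhds_one_iff ℚ Qb _).1 (h.eventually_eq 1)
  let b := Module.finBasis ℚ F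
  refine ⟨Finset.univ.image fun i => (b i : Qb), fun σ k => hF fun x => ?_⟩
  exact LinearMap.congr_fun (b.ext (f₁ := σ.toLinearMap ∘ₗ F.val.toLinearMap)
    (f₂ := F.val.toLinearMap) fun i => k _ (Finset.mem_image_of_mem _ (Finset.mem_univ i))) x

theorem key {n : ℕ} (hS : Sel0 E n) {c : GQ → Pbar E} {Q : Pbar E}
    (h1 : ∀ σ, n • c σ = act E σ (n • Q) - n • Q)
    (h2 : ∀ σ τ, c (σ * τ) = c σ + act E σ (c τ)) (h3 : Fin0 c 0)
    (h4 : ∀ (p : ℕ) [Fact p.Prime], LocallyTrivial E ℚ_[p] c) :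
    ∃ R : Pbar E, n • R = 0 ∧ ∀ σ, c σ = act E σ (Q + R) - (Q + R) := by
  obtain ⟨R, k1, k2⟩ := hS (fun σ => c σ - (act E σ Q - Q))
    (fun σ => by rw [nsmul_sub, nsmul_sub, h1, map_nsmul, sub_self])
    (fun σ τ => by simp only [h2, act_mul, map_sub]; abel)
    (by
      obtain ⟨A, a⟩ := h3
      obtain ⟨B, b⟩ := fin_pt Q
      refine ⟨A ∪ B, fun σ k => ?_⟩
      have := b σ fun x hx => k x (Finset.mem_union_right _ hx)
      beta_reduce at this ⊢
      rw [a σ fun x hx => k x (Finset.mem_union_left _ hx), this, sub_self, sub_self])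
    fun p _ => lt_sub (h4 p) Q
  refine ⟨R, k1, fun σ => ?_⟩
  rw [map_add, sub_eq_iff_eq_add.1 (k2 σ)]
  abel

theorem pw {A : Type} [AddCommMonoid A] {p : ℕ} (k : ∀ g : A, p • g = 0 → g = 0) (n : ℕ) :
    ∀ g : A, p ^ n • g = 0 → g = 0 := by
  induction n with
  | zero => exact fun g h => by rwa [pow_zero, one_nsmul] at h
  | succ n ih => exact fun g h => ih g (k _ (by rwa [← mul_nsmul, ← pow_succ]))

end Sha

open Sha in
/-- **SHA** -/
theorem sha_of (hD : DIV) (hG : GD) : SHA := fun E hE p hp hS => by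
  constructor
  · have k : ∀ g : Sha E, p • g = 0 → g = 0 := fun g => by
      refine QuotientAddGroup.induction_on g fun c hc => ?_
      obtain ⟨P, hP⟩ := (QuotientAddGroup.eq_zero_iff (p • c)).1 hc
      obtain ⟨Q, rfl⟩ := hD E hE p hp.pos P
      obtain ⟨c, c1, c2, c3, c4⟩ := c
      have c0 : c 1 = 0 := by
        have := c2 1 1
        rw [mul_one, left_eq_add] at this
        exact Affine.Point.map_injective _ (this.trans (map_zero _).symm)
      obtain ⟨R, -, hR⟩ := key hS hP c2 (c0 ▸ fin_lc c1) c4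
      exact (QuotientAddGroup.eq_zero_iff _).2 ⟨_, hR⟩
    refine Nat.card_eq_one_iff_exists.2 ⟨(0 : AddCommMonoid.primaryComponent (Sha E) p), ?_⟩
    rintro ⟨g, n, hn⟩
    exact Subtype.ext (pw k n g hn)
  · intro P
    obtain ⟨j, j1, j2⟩ := hG E
    obtain ⟨Q, hQ⟩ := hD E hE p hp.pos (j P)
    obtain ⟨R, k1, k2⟩ := key hS (c := 0) (Q := Q)
      (fun σ => by rw [hQ, (j2 _).2 ⟨P, rfl⟩ σ, sub_self, Pi.zero_apply, nsmul_zero])
      (fun _ _ => by simp) ⟨∅, fun _ _ => rfl⟩ fun p _ ι => ⟨0, fun _ _ _ => by simp⟩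
    obtain ⟨Q0, h0⟩ := (j2 _).1 fun σ => sub_eq_zero.1 (k2 σ).symm
    exact ⟨Q0, j1 (by rw [map_nsmul, h0, nsmul_add, hQ, k1, add_zero])⟩

end Vale.Agent.P014Z
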