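import Vale.Agent.P014Z.Ga

/-!
# P014Z: the five-torsion of `11a1`
-/

open WeierstrassCurve Polynomial
open scoped Classical
open Vale.Agent.P014

noncomputable section

namespace Vale.Agent.P014Z

namespace T5

section group

variable {A : Type} [AddCommGroup A] {P : A}

theorem zsmul_of_dvd (h : 5 • P = 0) {a : ℤ} (ha : 5 ∣ a) : a • P = 0 := by
  obtain ⟨c, rfl⟩ := ha
  rw [mul_comm, mul_zsmul, show (5 : ℤ) • P = 0 from (natCast_zsmul P 5).trans h, zsmul_zero]

theorem cases_of_not_dvd (h : 5 • P = 0) {a : ℤ} (ha : ¬ 5 ∣ a) :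
    a • P = P ∨ a • P = P + P ∨ a • P = -(P + P) ∨ a • P = -P := by
  have k : ∀ r : ℤ, 5 ∣ a - r → a • P = r • P := fun r hr => by
    rw [← sub_eq_zero, sub_eq_add_neg, ← sub_zsmul]
    exact zsmul_of_dvd h hr
  have : 5 ∣ a - 1 ∨ 5 ∣ a - 2 ∨ 5 ∣ a - -2 ∨ 5 ∣ a - -1 := by omega
  rcases this with e | e | e | e
  · exact Or.inl (by rw [k _ e, one_zsmul])
  · exact Or.inr (Or.inl (by rw [k _ e, two_zsmul]))
  · exact Or.inr (Or.inr (Or.inl (by rw [k _ e, neg_zsmul, two_zsmul])))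
  · exact Or.inr (Or.inr (Or.inr (by rw [k _ e, neg_one_zsmul])))

theorem five_of (h : P + P + (P + P) = -P) : 5 • P = 0 := by
  rw [show 5 • P = P + P + (P + P) + P by abel, h, neg_add_cancel]

end group

variable {F : Type} [Field F] [Algebra ℚ F]

/-- points -/
abbrev Pt (F : Type) [Field F] [Algebra ℚ F] : Type := (E0⁄F).toAffine.Point

theorem cz (F : Type) [Field F] [Algebra ℚ F] : CharZero F :=
  charZero_of_injective_algebraMap (algebraMap ℚ F).injective

theorem a1 : (E0⁄F).toAffine.a₁ = 0 := by simp [E0]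

theorem a2 : (E0⁄F).toAffine.a₂ = -1 := by simp [E0]

theorem a3 : (E0⁄F).toAffine.a₃ = 1 := by simp [E0]

theorem a4 : (E0⁄F).toAffine.a₄ = -10 := by
  have := cz F
  simp [E0]

theorem a6 : (E0⁄F).toAffine.a₆ = -20 := by
  have := cz F
  simp [E0]

theorem negY (x y : F) : (E0⁄F).toAffine.negY x y = -y - 1 := by
  rw [Affine.negY, a1, a3]
  ring

theorem ns {x y : F} (h : y ^ 2 + y = x ^ 3 - x ^ 2 - 10 * x - 20) (hy : 2 * y + 1 ≠ 0) :
    (E0⁄F).toAffine.Nonsingular x y := by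
  rw [Affine.nonsingular_iff', Affine.equation_iff, a1, a2, a3, a4, a6]
  exact ⟨by linear_combination h, Or.inr fun e => hy (by linear_combination e)⟩

theorem some_eq {x y x' y' : F} {h : (E0⁄F).toAffine.Nonsingular x y}
    {h' : (E0⁄F).toAffine.Nonsingular x' y'} (e1 : x = x') (e2 : y = y') :
    (.some x y h : Pt F) = .some x' y' h' := by
  subst e1 e2
  rfl

theorem dbl {x y x' y' l : F} (h : (E0⁄F).toAffine.Nonsingular x y)
    (h' : (E0⁄F).toAffine.Nonsingular x' y') (hy : 2 * y + 1 ≠ 0)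
    (hl : l * (2 * y + 1) = 3 * x ^ 2 - 2 * x - 10) (e1 : x' = l ^ 2 + 1 - 2 * x)
    (e2 : y' = -(l * (x' - x) + y) - 1) :
    (.some x y h + .some x y h : Pt F) = .some x' y' h' := by
  have h1 : y ≠ (E0⁄F).toAffine.negY x y := fun e => hy (by
    rw [negY] at e
    linear_combination e)
  have h2 : (E0⁄F).toAffine.slope x x y y = l := by
    rw [Affine.slope_of_Y_ne rfl h1, negY, a1, a2, a4, show y - (-y - 1) = 2 * y + 1 by ring,
      div_eq_iff hy, hl]
    ring
  have h3 : (E0⁄F).toAffine.addX x x l = x' := by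
    rw [Affine.addX, a1, a2, e1]
    ring
  rw [Affine.Point.add_self_of_Y_ne h1]
  refine some_eq (by rw [h2, h3]) ?_
  rw [h2, Affine.addY, negY, Affine.negAddY, h3, e2]

theorem neg_eq {x y y' : F} (h : (E0⁄F).toAffine.Nonsingular x y)
    (h' : (E0⁄F).toAffine.Nonsingular x y') (e : y' = -y - 1) :
    -(.some x y h : Pt F) = .some x y' h' := by
  rw [Affine.Point.neg_some]
  exact some_eq rfl (by rw [negY, e])

/-! ### the rational point -/

theorem n1 : (E0⁄F).toAffine.Nonsingular 5 5 := have := cz F; ns (by norm_num) (by norm_num)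

theorem n2 : (E0⁄F).toAffine.Nonsingular 16 (-61) := have := cz F; ns (by norm_num) (by norm_num)

theorem n4 : (E0⁄F).toAffine.Nonsingular 5 (-6) := have := cz F; ns (by norm_num) (by norm_num)

variable (F) in
/-- the rational point of order five -/
def T : Pt F := .some 5 5 n1

theorem T2 : T F + T F = .some 16 (-61) n2 :=
  have := cz F
  dbl (l := 5) n1 n2 (by norm_num) (by norm_num) (by norm_num) (by norm_num)

theorem T5' : 5 • T F = 0 := by
  have := cz F
  refine five_of ?_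
  rw [T2, dbl (l := -6) n2 n4 (by norm_num) (by norm_num) (by norm_num) (by norm_num)]
  exact (neg_eq n1 n4 (by norm_num)).symm

theorem xT {a : ℤ} (ha : ¬ 5 ∣ a) :
    (a • T F).xRep = ![5, 1] ∨ (a • T F).xRep = ![16, 1] := by
  rcases cases_of_not_dvd (T5' (F := F)) ha with e | e | e | e <;> rw [e]
  · exact Or.inl rfl
  · exact Or.inr (by rw [T2]; rfl)
  · exact Or.inr (by rw [Affine.Point.xRep_neg, T2]; rfl)
  · exact Or.inl (by rw [Affine.Point.xRep_neg]; rfl)

/-! ### the cyclotomic point -/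

/-- the cyclotomic polynomial -/
def Ph (z : F) : Prop := z ^ 4 + z ^ 3 + z ^ 2 + z + 1 = 0

/-- abscissa -/
def sx (z : F) : F := -8 / 5 - 11 / 5 * z ^ 2 - 11 / 5 * z ^ 3

/-- ordinate -/
def sy (z : F) : F := 3 / 5 + 11 / 5 * z + 22 / 5 * z ^ 2 - 11 / 5 * z ^ 3

variable {z : F}

omit [Algebra ℚ F] in
theorem Ph.sq (h : Ph z) : Ph (z ^ 2) := by
  unfold Ph at h ⊢
  linear_combination (z ^ 4 - z ^ 3 + z ^ 2 - z + 1) * h

omit [Algebra ℚ F] in
theorem Ph.five (h : Ph z) : z ^ 5 = 1 := by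
  unfold Ph at h
  linear_combination (z - 1) * h

theorem Ph.ne (h : Ph z) : 2 * sy z + 1 ≠ 0 := fun e => by
  have := cz F
  unfold Ph at h
  unfold sy at e
  have : (1 : F) = 0 := by
    linear_combination (-1 / 121 - 2 / 121 * z - 8 / 121 * z ^ 2 + 6 / 121 * z ^ 3) * e -
      (-56 / 55 + 52 / 55 * z - 12 / 55 * z ^ 2) * h
  exact one_ne_zero this

theorem Ph.ns (h : Ph z) : (E0⁄F).toAffine.Nonsingular (sx z) (sy z) := by
  have := cz F
  refine T5.ns ?_ h.ne
  unfold Ph at h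
  unfold sx sy
  linear_combination (1452 / 125 - 847 / 125 * z + 1452 / 125 * z ^ 2 + 2662 / 125 * z ^ 4 +
    1331 / 125 * z ^ 5) * h

/-- the point attached to a fifth root of unity -/
def S (z : F) : Pt F := if h : Ph z then .some (sx z) (sy z) h.ns else 0

theorem S_eq (h : Ph z) : S z = .some (sx z) (sy z) h.ns := dif_pos h

theorem S_one : S (1 : F) = 0 := dif_neg fun h => by
  have := cz F
  unfold Ph at h
  norm_num at h

theorem S2 (h : Ph z) : S z + S z = S (z ^ 2) := by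
  have := cz F
  rw [S_eq h, S_eq h.sq]
  refine dbl (l := 3 / 5 + 6 / 5 * z - 1 / 5 * z ^ 2 + 7 / 5 * z ^ 3) _ _ h.ne ?_ ?_ ?_ <;>
    unfold Ph at h <;> simp only [sx, sy]
  · linear_combination (11 / 25 + 121 / 25 * z - 517 / 25 * z ^ 2) * h
  · linear_combination (-154 / 25 + 118 / 25 * z - 104 / 25 * z ^ 2) * h
  · linear_combination (11 / 5 + 143 / 25 * z ^ 2 - 154 / 25 * z ^ 3 + 88 / 25 * z ^ 4 -
      77 / 25 * z ^ 5) * h

theorem S4 (h : Ph z) : S ((z ^ 2) ^ 2) = -S z := by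
  have := cz F
  rw [S_eq h, S_eq h.sq.sq, Affine.Point.neg_some]
  refine some_eq ?_ ?_
  · unfold Ph at h
    unfold sx
    linear_combination (11 / 5 * z ^ 2 - 11 / 5 * z ^ 4 + 11 / 5 * z ^ 7 - 11 / 5 * z ^ 8) * h
  · rw [negY]
    unfold Ph at h
    unfold sy
    linear_combination (11 / 5 + 11 / 5 * z ^ 2 - 33 / 5 * z ^ 3 + 22 / 5 * z ^ 4 +
      11 / 5 * z ^ 7 - 11 / 5 * z ^ 8) * h

theorem S5 (h : Ph z) : 5 • S z = 0 := five_of (by rw [S2 h, S2 h.sq, S4 h])

theorem S_pow (h : Ph z) (k : ℕ) : S (z ^ k) = k • S z := by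
  have h5 := S5 h
  have e1 : z ^ k = z ^ (k % 5) := by
    conv_lhs => rw [← Nat.div_add_mod k 5, pow_add, pow_mul, h.five, one_pow, one_mul]
  have e2 : k • S z = (k % 5) • S z := by
    conv_lhs => rw [← Nat.div_add_mod k 5, add_nsmul, mul_nsmul, h5, nsmul_zero, zero_add]
  rw [e1, e2]
  have h4 : S (z ^ 4) = 4 • S z := by
    rw [show z ^ 4 = (z ^ 2) ^ 2 by ring, ← S2 h.sq, ← S2 h]
    abel
  have : k % 5 < 5 := Nat.mod_lt _ (by norm_num)
  generalize k % 5 = r at this
  interval_cases r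
  · rw [pow_zero, S_one, zero_nsmul]
  · rw [pow_one, one_nsmul]
  · rw [← S2 h, two_nsmul]
  · rw [show z ^ 3 = ((z ^ 2) ^ 2) ^ 2 by linear_combination (-z ^ 3) * h.five, ← S2 h.sq.sq,
      show (z ^ 2) ^ 2 = z ^ 4 by ring, h4, show 4 • S z + 4 • S z = 5 • S z + 3 • S z by abel,
      h5, zero_add]
  · exact h4

theorem quad (h : Ph z) (x : F) : 5 * x ^ 2 + 5 * x - 29 = 5 * (x - sx z) * (x - sx (z ^ 2)) := by
  have := cz F
  unfold Ph at h
  unfold sx
  linear_combination (5 * x * (-11 / 5 + 11 / 5 * z - 11 / 5 * z ^ 2) -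
    (209 / 5 - 209 / 5 * z + 88 / 5 * z ^ 2 + 121 / 5 * z ^ 5)) * h

theorem xS (h : Ph z) {b : ℤ} (hb : ¬ 5 ∣ b) :
    ∃ x, (b • S z).xRep = ![x, 1] ∧ 5 * x ^ 2 + 5 * x - 29 = 0 := by
  have h1 : (S z).xRep = ![sx z, 1] := by rw [S_eq h]; rfl
  have h2 : (S z + S z).xRep = ![sx (z ^ 2), 1] := by rw [S2 h, S_eq h.sq]; rfl
  rcases cases_of_not_dvd (S5 h) hb with e | e | e | e <;> rw [e]
  · exact ⟨_, h1, by simp [quad h]⟩
  · exact ⟨_, h2, by simp [quad h]⟩
  · exact ⟨_, (Affine.Point.xRep_neg _).trans h2, by simp [quad h]⟩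
  · exact ⟨_, (Affine.Point.xRep_neg _).trans h1, by simp [quad h]⟩

theorem indep (h : Ph z) {a b : ℤ} (e : a • T F + b • S z = 0) : 5 ∣ a ∧ 5 ∣ b := by
  have := cz F
  have e' : (a • T F).xRep = (b • S z).xRep := by
    rw [eq_neg_of_add_eq_zero_left e, Affine.Point.xRep_neg]
  by_cases ha : 5 ∣ a <;> by_cases hb : 5 ∣ b
  · exact ⟨ha, hb⟩
  · obtain ⟨x, h1, -⟩ := xS h hb
    rw [h1, zsmul_of_dvd T5' ha] at e'
    simp at e'
  · rw [zsmul_of_dvd (S5 h) hb] at e'
    rcases xT (F := F) ha with k | k <;> simp [k] at e'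
  · obtain ⟨x, h1, h2⟩ := xS h hb
    rw [h1] at e'
    rcases xT (F := F) ha with k | k <;>
    · rw [k] at e'
      obtain rfl := congrFun e' 0
      norm_num at h2

theorem gen (hP : P5) (h : Ph z) (P : Pt F) (h5 : 5 • P = 0) :
    ∃ a b : ℤ, P = a • T F + b • S z := by
  have := cz F
  by_contra hn
  push Not at hn
  let f : Fin 5 × Fin 5 → Pt F := fun q => (q.1.1 : ℤ) • T F + (q.2.1 : ℤ) • S z
  have hf : Function.Injective f := fun q q' e => by
    have := indep (a := q.1.1 - q'.1.1) (b := q.2.1 - q'.2.1) h (by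
      rw [sub_zsmul, sub_zsmul, ← sub_eq_add_neg, ← sub_eq_add_neg, ← add_sub_add_comm]
      exact sub_eq_zero.2 e)
    exact Prod.ext (Fin.ext (by omega)) (Fin.ext (by omega))
  let s : Finset (Pt F) := (insert P (Finset.univ.image f)).erase 0
  have c1 : 25 ≤ s.card := by
    have k1 : (insert P (Finset.univ.image f)).card = 26 := by
      rw [Finset.card_insert_of_notMem, Finset.card_image_of_injective _ hf]
      · rfl
      · intro k
        obtain ⟨q, -, e⟩ := Finset.mem_image.1 k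
        exact hn _ _ e.symm
    have := Finset.pred_card_le_card_erase (s := insert P (Finset.univ.image f)) (a := 0)
    rwa [k1] at this
  let p : F[X] := (X - 5) * (X - 16) * (5 * X ^ 2 + 5 * X - 29) *
    (X ^ 4 + X ^ 3 + 11 * X ^ 2 + 41 * X + 101) * (X ^ 4 + 15 * X ^ 3 + 120 * X ^ 2 + 200 * X + 155)
  have p0 : p ≠ 0 := fun e => by
    have := congrArg (eval 0) e
    norm_num [p] at this
  have pd : p.natDegree ≤ 12 := by
    simp only [p]
    compute_degree
  have c2 : (s.image Affine.Point.xRep).card ≤ 12 := by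
    refine (Finset.card_le_card (t := p.roots.toFinset.image fun x => ![x, 1]) fun w hw => ?_).trans
      (Finset.card_image_le.trans ((Multiset.toFinset_card_le _).trans ((card_roots' p).trans pd)))
    obtain ⟨Q, hQ, rfl⟩ := Finset.mem_image.1 hw
    obtain ⟨q0, q1⟩ := Finset.mem_erase.1 hQ
    have q5 : 5 • Q = 0 := by
      rcases Finset.mem_insert.1 q1 with rfl | k
      · exact h5
      · obtain ⟨q, -, rfl⟩ := Finset.mem_image.1 k
        simp only [f, nsmul_add, smul_comm (5 : ℕ), T5', S5 h, zsmul_zero, add_zero]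
    rcases Q with _ | ⟨x, y, hx⟩
    · exact absurd rfl q0
    · refine Finset.mem_image.2 ⟨x, Multiset.mem_toFinset.2 ((mem_roots p0).2 ?_), rfl⟩
      have := hP F x y hx q5
      simpa only [p, IsRoot, eval_mul, eval_sub, eval_add, eval_pow, eval_X, eval_ofNat]
  have c3 := Finset.card_le_mul_card_image (f := Affine.Point.xRep) s 2 fun w hw => by
    obtain ⟨Q, -, rfl⟩ := Finset.mem_image.1 hw
    refine (Finset.card_le_card (t := {Q, -Q}) fun R hR => ?_).trans Finset.card_le_two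
    simpa using Affine.Point.eq_or_eq_neg_of_xRep_eq_xRep (Finset.mem_filter.1 hR).2
  omega

theorem map_T {F' : Type} [Field F'] [Algebra ℚ F'] (φ : F →ₐ[ℚ] F') :
    Affine.Point.map (W' := E0) φ (T F) = T F' := by
  rw [T, Affine.Point.map_some]
  exact some_eq (map_ofNat φ 5) (map_ofNat φ 5)

theorem Ph.map {F' : Type} [Field F'] [Algebra ℚ F'] (φ : F →ₐ[ℚ] F') (h : Ph z) : Ph (φ z) := by
  simpa [Ph] using congrArg φ h

theorem map_S {F' : Type} [Field F'] [Algebra ℚ F'] (φ : F →ₐ[ℚ] F') (h : Ph z) :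
    Affine.Point.map (W' := E0) φ (S z) = S (φ z) := by
  rw [S_eq h, S_eq (h.map φ), Affine.Point.map_some]
  exact some_eq (by simp [sx, map_ofNat]) (by simp [sy, map_ofNat])

section loc

variable {K : Type} [NormedField K] [IsUltrametricDist K] {x : K}

theorem monic_ne (hx : 1 < ‖x‖) (a b c d : ℕ) :
    x ^ 4 + a * x ^ 3 + b * x ^ 2 + c * x + d ≠ 0 := fun e => by
  have x0 : x ≠ 0 := fun k => by
    rw [k, norm_zero] at hx
    exact absurd hx (by norm_num)
  have hu : ‖x⁻¹‖ ≤ 1 := by rw [norm_inv]; exact inv_le_one_of_one_le₀ hx.le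
  have k : ∀ (n : ℕ) (w : K), ‖w‖ ≤ 1 → ‖n + x⁻¹ * w‖ ≤ 1 := fun n w hw =>
    (IsUltrametricDist.norm_add_le_max _ _).trans (max_le (IsUltrametricDist.norm_natCast_le_one K n)
      (by rw [norm_mul]; exact mul_le_one₀ hu (norm_nonneg _) hw))
  have h1 := k a _ (k b _ (k c _ (IsUltrametricDist.norm_natCast_le_one K d)))
  rw [show (a : K) + x⁻¹ * (b + x⁻¹ * (c + x⁻¹ * d)) = -x by
    field_simp
    linear_combination e, norm_neg] at h1
  exact h1.not_gt hx

theorem lin_ne (hx : 1 < ‖x‖) (a : ℕ) : x - a ≠ 0 := fun e =>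
  (IsUltrametricDist.norm_natCast_le_one K a).not_gt (sub_eq_zero.1 e ▸ hx)

theorem quad_ne (hx : 1 < ‖x‖) (h5 : ‖(5 : K)‖ = 1) : 5 * x ^ 2 + 5 * x - 29 ≠ 0 := fun e => by
  have h1 : ‖x‖ ≤ max ‖x + 1‖ ‖(-1 : K)‖ := by
    simpa only [add_neg_cancel_right] using IsUltrametricDist.norm_add_le_max (x + 1) (-1)
  rw [norm_neg, norm_one] at h1
  have h2 : 1 < ‖x + 1‖ := hx.trans_le ((le_max_iff.1 h1).resolve_right hx.not_ge)
  have h3 := IsUltrametricDist.norm_natCast_le_one K 29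
  rw [show ((29 : ℕ) : K) = 5 * (x * (x + 1)) by push_cast; linear_combination -e, norm_mul,
    norm_mul, h5, one_mul] at h3
  exact h3.not_gt (one_lt_mul_of_lt_of_le hx h2.le)

end loc

end T5

open T5 in
theorem t5_of (hP : P5) : T5 := by
  intro ζ hζ
  have h : Ph ζ := by
    have := hζ.geom_sum_eq_zero (by norm_num)
    simp only [Finset.sum_range_succ, Finset.sum_range_zero] at this
    unfold Ph
    linear_combination this
  refine ⟨T Qb, S ζ, T5', S5 h, gen hP h, fun a b => indep h, fun σ => map_T _, fun σ k e => ?_,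
    fun p _ ι a b hE => ?_⟩
  · exact (map_S _ h).trans ((congrArg S e).trans (S_pow h k))
  have h' := h.map ι
  rw [map_add, map_zsmul, map_zsmul, map_T, map_S _ h] at hE
  have h5 : 5 • (a • T (Qp p) + b • S (ι ζ)) = 0 := by
    simp only [nsmul_add, smul_comm (5 : ℕ), T5', S5 h', zsmul_zero, add_zero]
  generalize hR : a • T (Qp p) + b • S (ι ζ) = R at hE h5
  rcases R with _ | ⟨x, y, hx⟩
  · exact ⟨(indep h' hR).1, fun _ => (indep h' hR).2⟩
  have hx1 : 1 < ‖x‖ := hE
  have h1 := hP _ x y hx h5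
  have h2 : 5 * x ^ 2 + 5 * x - 29 = 0 := by
    have k1 := lin_ne hx1 5
    have k2 := lin_ne hx1 16
    have k3 := monic_ne hx1 1 11 41 101
    have k4 := monic_ne hx1 15 120 200 155
    simp only [Nat.cast_ofNat, Nat.cast_one, one_mul] at k1 k2 k3 k4
    simpa only [mul_eq_zero, k1, k2, k3, k4, false_or, or_false] using h1
  refine ⟨?_, fun hp => absurd h2 (quad_ne hx1 ?_)⟩
  · have k : ∀ c : ℤ, (c • S (ι ζ)).xRep = ![x, 1] → 5 ∣ a := fun c hc => by
      rcases Affine.Point.eq_or_eq_neg_of_xRep_eq_xRep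
        (((congrArg Affine.Point.xRep hR).trans rfl).trans hc.symm) with e | e
      · exact (indep (a := a) (b := b - c) h' (by
          rw [sub_zsmul, ← add_assoc, e, add_neg_cancel])).1
      · exact (indep (a := a) (b := b + c) h' (by
          rw [add_zsmul, ← add_assoc, e, neg_add_cancel])).1
    rw [quad h', mul_eq_zero, mul_eq_zero, sub_eq_zero, sub_eq_zero] at h2
    rcases h2 with (e | e) | e
    · norm_num at e
    · exact k 1 (by rw [one_zsmul, S_eq h', e]; rfl)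
    · exact k 2 (by rw [two_zsmul, S2 h', S_eq h'.sq, e]; rfl)
  · have := PadicAlgCl.norm_extends p ((5 : ℕ) : ℚ_[p])
    rw [Padic.norm_natCast_eq_one_iff.2 ((Nat.coprime_primes Fact.out (by norm_num)).2 hp),
      map_natCast] at this
    exact this

end Vale.Agent.P014Z
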