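import Vale.Agent.P014Z.Ga

/-!
# P014Z: the Tamagawa numbers at the primes which do not divide the twisting parameter
-/

open WeierstrassCurve
open scoped Classical
open Vale.Agent.P014

noncomputable section

namespace Vale.Agent.P014Z

namespace Tam0A

theorem dvd_nat {p : ℕ} [Fact p.Prime] {n : ℕ} (h : (p : ℤ_[p]) ∣ (n : ℤ_[p])) : p ∣ n :=
  PadicInt.norm_natCast_lt_one_iff.1 ((PadicInt.norm_lt_one_iff_dvd _).2 h)

theorem red_zero {p : ℕ} [Fact p.Prime] {a : ℤ_[p]} : PadicInt.toZMod a = 0 ↔ (p : ℤ_[p]) ∣ a := by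
  rw [← RingHom.mem_ker, PadicInt.ker_toZMod, PadicInt.maximalIdeal_eq_span_p,
    Ideal.mem_span_singleton]

theorem h3 : (1264 : ZMod 11) = -1 := by decide

theorem sq_of [Fact (Nat.Prime 11)] {D W T c : ℤ_[11]}
    (h : W ^ 2 = -1264 * D * T ^ 2 + ((11 : ℕ) : ℤ_[11]) * c) (hT : ¬ ((11 : ℕ) : ℤ_[11]) ∣ T) :
    IsSquare (PadicInt.toZMod D) := by
  have h1 := congrArg (PadicInt.toZMod (p := 11)) h
  have h2 : PadicInt.toZMod T ≠ 0 := mt red_zero.1 hT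
  simp only [map_pow, map_add, map_mul, map_neg, map_ofNat, map_natCast, ZMod.natCast_self,
    zero_mul, add_zero, h3, neg_neg, one_mul] at h1
  refine ⟨PadicInt.toZMod W / PadicInt.toZMod T, ?_⟩
  field_simp
  exact h1.symm

theorem eleven [Fact (Nat.Prime 11)] {D X W : ℤ_[11]} (hD : ¬ ((11 : ℕ) : ℤ_[11]) ∣ D)
    (hs : ¬ IsSquare (PadicInt.toZMod D))
    (h : W ^ 2 = 4 * X ^ 3 - 4 * D * X ^ 2 - 40 * D ^ 2 * X - 79 * D ^ 3)
    (hW : ((11 : ℕ) : ℤ_[11]) ∣ W)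
    (hg : ((11 : ℕ) : ℤ_[11]) ∣ 3 * X ^ 2 - 2 * D * X - 10 * D ^ 2) : False := by
  have hp : Prime ((11 : ℕ) : ℤ_[11]) := PadicInt.prime_p
  set π : ℤ_[11] := ((11 : ℕ) : ℤ_[11]) with hπ
  have e : π = 11 := by rw [hπ]; norm_num
  have h0 : π ≠ 0 := hp.ne_zero
  obtain ⟨T, rfl⟩ : ∃ T, X = T - 105 * D := ⟨X + 105 * D, by ring⟩
  obtain ⟨W₁, rfl⟩ := hW
  obtain ⟨g, hg⟩ := hg
  have h1 : π ∣ T := by
    by_contra q
    have h2 : π ∣ 3 * T - 632 * D := (hp.dvd_or_dvd (a := T)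
      ⟨g - 3025 * D ^ 2, by rw [e] at hg ⊢; linear_combination hg⟩).resolve_left q
    have h3 : π ∣ 4 * T - 1264 * D := (hp.dvd_or_dvd (a := T ^ 2)
      ⟨π * W₁ ^ 2 - 12100 * D ^ 2 * T + 424589 * D ^ 3, by
        rw [e] at h ⊢; linear_combination -h⟩).resolve_left fun k => q (hp.dvd_of_dvd_pow k)
    have h4 : π ∣ ((1264 : ℕ) : ℤ_[11]) * D := by
      have := (h2.mul_left 4).sub (h3.mul_left 3)
      rwa [show 4 * (3 * T - 632 * D) - 3 * (4 * T - 1264 * D) = ((1264 : ℕ) : ℤ_[11]) * D by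
        push_cast; ring] at this
    exact (hp.dvd_or_dvd h4).elim (fun k => by simpa using dvd_nat k) hD
  obtain ⟨T₁, rfl⟩ := h1
  have h2 : W₁ ^ 2 = -1264 * D * T₁ ^ 2 + π * (4 * T₁ ^ 3 + 1100 * D ^ 2 * T₁ - 3509 * D ^ 3) :=
    mul_left_cancel₀ (pow_ne_zero 2 h0) (by rw [e] at h ⊢; linear_combination h)
  by_cases q : π ∣ T₁
  swap
  · exact hs (sq_of h2 q)
  obtain ⟨T₂, rfl⟩ := q
  obtain ⟨W₂, rfl⟩ : π ∣ W₁ := hp.dvd_of_dvd_pow (n := 2)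
    ⟨_, h2.trans (by ring : _ = π * (-1264 * D * π * T₂ ^ 2 +
      (4 * (π * T₂) ^ 3 + 1100 * D ^ 2 * (π * T₂) - 3509 * D ^ 3)))⟩
  have h3 : W₂ ^ 2 = -1264 * D * T₂ ^ 2 + π * (44 * T₂ ^ 3 + 100 * D ^ 2 * T₂ - 29 * D ^ 3) :=
    mul_left_cancel₀ (pow_ne_zero 2 h0) (by rw [e] at h2 ⊢; linear_combination h2)
  by_cases q : π ∣ T₂
  swap
  · exact hs (sq_of h3 q)
  obtain ⟨T₃, rfl⟩ := q
  obtain ⟨W₃, rfl⟩ : π ∣ W₂ := hp.dvd_of_dvd_pow (n := 2)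
    ⟨_, h3.trans (by ring : _ = π * (-1264 * D * π * T₃ ^ 2 +
      (44 * (π * T₃) ^ 3 + 100 * D ^ 2 * (π * T₃) - 29 * D ^ 3)))⟩
  have h4 : π ∣ ((29 : ℕ) : ℤ_[11]) * D ^ 3 :=
    ⟨-W₃ ^ 2 - 1264 * D * T₃ ^ 2 + 44 * π ^ 2 * T₃ ^ 3 + 100 * D ^ 2 * T₃,
      mul_left_cancel₀ h0 (by push_cast; linear_combination h3)⟩
  exact (hp.dvd_or_dvd h4).elim (fun k => by simpa using dvd_nat k)
    fun k => hD (hp.dvd_of_dvd_pow k)

theorem core {m : ℕ} (hm : Ok m) {p : ℕ} [Fact p.Prime] (hp : ¬ p ∣ m) {X W : ℤ_[p]}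
    (h : W ^ 2 = 4 * X ^ 3 - 4 * (-m) * X ^ 2 - 40 * (-m) ^ 2 * X - 79 * (-m) ^ 3)
    (hW : (p : ℤ_[p]) ∣ W) (hg : (p : ℤ_[p]) ∣ 3 * X ^ 2 - 2 * (-m) * X - 10 * (-m) ^ 2) :
    False := by
  have hD : ¬ (p : ℤ_[p]) ∣ (-m : ℤ_[p]) := fun k => hp (dvd_nat (dvd_neg.1 k))
  by_cases q : p = 11
  · subst q
    refine eleven hD (fun k => hm.n11 ?_) h hW hg
    have h1 : PadicInt.toZMod (-m : ℤ_[11]) = ((-m : ℤ) : ZMod 11) := by simp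
    rw [← jacobiSym.legendreSym.to_jacobiSym,
      legendreSym.eq_one_iff 11 (h1 ▸ mt red_zero.1 hD), ← h1]
    exact k
  · have h1 : (p : ℤ_[p]) ∣ ((11 : ℕ) : ℤ_[p]) ^ 5 * (-m : ℤ_[p]) ^ 4 := by
      have := ((hW.pow two_ne_zero).mul_left (744 * X - 2749 * (-m))).add
        (hg.mul_left (-992 * X ^ 2 + 3996 * X * (-m) + 5612 * (-m) ^ 2))
      rwa [h, show ∀ D : ℤ_[p], (744 * X - 2749 * D) *
        (4 * X ^ 3 - 4 * D * X ^ 2 - 40 * D ^ 2 * X - 79 * D ^ 3) +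
        (-992 * X ^ 2 + 3996 * X * D + 5612 * D ^ 2) * (3 * X ^ 2 - 2 * D * X - 10 * D ^ 2) =
        ((11 : ℕ) : ℤ_[p]) ^ 5 * D ^ 4 from fun D => by push_cast; ring] at this
    have h2 : Prime (p : ℤ_[p]) := PadicInt.prime_p
    rcases h2.dvd_or_dvd h1 with k | k
    · exact q ((Nat.prime_dvd_prime_iff_eq Fact.out (by norm_num)).1
        (dvd_nat (h2.dvd_of_dvd_pow k)))
    · exact hD (h2.dvd_of_dvd_pow k)

end Tam0A

theorem tam0 : TAM0 := by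
  intro m hm p _ hp
  suffices H : ∀ P, NonsingularReduction (tw11 (-m)) p P by
    rw [tamagawa, show {P | NonsingularReduction (tw11 (-m)) p P} = Set.univ from
      Set.eq_univ_of_forall H, AddSubgroup.closure_univ, AddSubgroup.index_top]
  rintro (_ | ⟨x, y, h⟩)
  · trivial
  by_contra q
  simp only [NonsingularReduction, not_or, not_lt, not_le] at q
  obtain ⟨hx, hg, hw⟩ := q
  have e := (Affine.equation_iff _ _).1 h.1
  simp only [tw11, baseChange, map_a₁, map_a₂, map_a₃, map_a₄, map_a₆, eq_ratCast] at e hg hw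
  push_cast at e hg hw
  obtain ⟨X, rfl⟩ : ∃ X : ℤ_[p], (X : ℚ_[p]) = x := ⟨⟨x, hx⟩, rfl⟩
  obtain ⟨W, hW⟩ : ∃ W : ℤ_[p], (W : ℚ_[p]) = 2 * y + 0 * X + 1 := ⟨⟨_, hw.le⟩, rfl⟩
  have c : ∀ n : ℕ, [n.AtLeastTwo] → ((ofNat(n) : ℤ_[p]) : ℚ_[p]) = ofNat(n) := fun n _ =>
    map_ofNat PadicInt.Coe.ringHom n
  refine Tam0A.core hm hp (X := X) (W := W) (Subtype.ext ?_)
    ((PadicInt.norm_lt_one_iff_dvd _).1 (by rwa [PadicInt.norm_def, hW]))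
    ((PadicInt.norm_lt_one_iff_dvd _).1 ?_)
  · push_cast
    simp only [c, hW]
    linear_combination 4 * e
  · rw [← norm_neg] at hg
    rw [PadicInt.norm_def]
    push_cast
    simp only [c]
    refine lt_of_eq_of_lt (congrArg _ ?_) hg
    ring

end Vale.Agent.P014Z
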