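import Vale.Agent.P014Z.Ga

/-!
# P014Z: Tamagawa numbers at the additive primes
-/

open WeierstrassCurve
open scoped Classical
open Vale.Agent.P014

noncomputable section

namespace Vale.Agent.P014Z

namespace Tam1

theorem idx {G α : Type} [AddCommGroup G] (H : AddSubgroup G) (S : Finset α) (hS : S.card ≤ 3)
    (r : G → α → Prop) (h1 : ∀ P, P ∈ H ∨ ∃ s ∈ S, r P s)
    (h2 : ∀ P Q, ∀ s ∈ S, r P s → r Q s → P - Q ∈ H) : ¬ 5 ∣ H.index := by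
  have h3 : ∀ q : G ⧸ H, ∃ o : Option S, (o = none → q.out ∈ H) ∧ ∀ s, o = some s → r q.out s :=
    fun q => (h1 q.out).elim (fun k => ⟨none, fun _ => k, fun _ e => by cases e⟩)
      fun ⟨s, k, k'⟩ => ⟨some ⟨s, k⟩, fun e => (by cases e), fun _ e => by cases e; exact k'⟩
  choose f f1 f2 using h3
  have hf : Function.Injective f := fun q q' e => by
    rw [← q.out_eq, ← q'.out_eq]
    refine QuotientAddGroup.eq_iff_sub_mem.2 ?_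
    cases k : f q with
    | none => exact H.sub_mem (f1 q k) (f1 q' (e ▸ k))
    | some s => exact h2 _ _ s s.2 (f2 q s k) (f2 q' s (e ▸ k))
  have := Finite.of_injective f hf
  have h4 : Nat.card (G ⧸ H) ≤ 4 :=
    (Nat.card_le_card_of_injective f hf).trans (by simpa [← Nat.lt_succ_iff] using Nat.lt_succ_of_le hS)
  exact fun k => absurd (Nat.le_of_dvd (Nat.card_pos (α := G ⧸ H)) k) (by omega)

variable {p : ℕ} [Fact p.Prime] {D : ℤ}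

/-- the subgroup -/
abbrev H (D : ℤ) (p : ℕ) [Fact p.Prime] : AddSubgroup ((tw11 D)⁄ℚ_[p]).toAffine.Point :=
  AddSubgroup.closure {P | NonsingularReduction (tw11 D) p P}

theorem eqn {x y : ℚ_[p]} (h : ((tw11 D)⁄ℚ_[p]).toAffine.Nonsingular x y) :
    (2 * y + 1) ^ 2 = 4 * x ^ 3 - 4 * D * x ^ 2 - 40 * D ^ 2 * x - 79 * D ^ 3 := by
  have k := (Affine.equation_iff _ _).1 h.1
  simp [tw11] at k
  linear_combination 4 * k

theorem negY (x y : ℚ_[p]) : ((tw11 D)⁄ℚ_[p]).toAffine.negY x y = -y - 1 := by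
  simp [tw11]

theorem cn (n : ℕ) [n.AtLeastTwo] : ((ofNat(n) : ℤ_[p]) : ℚ_[p]) = ofNat(n) :=
  PadicInt.coe_natCast n

theorem dom {a b : ℚ_[p]} (h : ‖b‖ < ‖a‖) : ‖a + b‖ = ‖a‖ := by
  rw [Padic.add_eq_max_of_ne h.ne', max_eq_left h.le]

theorem sml {a b : ℚ_[p]} (h : ‖a‖ < 1) (h' : ‖b‖ < 1) : ‖a + b‖ < 1 :=
  (Padic.nonarchimedean a b).trans_lt (max_lt h h')

theorem big (h2 : ¬ (p : ℤ_[p]) ∣ 2) (hD : (p : ℤ_[p]) ∣ D) {x y : ℚ_[p]}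
    (h : ((tw11 D)⁄ℚ_[p]).toAffine.Nonsingular x y) (hx : 1 ≤ ‖x‖) :
    Affine.Point.some x y h ∈ H D p := by
  refine AddSubgroup.subset_closure ?_
  rcases hx.lt_or_eq with k | k
  · exact .inl k
  refine .inr (.inr ?_)
  obtain ⟨x, rfl⟩ : ∃ x' : ℤ_[p], (x' : ℚ_[p]) = x := ⟨⟨x, k.ge⟩, rfl⟩
  have hp := PadicInt.prime_p (p := p)
  have e : 2 * y + ((tw11 D).a₁ : ℚ_[p]) * x + ((tw11 D).a₃ : ℚ_[p]) = 2 * y + 1 := by simp [tw11]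
  rw [e]
  by_contra! k1
  obtain ⟨w, hw⟩ : ∃ w : ℤ_[p], (w : ℚ_[p]) = 2 * y + 1 := ⟨⟨_, k1.le⟩, rfl⟩
  have k2 : w ^ 2 = 4 * x ^ 3 - 4 * D * x ^ 2 - 40 * D ^ 2 * x - 79 * D ^ 3 :=
    Subtype.ext (by push_cast [cn]; rw [hw]; exact eqn h)
  obtain ⟨w, rfl⟩ := (PadicInt.norm_lt_one_iff_dvd w).1 (by rwa [← hw] at k1)
  obtain ⟨u, hu⟩ := hD
  have k3 : (p : ℤ_[p]) ∣ 2 * (2 * x ^ 3) :=
    ⟨p * w ^ 2 + u * (4 * x ^ 2 + 40 * D * x + 79 * D ^ 2), by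
      linear_combination -k2 + (4 * x ^ 2 + 40 * D * x + 79 * D ^ 2) * hu⟩
  exact ((PadicInt.norm_lt_one_iff_dvd x).2 (hp.dvd_of_dvd_pow (((hp.dvd_or_dvd
    ((hp.dvd_or_dvd k3).resolve_left h2))).resolve_left h2))).ne' k

theorem sub (h2 : ¬ (p : ℤ_[p]) ∣ 2) (hD : (p : ℤ_[p]) ∣ D) {x₁ y₁ x₂ y₂ : ℚ_[p]}
    (h₁ : ((tw11 D)⁄ℚ_[p]).toAffine.Nonsingular x₁ y₁)
    (h₂ : ((tw11 D)⁄ℚ_[p]).toAffine.Nonsingular x₂ y₂) (k₁ : ‖x₁‖ < 1) (k₂ : ‖x₂‖ < 1)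
    (hl : ∀ l : ℚ_[p], l * ((2 * y₁ + 1) - (2 * y₂ + 1)) =
      2 * (x₁ ^ 2 + x₁ * x₂ + x₂ ^ 2 - D * (x₁ + x₂) - 10 * D ^ 2) →
      l * (2 * (x₁ - x₂)) = (2 * y₁ + 1) + (2 * y₂ + 1) → 1 ≤ ‖l‖) :
    Affine.Point.some x₁ y₁ h₁ - .some x₂ y₂ h₂ ∈ H D p := by
  rw [sub_eq_add_neg, Affine.Point.neg_some]
  by_cases hxy : x₁ = x₂ ∧ y₁ = ((tw11 D)⁄ℚ_[p]).toAffine.negY x₂
    (((tw11 D)⁄ℚ_[p]).toAffine.negY x₂ y₂)
  · rw [Affine.Point.add_of_Y_eq hxy.1 hxy.2]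
    exact zero_mem _
  rw [Affine.Point.add_some hxy]
  refine big h2 hD _ ?_
  set l := ((tw11 D)⁄ℚ_[p]).toAffine.slope x₁ x₂ y₁ (((tw11 D)⁄ℚ_[p]).toAffine.negY x₂ y₂) with hl'
  have e₁ := eqn h₁
  have e₂ := eqn h₂
  have h3 : 1 ≤ ‖l‖ := by
    by_cases hx : x₁ = x₂
    · have hy := fun k => hxy ⟨hx, k⟩
      have h4 := Affine.Y_eq_of_Y_ne h₁.1 ((Affine.equation_neg _ _).2 h₂.1) hx hy
      rw [Affine.slope_of_Y_ne hx hy] at hl'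
      simp only [negY] at h4 hy hl'
      have h5 : y₁ - (-y₁ - 1) ≠ 0 := fun k => hy (by linear_combination h4 + k - 2 * h4)
      rw [eq_div_iff h5] at hl'
      simp [tw11] at hl'
      subst hx h4
      exact hl l (by linear_combination 2 * hl') (by ring)
    · rw [Affine.slope_of_X_ne hx, eq_div_iff (sub_ne_zero.2 hx), negY] at hl'
      refine hl l (mul_left_cancel₀ (mul_ne_zero two_ne_zero (sub_ne_zero.2 hx)) ?_)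
        (by linear_combination 2 * hl')
      linear_combination e₁ - e₂ + 2 * ((2 * y₁ + 1) - (2 * y₂ + 1)) * hl'
  have h6 : ((tw11 D)⁄ℚ_[p]).toAffine.addX x₁ x₂ l = l ^ 2 + (D + (-x₁ + -x₂)) := by
    simp [tw11]
    ring
  have h7 : 1 ≤ ‖l ^ 2‖ := norm_pow l 2 ▸ one_le_pow₀ h3
  rw [h6, dom ((sml (a := D) ((PadicInt.norm_lt_one_iff_dvd (D : ℤ_[p])).2 hD)
    (sml (by rwa [norm_neg]) (by rwa [norm_neg]))).trans_le h7)]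
  exact h7

theorem one_le {l : ℚ_[p]} {a b : ℤ_[p]} (k : ℕ) (hb : ¬ (p : ℤ_[p]) ∣ b)
    (h : (p : ℚ_[p]) ^ k * (l * a) = p ^ k * b) : 1 ≤ ‖l‖ := by
  have h1 := congrArg norm (mul_left_cancel₀ (pow_ne_zero k (NeZero.ne _)) h)
  have h2 : 1 ≤ ‖(b : ℚ_[p])‖ := not_lt.1 (mt (PadicInt.norm_lt_one_iff_dvd b).1 hb)
  rw [← h1, norm_mul] at h2
  exact h2.trans (mul_le_of_le_one_right (norm_nonneg l) a.2)

/-- the coordinates of a point with singular reduction -/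
def Co (D : ℤ) (u : ℤ_[p]) (P : ((tw11 D)⁄ℚ_[p]).toAffine.Point) (t v : ℤ_[p]) : Prop :=
  ∃ x y h, P = .some x y h ∧ x = p * u * t ∧ 2 * y + 1 = p ^ 2 * v ∧
    p * v ^ 2 = u ^ 3 * (4 * t ^ 3 - 4 * t ^ 2 - 40 * t - 79)

theorem co (h2 : ¬ (p : ℤ_[p]) ∣ 2) {u : ℤ_[p]} (hD : (D : ℤ_[p]) = p * u) (hu : ¬ (p : ℤ_[p]) ∣ u)
    (P : ((tw11 D)⁄ℚ_[p]).toAffine.Point) : P ∈ H D p ∨ ∃ t v, Co D u P t v := by
  have hp := PadicInt.prime_p (p := p)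
  rcases P with _ | ⟨x, y, h⟩
  · exact .inl (zero_mem _)
  by_cases hx : 1 ≤ ‖x‖
  · exact .inl (big h2 ⟨u, hD⟩ h hx)
  refine .inr ?_
  obtain ⟨x, rfl⟩ : ∃ x' : ℤ_[p], (x' : ℚ_[p]) = x := ⟨⟨x, (not_le.1 hx).le⟩, rfl⟩
  obtain ⟨x, rfl⟩ := (PadicInt.norm_lt_one_iff_dvd x).1 (not_le.1 hx)
  obtain ⟨u, rfl⟩ : IsUnit u := PadicInt.isUnit_iff.2
    (le_antisymm u.2 (not_lt.1 (mt (PadicInt.norm_lt_one_iff_dvd u).1 hu)))
  obtain ⟨t, rfl⟩ : ∃ t, x = u * t := ⟨↑u⁻¹ * x, by simp⟩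
  have e : (2 * y + 1) ^ 2 =
      ((p ^ 3 * (u ^ 3 * (4 * t ^ 3 - 4 * t ^ 2 - 40 * t - 79)) : ℤ_[p]) : ℚ_[p]) := by
    rw [eqn h, show (D : ℚ_[p]) = ((D : ℤ_[p]) : ℚ_[p]) from rfl, hD]
    push_cast [cn]
    ring
  obtain ⟨w, hw⟩ : ∃ w : ℤ_[p], (w : ℚ_[p]) = 2 * y + 1 := ⟨⟨_, (pow_le_one_iff_of_nonneg
    (norm_nonneg _) two_ne_zero).1 (by rw [← norm_pow, e]; exact PadicInt.norm_le_one _)⟩, rfl⟩
  have e1 : w ^ 2 = p ^ 3 * (u ^ 3 * (4 * t ^ 3 - 4 * t ^ 2 - 40 * t - 79)) :=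
    Subtype.ext (by rw [← e, ← hw]; rfl)
  generalize hs : (u : ℤ_[p]) ^ 3 * (4 * t ^ 3 - 4 * t ^ 2 - 40 * t - 79) = s at e1
  obtain ⟨w, rfl⟩ := hp.dvd_of_dvd_pow (n := 2) (a := w) ⟨p ^ 2 * s, by rw [e1]; ring⟩
  obtain ⟨w, rfl⟩ := hp.dvd_of_dvd_pow (n := 2) (a := w) ⟨s, mul_left_cancel₀
    (pow_ne_zero 2 hp.ne_zero) (by linear_combination e1)⟩
  refine ⟨t, w, _, y, h, rfl, by push_cast [cn]; ring, by rw [← hw]; push_cast [cn]; ring, ?_⟩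
  rw [hs]
  exact mul_left_cancel₀ (pow_ne_zero 3 hp.ne_zero) (by linear_combination e1)

theorem small (u t : ℤ_[p]) : ‖(p * u * t : ℚ_[p])‖ < 1 := by
  have := (PadicInt.norm_lt_one_iff_dvd (p * u * t : ℤ_[p])).2 ⟨u * t, mul_assoc _ _ _⟩
  rw [PadicInt.norm_def] at this
  simpa only [PadicInt.coe_mul, PadicInt.coe_natCast] using this

theorem simple (h2 : ¬ (p : ℤ_[p]) ∣ 2) {u : ℤ_[p]} (hD : (D : ℤ_[p]) = p * u)
    (hu : ¬ (p : ℤ_[p]) ∣ u) {P Q : ((tw11 D)⁄ℚ_[p]).toAffine.Point} {t v t' v' : ℤ_[p]}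
    (hP : Co D u P t v) (hQ : Co D u Q t' v') (ht : (p : ℤ_[p]) ∣ t' - t)
    (hg : ¬ (p : ℤ_[p]) ∣ 3 * t ^ 2 - 2 * t - 10) : P - Q ∈ H D p := by
  have hp := PadicInt.prime_p (p := p)
  obtain ⟨x, y, h, rfl, rfl, e, -⟩ := hP
  obtain ⟨x', y', h', rfl, rfl, e', -⟩ := hQ
  refine sub h2 ⟨u, hD⟩ h h' (small u t) (small u t') fun l k _ => one_le (a := v - v')
    (b := 2 * (u ^ 2 * (3 * t ^ 2 - 2 * t - 10 + (t' - t) * (2 * t + t' - 1)))) 2 (fun k1 => ?_) ?_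
  · exact hg ((dvd_add_left (ht.mul_right _)).1 ((hp.dvd_or_dvd ((hp.dvd_or_dvd k1).resolve_left
      h2)).resolve_left fun k2 => hu (hp.dvd_of_dvd_pow k2)))
  · rw [e, e', show (D : ℚ_[p]) = ((D : ℤ_[p]) : ℚ_[p]) from rfl, hD] at k
    push_cast [cn] at k ⊢
    linear_combination k

theorem nd {q : ℕ} (hq : q.Prime) (h : p ≠ q) : ¬ (p : ℤ_[p]) ∣ q := fun k =>
  h ((Nat.prime_dvd_prime_iff_eq Fact.out hq).1
    (PadicInt.norm_natCast_lt_one_iff.1 ((PadicInt.norm_lt_one_iff_dvd _).2 k)))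

theorem zm {a : ℤ_[p]} : PadicInt.toZMod a = 0 ↔ (p : ℤ_[p]) ∣ a := by
  rw [← RingHom.mem_ker, PadicInt.ker_toZMod, PadicInt.maximalIdeal_eq_span_p,
    Ideal.mem_span_singleton]

theorem other (h2 : ¬ (p : ℤ_[p]) ∣ 2) {u : ℤ_[p]} (hD : (D : ℤ_[p]) = p * u)
    (hu : ¬ (p : ℤ_[p]) ∣ u) (h11 : ¬ (p : ℤ_[p]) ∣ 11) : ¬ 5 ∣ (H D p).index := by
  have hp := PadicInt.prime_p (p := p)
  have rt : ∀ {P t v}, Co D u P t v → (p : ℤ_[p]) ∣ 4 * t ^ 3 - 4 * t ^ 2 - 40 * t - 79 :=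
    fun ⟨_, _, _, _, _, _, e⟩ => (hp.dvd_or_dvd ⟨_, e.symm⟩).resolve_left
      fun k => hu (hp.dvd_of_dvd_pow k)
  refine idx _ (⟨4, -4, -40, -79⟩ : Cubic (ZMod p)).roots.toFinset Cubic.card_roots_le
    (fun P s => ∃ t v, Co D u P t v ∧ PadicInt.toZMod t = s) (fun P => (co h2 hD hu P).imp_right
      fun ⟨t, v, h⟩ => ⟨_, ?_, t, v, h, rfl⟩) fun P Q s _ ⟨t, v, h, e⟩ ⟨t', v', h', e'⟩ => ?_
  swap
  · have h4 : (4 : ZMod p) ≠ 0 := fun k => h2 (hp.dvd_of_dvd_pow (n := 2) (zm.1 (by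
      rw [map_pow, map_ofNat, ← k]; norm_num)))
    rw [Multiset.mem_toFinset, Cubic.mem_roots_iff (Cubic.ne_zero_of_a_ne_zero h4)]
    have := zm.2 (rt h)
    simp only [map_sub, map_mul, map_pow, map_ofNat] at this
    linear_combination this
  · refine simple h2 hD hu h h' (zm.1 (by rw [map_sub, e, e', sub_self])) fun k => h11
      (hp.dvd_of_dvd_pow (n := 5) ?_)
    have e1 : (11 : ℤ_[p]) ^ 5 = (-2749 + 744 * t) * (4 * t ^ 3 - 4 * t ^ 2 - 40 * t - 79) +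
      (5612 + 3996 * t - 992 * t ^ 2) * (3 * t ^ 2 - 2 * t - 10) := by ring
    exact e1 ▸ dvd_add ((rt h).mul_left _) (k.mul_left _)

theorem eleven (h : p = 11) {u : ℤ_[p]} (hD : (D : ℤ_[p]) = p * u) (hu : ¬ (p : ℤ_[p]) ∣ u) :
    ¬ 5 ∣ (H D p).index := by
  have hp := PadicInt.prime_p (p := p)
  have h0 : (p : ℤ_[p]) = 11 := by subst h; rfl
  have h2 : ¬ (p : ℤ_[p]) ∣ 2 := nd (q := 2) Nat.prime_two (by omega)
  have h79 : ¬ (p : ℤ_[p]) ∣ 79 := nd (q := 79) (by norm_num) (by omega)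
  have h29 : ¬ (p : ℤ_[p]) ∣ 29 := nd (q := 29) (by norm_num) (by omega)
  have hu3 : ¬ (p : ℤ_[p]) ∣ u ^ 3 := fun k => hu (hp.dvd_of_dvd_pow k)
  have c : ∀ a : ℤ_[p], (p : ℤ_[p]) ∣ u ^ 3 * (2 ^ 4 * (79 * a ^ 2)) → (p : ℤ_[p]) ∣ a := fun a k =>
    hp.dvd_of_dvd_pow ((hp.dvd_or_dvd ((hp.dvd_or_dvd ((hp.dvd_or_dvd k).resolve_left
      hu3)).resolve_left fun k => h2 (hp.dvd_of_dvd_pow k))).resolve_left h79)
  refine idx _ (insert none ((Polynomial.nthRoots 2 (PadicInt.toZMod (-29 * u ^ 3))).toFinset.image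
    some)) ((Finset.card_insert_le _ _).trans (Nat.succ_le_succ (Finset.card_image_le.trans
      ((Multiset.toFinset_card_le _).trans (Polynomial.card_nthRoots _ _)))))
    (fun P o => o.elim (∃ t v, Co D u P t v ∧ (p : ℤ_[p]) ∣ t - 211) fun s =>
      ∃ τ v, Co D u P (p ^ 3 * τ - 105) (p ^ 2 * v) ∧ PadicInt.toZMod v = s)
    (fun P => (co h2 hD hu P).imp_right fun ⟨t, v, hc⟩ => ?_) fun P Q o hs => ?_
  swap
  · obtain ⟨τ, rfl⟩ : ∃ τ, t = τ - 105 := ⟨t + 105, by ring⟩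
    have e : p * v ^ 2 = u ^ 3 * (-29 * p ^ 5 + 100 * p ^ 3 * τ - 1264 * τ ^ 2 + 4 * τ ^ 3) := by
      obtain ⟨_, _, _, _, _, _, e⟩ := hc
      rw [e, h0]
      ring
    by_cases k : (p : ℤ_[p]) ∣ τ
    swap
    · refine ⟨none, Finset.mem_insert_self _ _, _, v, hc, ?_⟩
      have k1 : (p : ℤ_[p]) ∣ u ^ 3 * (2 ^ 2 * (τ ^ 2 * (τ - 105 - 211))) :=
        ⟨v ^ 2 - u ^ 3 * (-29 * p ^ 4 + 100 * p ^ 2 * τ), by linear_combination -e⟩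
      exact (hp.dvd_or_dvd ((hp.dvd_or_dvd ((hp.dvd_or_dvd k1).resolve_left hu3)).resolve_left
        fun k => h2 (hp.dvd_of_dvd_pow k))).resolve_left fun k2 => k (hp.dvd_of_dvd_pow k2)
    obtain ⟨τ, rfl⟩ := k
    obtain ⟨v, rfl⟩ := hp.dvd_of_dvd_pow (n := 2) (a := v)
      ⟨u ^ 3 * (-29 * p ^ 3 + 100 * p ^ 2 * τ - 1264 * τ ^ 2 + 4 * p * τ ^ 3),
        mul_left_cancel₀ hp.ne_zero (by linear_combination e)⟩
    obtain ⟨τ, rfl⟩ := c τ ⟨u ^ 3 * (-29 * p ^ 2 + 100 * p * τ + 4 * τ ^ 3) - v ^ 2,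
      mul_left_cancel₀ (pow_ne_zero 2 hp.ne_zero) (by linear_combination e)⟩
    obtain ⟨v, rfl⟩ := hp.dvd_of_dvd_pow (n := 2) (a := v)
      ⟨u ^ 3 * (-29 * p + 100 * p * τ - 1264 * τ ^ 2 + 4 * p ^ 2 * τ ^ 3),
        mul_left_cancel₀ (pow_ne_zero 3 hp.ne_zero) (by linear_combination e)⟩
    obtain ⟨τ, rfl⟩ := c τ ⟨u ^ 3 * (-29 + 100 * τ + 4 * p * τ ^ 3) - v ^ 2,
      mul_left_cancel₀ (pow_ne_zero 4 hp.ne_zero) (by linear_combination e)⟩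
    refine ⟨some (PadicInt.toZMod v), Finset.mem_insert_of_mem (Finset.mem_image_of_mem _ ?_), τ, v,
      by simpa only [pow_succ, pow_zero, one_mul, mul_assoc] using hc, rfl⟩
    rw [Multiset.mem_toFinset, Polynomial.mem_nthRoots two_pos, ← map_pow, ← sub_eq_zero, ← map_sub]
    exact zm.2 ⟨u ^ 3 * (100 * τ - 1264 * τ ^ 2 + 4 * p ^ 3 * τ ^ 3),
      mul_left_cancel₀ (pow_ne_zero 5 hp.ne_zero) (by linear_combination e)⟩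
  · rcases o with _ | s
    · rintro ⟨t, v, hc, k⟩ ⟨t', v', hc', k'⟩
      refine simple h2 hD hu hc hc' (by simpa using dvd_sub k' k) fun k1 => ?_
      have e1 : (2 : ℤ_[p]) ^ 4 * 79 ^ 2 = (3 * t ^ 2 - 2 * t - 10) -
        (t - 211) * (3 * t + 631) - p * (25 * p ^ 2) := by rw [h0]; ring
      exact (hp.dvd_or_dvd (e1 ▸ dvd_sub (dvd_sub k1 (k.mul_right _)) (dvd_mul_right _ _))).elim
        (fun k => h2 (hp.dvd_of_dvd_pow k)) fun k => h79 (hp.dvd_of_dvd_pow k)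
    · rintro ⟨τ, v, ⟨x, y, h₁, rfl, rfl, e, -⟩, rfl⟩ ⟨τ', v', ⟨x', y', h₂, rfl, rfl, e', -⟩, k⟩
      have k1 : (p : ℤ_[p]) ∣ v' - v := zm.1 (by rw [map_sub, k, sub_self])
      have k2 : (p : ℤ_[p]) ∣ v ^ 2 - -29 * u ^ 3 := zm.1 (by
        simp only [Finset.mem_insert, Finset.mem_image, Option.some.injEq, exists_eq_right,
          reduceCtorEq, false_or, Multiset.mem_toFinset, Polynomial.mem_nthRoots two_pos] at hs
        rw [map_sub, map_pow, hs, sub_self])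
      refine sub h2 ⟨u, hD⟩ h₁ h₂ (small _ _) (small _ _) fun l _ k3 => one_le
        (a := 2 * u * (τ - τ')) (b := 2 * v + (v' - v)) 4 (fun k4 => ?_) ?_
      · have k5 := (hp.dvd_or_dvd ((dvd_add_left k1).1 k4)).resolve_left h2
        have k6 : (p : ℤ_[p]) ∣ 29 * u ^ 3 := by
          simpa using dvd_sub k2 (dvd_pow k5 two_ne_zero)
        exact (hp.dvd_or_dvd k6).elim h29 hu3
      · rw [e, e'] at k3
        push_cast [cn] at k3 ⊢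
        linear_combination k3

end Tam1

open Tam1 in
/-- **TAM1** -/
theorem tam1 : TAM1 := by
  intro m hm p _ hp
  obtain ⟨k, rfl⟩ := hp
  have h1 : ¬ p ∣ k := fun ⟨j, e⟩ =>
    (Fact.out : p.Prime).not_isUnit (hm.sf p ⟨j, by rw [e, mul_assoc]⟩)
  have hD : ((-(p * k : ℕ) : ℤ) : ℤ_[p]) = p * -(k : ℤ_[p]) := by push_cast [cn]; ring
  have hu : ¬ (p : ℤ_[p]) ∣ -(k : ℤ_[p]) := fun e => h1 (PadicInt.norm_natCast_lt_one_iff.1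
    ((PadicInt.norm_lt_one_iff_dvd _).2 (dvd_neg.1 e)))
  by_cases h : p = 11
  · exact eleven h hD hu
  · refine other (nd Nat.prime_two ?_) hD hu (nd (q := 11) (by norm_num) h)
    rintro rfl
    have : 2 * k % 4 = 3 := hm.m4
    omega

end Vale.Agent.P014Z
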