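import Vale.Agent.P014Z.An
import Vale.Agent.P004H.H871.Gauss

/-!
# P014Z: Gauss sums, twisted sums of a primitive
-/

open Complex Filter Topology Finset
open scoped Real
open Vale.Agent.P004H.H871 (RC rc_odd)

noncomputable section

namespace Vale.Agent.P014Z

namespace Tw

variable {m : ℕ}

theorem sumZ [NeZero m] {A : Type} [AddCommMonoid A] (F : ZMod m → A) :
    ∑ b ∈ range m, F b = ∑ u, F u :=
  Finset.sum_nbij' (fun b => (b : ZMod m)) ZMod.val (by simp) (by simp [ZMod.val_lt])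
    (fun _ hb => ZMod.val_cast_of_lt (mem_range.1 hb)) (by simp) (by simp)

/-- the character on the residue classes -/
def X (u : ZMod m) : ℤ := jacobiSym u.val m

section rc

variable [NeZero m] (h : RC m fun x => jacobiSym x m)
include h

theorem X_int (x : ℤ) : X (x : ZMod m) = jacobiSym x m := h.val x

theorem X_nat (b : ℕ) : X (b : ZMod m) = chi m b := by
  have := X_int h b
  rwa [Int.cast_natCast] at this

theorem X_mul (u v : ZMod m) : X (u * v) = X u * X v := by
  have := X_int h (u.val * v.val)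
  rwa [jacobiSym.mul_left, Int.cast_mul, Int.cast_natCast, Int.cast_natCast,
    ZMod.natCast_zmod_val, ZMod.natCast_zmod_val] at this

theorem X_sq {u : ZMod m} (hu : IsUnit u) : X u * X u = 1 := h.sq (by simpa using hu)

theorem X_zero {u : ZMod m} (hu : ¬ IsUnit u) : X u = 0 := h.zero _ (by simpa using hu)

theorem sumU (F : ZMod m → ZMod m) : ∑ u, X u * F u = ∑ x : (ZMod m)ˣ, X (x : ZMod m) * F x :=
  (Fintype.sum_of_injective _ Units.val_injective _ _
    (fun u hu => by rw [X_zero h hu, Int.cast_zero, zero_mul]) fun _ => rfl).symm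

theorem cong (s : (ZMod m)ˣ) (c : ℕ → ℤ)
    (hc : ∀ b : ℕ, IsUnit (b : ZMod m) → (c b : ZMod m) * (s * b) = 1) :
    (m : ℤ) ∣ ∑ b ∈ range m, chi m b * c b - X (s : ZMod m) * Hs m := by
  rw [← ZMod.intCast_zmod_eq_zero_iff_dvd, Hs]
  push_cast
  have e1 : ∑ b ∈ range m, (chi m b : ZMod m) * c b =
      ∑ u : ZMod m, (X u : ZMod m) * (c u.val : ZMod m) := by
    rw [← sumZ]
    exact sum_congr rfl fun b hb => by rw [X_nat h, ZMod.val_cast_of_lt (mem_range.1 hb)]
  have e2 : ∑ b ∈ range m, (chi m b : ZMod m) * b = ∑ u : ZMod m, X u * u := by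
    rw [← sumZ]
    exact sum_congr rfl fun b _ => by rw [X_nat h]
  rw [e1, e2, sumU h, sumU h fun u => u, mul_sum, sub_eq_zero]
  refine Fintype.sum_equiv ((Equiv.mulLeft s).trans (Equiv.inv _)) _ _ fun x => ?_
  have k1 : (c (x : ZMod m).val : ZMod m) = ((s * x)⁻¹ : (ZMod m)ˣ) :=
    Units.eq_inv_of_mul_eq_one_right (by simpa using hc (x : ZMod m).val (by simp))
  have k2 : X (x : ZMod m) = X (s : ZMod m) * X (((s * x)⁻¹ : (ZMod m)ˣ) : ZMod m) := by
    have a := X_mul h ((s * x)⁻¹ : (ZMod m)ˣ) (s * x : (ZMod m)ˣ)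
    rw [Units.inv_mul, Units.val_mul, X_mul h] at a
    have b : X (1 : ZMod m) = 1 := by simpa using X_int h 1
    linear_combination (X (x : ZMod m)) * (b.symm.trans a) +
      (X (s : ZMod m) * X (((s * x)⁻¹ : (ZMod m)ˣ) : ZMod m)) * X_sq h x.isUnit
  rw [k1, k2]
  simp [mul_assoc]

end rc

theorem rc (h1 : Squarefree m) (h2 : m % 4 = 3) :
    ∃ _ : NeZero m, RC m fun x => jacobiSym x m :=
  ⟨⟨by omega⟩, rc_odd m _ h1 (Nat.odd_iff.2 (by omega))⟩

end Tw

open Tw in
/-- **GAU** -/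
theorem gau : GAU := fun m h1 h2 => by
  obtain ⟨_, h⟩ := rc h1 h2
  obtain ⟨g, -, hg⟩ := h.gauss
  have k : ∀ v : ZMod m, ∑ u : ZMod m, (X u : ℂ) * ZMod.stdAddChar (u * v) = X v * g := fun v => by
    have := hg v.val
    rwa [Int.cast_natCast, ZMod.natCast_zmod_val] at this
  have k1 : ∀ n : ℕ, ∑ b ∈ range m, chi m b * cexp (2 * π * I * (b * n) / m) = chi m n * g :=
    fun n => by
    rw [← X_nat h, ← k, ← sumZ]
    refine sum_congr rfl fun b _ => ?_
    have := ZMod.stdAddChar_coe (N := m) (b * n : ℕ)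
    push_cast at this
    rw [X_nat h, this]
  have k2 : gs m = g := by simpa [gs, chi] using k1 1
  refine ⟨?_, k2 ▸ k1⟩
  have k3 : (X (-1 : ZMod m) : ℂ) = -1 := by
    have := X_int h (-1)
    rw [jacobiSym.at_neg_one (Nat.odd_iff.2 (by omega)), ZMod.χ₄_nat_three_mod_four h2] at this
    exact_mod_cast this
  have k4 : (X (1 : ZMod m) : ℂ) = 1 := by simpa using congrArg (Int.cast : ℤ → ℂ) (X_int h 1)
  calc gs m ^ 2 = (X (1 : ZMod m) * g) * g := by rw [k2, k4, one_mul, sq]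
    _ = ∑ u : ZMod m, ZMod.stdAddChar u * (X u * g) := by
      rw [← k, sum_mul]
      exact sum_congr rfl fun u _ => by rw [mul_one]; ring
    _ = ∑ v : ZMod m, (X v : ℂ) * ∑ u : ZMod m, ZMod.stdAddChar (u * (1 + v)) := by
      simp only [← k, mul_sum]
      rw [sum_comm]
      refine sum_congr rfl fun v _ => sum_congr rfl fun u _ => ?_
      rw [mul_add, mul_one, AddChar.map_add_eq_mul, mul_comm v u]
      ring
    _ = -m := by
      simp only [AddChar.sum_mulShift _ (ZMod.isPrimitive_stdAddChar m), add_eq_zero_iff_neg_eq]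
      simp [k3]

namespace Tw

theorem im0 (r : ℝ) {s : ℝ} (hs : 0 < s) : 0 < ((r : ℂ) + s * I).im := by simpa

theorem lim {P : ℂ → ℂ} {κ C δ : ℂ} {w : G0 → ℂ} (h : Prim P κ C δ w) (r : ℝ) {k : ℝ}
    (hk : 0 < k) : Tendsto (fun y : ℝ => P (r + (k * y⁻¹ : ℝ) * I) - κ * (r + (k * y⁻¹ : ℝ) * I))
      (𝓝[>] 0) (𝓝 0) := by
  refine Metric.nhds_basis_closedBall.tendsto_right_iff.2 fun ε hε => ?_
  obtain ⟨Y, hY⟩ := h.inf ε hε
  filter_upwards [(tendsto_inv_nhdsGT_zero.const_mul_atTop hk).eventually_ge_atTop Y] with y a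
  exact mem_closedBall_zero_iff.2 (hY _ (by simpa using a))

theorem fin {m : ℕ} (h1 : Squarefree m) (h2 : m % 4 = 3) (s : ZMod m) (hs : IsUnit s) (γ : ℕ → G0)
    (c : ℕ → ℤ) (hc : ∀ b : ℕ, IsUnit (b : ZMod m) → (c b : ZMod m) * (s * b) = 1)
    (hl : ∀ P κ C δ w, Prim P κ C δ w → ∃ A : ℝ → ℂ, ∀ b : ℕ, IsUnit (b : ZMod m) →
      Tendsto (fun y : ℝ => P (b / m + y * I) - A y) (𝓝[>] 0) (𝓝 (w (γ b) - κ * c b / m))) :
    ∃ (γ : ℕ → G0) (e : ℤ), ((m : ℤ) ∣ e - Hs m ∨ (m : ℤ) ∣ e + Hs m) ∧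
      ∀ P κ C δ w, Prim P κ C δ w →
        Tendsto (fun y : ℝ => ∑ b ∈ range m, chi m b * P (b / m + y * I)) (𝓝[>] 0)
          (𝓝 (∑ b ∈ range m, chi m b * w (γ b) - κ * e / m)) := by
  obtain ⟨_, h⟩ := rc h1 h2
  obtain ⟨s, rfl⟩ := hs
  refine ⟨γ, ∑ b ∈ range m, chi m b * c b, ?_, fun P κ C δ w hP => ?_⟩
  · have := cong h s c hc
    rcases mul_self_eq_one_iff.1 (X_sq h s.isUnit) with k | k
    · exact .inl (by simpa [k] using this)
    · exact .inr (by simpa [k] using this)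
  obtain ⟨A, hA⟩ := hl P κ C δ w hP
  have k0 : ∑ b ∈ range m, (chi m b : ℂ) = 0 := by
    simpa [chi, jacobiSym.zero_left (show 1 < m by omega)] using (gau m h1 h2).2 0
  have k := tendsto_finsetSum (range m) (x := 𝓝[>] (0 : ℝ))
    (f := fun b (y : ℝ) => chi m b * (P (b / m + y * I) - A y))
    (a := fun b => chi m b * (w (γ b) - κ * c b / m)) fun b _ => by
      by_cases hb : IsUnit (b : ZMod m)
      · exact (hA b hb).const_mul _
      · simp [← X_nat h, X_zero h hb]
  simp only [mul_sub, sum_sub_distrib, ← sum_mul, k0, zero_mul, sub_zero] at k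
  refine (congrArg (fun z => Tendsto _ _ (𝓝 (_ - z))) ?_).mp k
  push_cast
  rw [mul_sum, sum_div]
  exact sum_congr rfl fun b _ => by ring

end Tw

open Tw in
/-- **TW** -/
theorem tw : TW := fun m h1 h2 => by
  have m0 : (m : ℂ) ≠ 0 := Nat.cast_ne_zero.2 (by omega)
  have m1 : (0 : ℝ) < m := Nat.cast_pos.2 (by omega)
  have co : ∀ b : ℕ, IsUnit (b : ZMod m) → IsCoprime (b : ℤ) m := fun b hb =>
    Nat.isCoprime_iff_coprime.2 ((ZMod.isUnit_iff_coprime b m).1 hb)
  by_cases h : 11 ∣ m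
  · obtain ⟨n, hn⟩ := h
    have : ∀ b : ℕ, ∃ g : G0, IsUnit (b : ZMod m) → g.a = b ∧ 11 * g.c = m := fun b => by
      by_cases hb : IsUnit (b : ZMod m)
      · obtain ⟨d, β, k⟩ := co b hb
        exact ⟨⟨b, -β, n, d, by rw [hn] at k; push_cast at k; linear_combination k⟩,
          fun _ => ⟨rfl, by simp [hn]⟩⟩
      · exact ⟨G0.T, fun k => (hb k).elim⟩
    choose γ hγ using this
    refine fin h1 h2 1 isUnit_one γ (fun b => (γ b).d) (fun b hb => ?_) fun P κ C δ w hP =>
      ⟨fun y => κ * ((1 / m ^ 2 * y⁻¹ : ℝ) * I), fun b hb => ?_⟩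
    · have := congrArg (Int.cast : ℤ → ZMod m) (γ b).det
      rw [(hγ b hb).1, (hγ b hb).2] at this
      simpa [mul_comm] using this
    have e := congrArg (Int.cast : ℤ → ℂ) (γ b).det
    rw [(hγ b hb).1, (hγ b hb).2] at e
    push_cast at e
    have k := (lim hP (-(γ b).d / m) (k := 1 / m ^ 2) (by positivity)).add_const
      (w (γ b) - κ * (γ b).d / m)
    rw [zero_add] at k
    refine k.congr' (eventually_mem_nhdsWithin.mono fun y (hy : 0 < y) => ?_)
    have y0 : (y : ℂ) ≠ 0 := ofReal_ne_zero.2 hy.ne'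
    have : (b : ℂ) / m + y * I =
        (γ b).mob ((-(γ b).d / m : ℝ) + (1 / m ^ 2 * y⁻¹ : ℝ) * I) := by
      rw [G0.mob, (hγ b hb).1, (hγ b hb).2, eq_div_iff]
      · push_cast
        field_simp
        linear_combination (m * y) * e + (m * y) * I_mul_I
      · push_cast
        field_simp
        simp [m0, y0]
    beta_reduce
    rw [this, hP.mob _ _ (im0 _ (by positivity))]
    push_cast
    ring
  · have h11 : IsCoprime (11 : ℤ) m := by
      exact_mod_cast Nat.isCoprime_iff_coprime.2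
        ((Nat.Prime.coprime_iff_not_dvd (by norm_num)).2 h)
    have : ∀ b : ℕ, ∃ g : G0, IsUnit (b : ZMod m) → g.b = b ∧ g.d = m := fun b => by
      by_cases hb : IsUnit (b : ZMod m)
      · obtain ⟨c, a, k⟩ := h11.mul_left (co b hb)
        exact ⟨⟨a, b, -c, m, by linear_combination k⟩, fun _ => ⟨rfl, rfl⟩⟩
      · exact ⟨G0.T, fun k => (hb k).elim⟩
    choose γ hγ using this
    refine fin h1 h2 (-11) ?_ γ (fun b => (γ b).c) (fun b hb => ?_) fun P κ C δ w hP =>
      ⟨fun y => C - κ * ((1 / (11 * m ^ 2) * y⁻¹ : ℝ) * I), fun b hb => ?_⟩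
    · simpa using ((ZMod.isUnit_iff_coprime 11 m).2
        ((Nat.Prime.coprime_iff_not_dvd (by norm_num)).2 h)).neg
    · have := congrArg (Int.cast : ℤ → ZMod m) (γ b).det
      rw [(hγ b hb).1, (hγ b hb).2] at this
      push_cast at this
      rw [ZMod.natCast_self] at this
      linear_combination this
    have e := congrArg (Int.cast : ℤ → ℂ) (γ b).det
    rw [(hγ b hb).1, (hγ b hb).2] at e
    push_cast at e
    have k := (lim hP ((γ b).c / m) (k := 1 / (11 * m ^ 2)) (by positivity)).const_sub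
      (w (γ b) - κ * (γ b).c / m)
    rw [sub_zero] at k
    refine k.congr' (eventually_mem_nhdsWithin.mono fun y (hy : 0 < y) => ?_)
    have y0 : (y : ℂ) ≠ 0 := ofReal_ne_zero.2 hy.ne'
    have i1 : 0 < ((((γ b).c / m : ℝ) : ℂ) + (1 / (11 * m ^ 2) * y⁻¹ : ℝ) * I).im :=
      im0 _ (by positivity)
    have e1 : (m : ℂ) * (((γ b).c / m : ℝ) + (1 / (11 * m ^ 2) * y⁻¹ : ℝ) * I) - (γ b).c =
        I / (11 * m * y) := by
      push_cast
      field_simp
      ring
    generalize ht : (((γ b).c / m : ℝ) : ℂ) + (1 / (11 * m ^ 2) * y⁻¹ : ℝ) * I = t at i1 e1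
    have t0 : t ≠ 0 := fun k => by simp [k] at i1
    have e2 : (11 * (γ b).c : ℂ) * (-1 / (11 * t)) + m = I / (11 * m * y) / t := by
      rw [← e1]
      field_simp
      ring
    have : (b : ℂ) / m + y * I = (γ b).mob (-1 / (11 * t)) := by
      rw [G0.mob, (hγ b hb).1, (hγ b hb).2]
      push_cast
      rw [e2, eq_div_iff (by simp [m0, y0, t0])]
      rw [eq_div_iff (by simp [m0, y0])] at e1
      field_simp
      linear_combination (-b : ℂ) * e1 + (m * y) * e + (m * y) * I_mul_I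
    beta_reduce
    rw [this, hP.mob, hP.W _ i1, ← ht]
    · push_cast
      ring
    · rw [neg_div, one_div, neg_im, inv_im, neg_div, neg_neg]
      exact div_pos (by simpa using i1) (normSq_pos.2 (mul_ne_zero (by norm_num) t0))

end Vale.Agent.P014Z
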