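import Vale.Agent.P014Z.Ga

/-!
# P014Z: the twisting isomorphism and the Selmer group of the twist
-/

open WeierstrassCurve WeierstrassCurve.Affine
open scoped Classical
open Vale.Agent.P014

namespace Vale.Agent.P014Z

namespace TwiH

variable {D : ℤ} {F : Type} [Field F] [Algebra ℚ F] {s : F}

theorem ne (hD : D ≠ 0) (hs : s ^ 2 = D) : s ≠ 0 := by
  have := algebraRat.charZero F
  rintro rfl
  exact hD (by exact_mod_cast (hs.symm.trans (zero_pow two_ne_zero)))

theorem chg (hD : D ≠ 0) (hs : s ^ 2 = D) :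
    (⟨Units.mk0 s⁻¹ (inv_ne_zero (ne hD hs)), 0, 0, (s⁻¹ ^ 3 - 1) / 2⟩ : VariableChange F) •
      (E0⁄F) = (tw11 D)⁄F := by
  have := algebraRat.charZero F
  have h0 := ne hD hs
  ext <;> simp [variableChange_def, WeierstrassCurve.baseChange, E0, tw11, ← hs] <;> field_simp <;> ring

end TwiH

open TwiH

theorem twi_of (hV : VC) : TWI := fun D hD => by
  choose θ h1 h2 using fun (F : Type) [Field F] [Algebra ℚ F] (s : F) (hs : s ^ 2 = D) =>
    hV F _ _ _ (chg hD hs)
  refine ⟨θ, fun S F F' _ _ _ _ _ _ _ _ _ _ f s hs s' hs' P => ?_⟩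
  rcases P with _ | ⟨x, y, k⟩
  · simp [← Point.zero_def]
  have := algebraRat.charZero F'
  rw [Point.map_some, h2, h2, Point.map_some, Point.neg_some]
  constructor <;> intro h
  · simp [h, map_ofNat]
  · simp only [Point.some.injEq, negY, Units.val_mk0, map_add, map_mul, map_pow, map_inv₀, h,
      map_zero, map_div₀, map_sub, map_one, map_ofNat]
    simp [WeierstrassCurve.baseChange, E0]
    ring

theorem seld_of (hT : TWI) (hS : SEL) : SELD := fun m K _ _ hm hK c h1 h2 h3 h4 => by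
  obtain ⟨θ, hθ⟩ := hT (-m) (by have := hm.gt; omega)
  obtain ⟨s, hs⟩ := IsAlgClosed.exists_pow_nat_eq (-(m : Qb)) two_pos
  have hs' : s ^ 2 = ((-m : ℤ) : Qb) := by simpa using hs
  have ha (σ : GQ) (P) : θ Qb s hs' (act _ σ P) = eps s σ • act E0 σ (θ Qb s hs' P) := by
    have k := hθ ℚ Qb Qb σ s hs' s hs' P
    unfold eps
    split_ifs with h
    · rw [one_smul]
      exact k.1 h
    · rw [neg_smul, one_smul]
      refine k.2 ((sq_eq_sq_iff_eq_or_eq_neg.1 ?_).resolve_left h)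
      rw [← map_pow, hs', map_intCast]
  obtain ⟨R, k1, k2⟩ := hS m K hm hK s hs (fun σ => θ Qb s hs' (c σ))
    (fun σ => by rw [← map_nsmul, h1, map_zero]) (fun σ τ => by rw [h2, map_add, ha])
    (h3.imp fun A h σ k => by simp only [h σ k, map_zero]) fun p _ ι => by
      obtain ⟨P, hP⟩ := h4 p ι
      have hi : ι s ^ 2 = ((-m : ℤ) : Qp p) := by rw [← map_pow, hs', map_intCast]
      refine ⟨θ _ _ hi P, fun τ σ l1 l2 => ?_⟩
      exact ((hθ ℚ _ _ ι s hs' _ hi _).1 rfl).symm.trans ((congrArg _ (hP τ σ l1)).trans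
        ((map_sub _ _ _).trans (congrArg (· - _) ((hθ ℚ_[p] _ _ τ _ hi _ hi _).1
          ((l1 s).symm.trans (congrArg ι l2))))))
  refine ⟨(θ Qb s hs').symm R, by rw [← map_nsmul, k1, map_zero],
    fun σ => (θ Qb s hs').injective ?_⟩
  rw [map_sub, ha, AddEquiv.apply_symm_apply]
  exact k2 σ

end Vale.Agent.P014Z
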