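import Vale.Agent.P014Z.Ga
import Vale.Agent.P014Z.H94

/-!
# P014Z: there is no unramified extension of degree five
-/

open NumberField Module
open scoped Classical
open Vale.Agent.P014

namespace Vale.Agent.P014Z

namespace Ung

theorem mem_pow {K L : Type} [Field K] [NumberField K] [Field L] [NumberField L] [Algebra K L]
    [IsGalois K L] (h5 : finrank K L = 5) (P : Ideal (𝓞 L)) (hP : P.IsMaximal) (g : L ≃ₐ[K] L)
    (hg : ∀ x : 𝓞 L, g • x - x ∈ P) (h1 : g ≠ 1) {n : ℕ} (hn : (n : 𝓞 L) ∈ P) :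
    (n : 𝓞 L) ∈ P ^ 5 := by
  have : Fact (Nat.Prime 5) := ⟨by norm_num⟩
  have hc : Nat.card (L ≃ₐ[K] L) = 5 := (IsGalois.card_aut_eq_finrank K L).trans h5
  have : Fact (Nat.card (L ≃ₐ[K] L)).Prime := hc ▸ this
  have ht : P.inertia (L ≃ₐ[K] L) = ⊤ :=
    (Subgroup.eq_bot_or_eq_top_of_prime_card _).resolve_left fun h =>
      h1 (Subgroup.mem_bot.1 (h ▸ (show g ∈ P.inertia (L ≃ₐ[K] L) from hg)))
  have hp0 : P.under (𝓞 K) ≠ ⊥ := Ring.ne_bot_of_isMaximal_of_not_isField inferInstance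
    (RingOfIntegers.not_isField K)
  have : Finite (𝓞 K ⧸ P.under (𝓞 K)) := Ring.HasFiniteQuotients.finiteQuotient hp0
  have he := Ideal.card_inertia_eq_ramificationIdxIn (G := L ≃ₐ[K] L) (P.under (𝓞 K)) P
  rw [ht, Subgroup.card_top, hc,
    Ideal.ramificationIdxIn_eq_ramificationIdx (P.under (𝓞 K)) P (L ≃ₐ[K] L),
    ← Ideal.ramificationIdx'_eq_ramificationIdx (P.under (𝓞 K)) P hp0] at he
  have h2 : (n : 𝓞 K) ∈ P.under (𝓞 K) := by simpa [Ideal.mem_comap] using hn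
  have h3 := Ideal.le_comap_pow_ramificationIdx' (p := P.under (𝓞 K)) (P := P) h2
  rw [← he, Ideal.mem_comap, map_natCast] at h3
  exact h3

theorem norm_pow {A : Type} [CommRing A] {p : ℕ} [Fact p.Prime] (f : A →+* Qp p) (P : Ideal A)
    {r : ℝ} (hr : 0 ≤ r) (h0 : ∀ x, ‖f x‖ ≤ 1) (h : ∀ x ∈ P, ‖f x‖ ≤ r) (n : ℕ) :
    ∀ x ∈ P ^ n, ‖f x‖ ≤ r ^ n := by
  induction n with
  | zero => exact fun x _ => by simpa using h0 x
  | succ n ih =>
    intro x hx
    rw [pow_succ] at hx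
    refine Submodule.mul_induction_on hx (fun a ha b hb => ?_) fun a b ha hb => ?_
    · rw [map_mul, norm_mul, pow_succ]
      exact mul_le_mul (ih a ha) (h b hb) (norm_nonneg _) (pow_nonneg hr n)
    · rw [map_add]
      exact (IsUltrametricDist.norm_add_le_max (S := PadicAlgCl p) _ _).trans (max_le ha hb)

theorem no_ram {L : Type} [Field L] [NumberField L] {p : ℕ} [hp : Fact p.Prime] (f : L →+* Qp p)
    (P : Ideal (𝓞 L)) (hP : ∀ x : 𝓞 L, x ∈ P ↔ ‖f x‖ < 1)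
    (hv : ∀ x : L, x ≠ 0 → ∃ k : ℤ, ‖f x‖ ^ 2 = (p : ℝ) ^ k) :
    (p : 𝓞 L) ∈ P ∧ (p : 𝓞 L) ∉ P ^ 5 := by
  have h1 : (1 : ℝ) < p := by exact_mod_cast hp.out.one_lt
  have hn : ‖f ((p : 𝓞 L) : L)‖ = (p : ℝ)⁻¹ := by
    rw [← Padic.norm_p, ← PadicAlgCl.norm_extends]
    simp
  refine ⟨(hP _).2 (hn ▸ inv_lt_one_of_one_lt₀ h1), fun h => ?_⟩
  have h2 := norm_pow (f.comp (algebraMap (𝓞 L) L)) P (r := √(p : ℝ)⁻¹) (Real.sqrt_nonneg _)
    (fun x => ?_) (fun x hx => ?_) 5 _ h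
  · have h3 : ((p : ℝ)⁻¹) ^ 2 ≤ (√(p : ℝ)⁻¹ ^ 5) ^ 2 :=
      pow_le_pow_left₀ (by positivity) (hn ▸ h2) 2
    rw [← pow_mul, mul_comm, pow_mul, Real.sq_sqrt (by positivity)] at h3
    exact absurd h3 (not_le.2 (pow_lt_pow_right_of_lt_one₀ (by positivity)
      (inv_lt_one_of_one_lt₀ h1) (by norm_num)))
  · have hi : IsIntegral ℤ (f x) := x.isIntegral_coe.map_of_comp_eq (RingHom.id ℤ) f
      (RingHom.ext_int _ _)
    exact (Valuation.integer.integers (PadicAlgCl.valued p).v).mem_of_integral hi.tower_top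
  · rcases eq_or_ne (x : L) 0 with h0 | h0
    · have : algebraMap (𝓞 L) L x = 0 := h0
      simp [this]
    obtain ⟨k, hk⟩ := hv x h0
    have h4 := (hP x).1 hx
    refine Real.le_sqrt_of_sq_le (hk.trans_le ?_)
    have h5 : k < 0 := by
      rw [← zpow_lt_one_iff_right₀ h1, ← hk]
      exact pow_lt_one₀ (norm_nonneg _) h4 two_ne_zero
    rw [← zpow_neg_one]
    exact zpow_le_zpow_right₀ h1.le (by omega)

end Ung

open Ung IntermediateField

theorem ung_of (hR : RES) (hV : VAL) (hF : FXK) (hC : PLC) : UNG := by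
  intro m K _ _ hm hK s hs α hfin hadd hine σ₀ hσ₀
  by_contra hne
  have : Fact (Nat.Prime 5) := ⟨by norm_num⟩
  obtain ⟨j, hj⟩ := hF m K hm hK s hs
  let _ : Algebra K Qb := j.toRingHom.toAlgebra
  have : IsScalarTower ℚ K Qb := IsScalarTower.of_algebraMap_eq fun x => (j.commutes x).symm
  have : Algebra.IsAlgebraic ℚ Qb := AlgebraicClosure.isAlgebraic ℚ
  have : Algebra.IsAlgebraic K Qb := .tower_top (K := ℚ) K
  have : IsAlgClosure K Qb := ⟨inferInstance, inferInstance⟩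
  have : IsGalois K Qb := {}
  have hfix : ∀ g : Qb ≃ₐ[K] Qb, g.restrictScalars ℚ s = s := fun g => by
    obtain ⟨x, hx⟩ := (hj s).1 fun _ h => h
    rw [← hx]
    exact g.commutes x
  have hon : ∀ σ : GQ, σ s = s → ∃ g : Qb ≃ₐ[K] Qb, g.restrictScalars ℚ = σ := fun σ h =>
    ⟨AlgEquiv.ofRingEquiv (f := σ.toRingEquiv) fun x => (hj _).2 ⟨x, rfl⟩ σ h, rfl⟩
  let φ : (Qb ≃ₐ[K] Qb) →* Multiplicative (ZMod 5) :=
    MonoidHom.mk' (fun g => Multiplicative.ofAdd (α (g.restrictScalars ℚ))) fun a b =>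
      congrArg Multiplicative.ofAdd (hadd _ _ (hfix a) (hfix b))
  obtain ⟨A, hA⟩ := hfin
  have : FiniteDimensional K (adjoin K (A : Set Qb)) :=
    finiteDimensional_adjoin fun x _ => Algebra.IsIntegral.isIntegral x
  have ho : IsOpen (φ.ker : Set (Qb ≃ₐ[K] Qb)) :=
    Subgroup.isOpen_mono (H₁ := (adjoin K (A : Set Qb)).fixingSubgroup) (fun g hg =>
      congrArg Multiplicative.ofAdd (hA _ fun a ha =>
        (mem_fixingSubgroup_iff _ _).1 hg a (subset_adjoin K _ ha))) (fixingSubgroup_isOpen _)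
  have hH : (fixedField φ.ker).fixingSubgroup = φ.ker :=
    InfiniteGalois.fixingSubgroup_fixedField ⟨φ.ker, Subgroup.isClosed_of_isOpen _ ho⟩
  have : IsGalois K (fixedField φ.ker) :=
    (InfiniteGalois.normal_iff_isGalois _).1 (by rw [hH]; infer_instance)
  have h5 : finrank K (fixedField φ.ker) = 5 := by
    have hc : Nat.card (Multiplicative (ZMod 5)) = 5 := by simp
    have : Fact (Nat.card (Multiplicative (ZMod 5))).Prime := ⟨by rw [hc]; norm_num⟩
    obtain ⟨g, rfl⟩ := hon σ₀ hσ₀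
    have ht : φ.range = ⊤ := (Subgroup.eq_bot_or_eq_top_of_prime_card _).resolve_left fun h =>
      hne (Subgroup.mem_bot.1 (h.le (⟨g, rfl⟩ : φ g ∈ φ.range)))
    rw [finrank_eq_fixingSubgroup_index, hH, Subgroup.index_ker, ht, Subgroup.card_top, hc]
  have : FiniteDimensional K (fixedField φ.ker) := FiniteDimensional.of_finrank_pos (by omega)
  have : NumberField (fixedField φ.ker) := NumberField.of_module_finite K _
  refine h94 K (fixedField φ.ker) m hm hK.deg hK.rt h5 hK.cl fun P hP g hg => ?_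
  by_contra h1
  obtain ⟨p, _, ι, hι⟩ := hC (fixedField φ.ker) (fixedField φ.ker).val.toRingHom.toRatAlgHom P hP
  obtain ⟨h2, h3⟩ := no_ram (ι.toRingHom.comp (fixedField φ.ker).val.toRingHom) P hι
    fun x hx => hV p m (ι s) (by rw [← map_pow, hs, map_neg, map_natCast]) _
      ((map_ne_zero _).2 hx) fun τ hτ hτs => by
        obtain ⟨σ, hσ⟩ := hR p ι τ
        have hσs : σ s = s := ι.injective ((hσ s).trans hτs)
        obtain ⟨g', rfl⟩ := hon σ hσs
        exact (hσ x).symm.trans (congrArg ι (x.2 ⟨g',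
          congrArg Multiplicative.ofAdd (hine p ι τ _ hσ hτ hσs)⟩))
  exact h3 (mem_pow h5 P hP g hg h1 h2)

end Vale.Agent.P014Z
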