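import Vale.Agent.P014Z.Ga

/-!
# P014Z, row VAL: the value group of the field fixed by inertia
-/

open Polynomial
open scoped Classical

noncomputable section

namespace Vale.Agent.P014Z

namespace Val

variable {p : ℕ} [hp : Fact p.Prime]

/-- zero and the roots of unity of order prime to `p` -/
def W (p : ℕ) [Fact p.Prime] : Set (Qp p) := {w | ∃ f, 0 < f ∧ w ^ p ^ f = w}

theorem norm_int (a : ℤ_[p]) : ‖algebraMap ℤ_[p] (Qp p) a‖ = ‖a‖ := by
  rw [IsScalarTower.algebraMap_apply ℤ_[p] ℚ_[p] (Qp p)]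
  exact PadicAlgCl.norm_extends p (a : ℚ_[p])

theorem norm_p : ‖(p : Qp p)‖ = (p : ℝ)⁻¹ := by
  rw [← map_natCast (algebraMap ℤ_[p] (Qp p)), norm_int, PadicInt.norm_p]

theorem norm_p_lt : ‖(p : Qp p)‖ < 1 := by
  rw [norm_p]
  exact inv_lt_one_of_one_lt₀ (by exact_mod_cast hp.out.one_lt)

theorem add_lt {a b : Qp p} (ha : ‖a‖ < 1) (hb : ‖b‖ < 1) : ‖a + b‖ < 1 :=
  (IsUltrametricDist.norm_add_le_max a b).trans_lt (max_lt ha hb)

theorem adj_le {s : Set (Qp p)} (hs : ∀ a ∈ s, ‖a‖ ≤ 1) {x : Qp p}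
    (hx : x ∈ Algebra.adjoin ℤ_[p] s) : ‖x‖ ≤ 1 := by
  induction hx using Algebra.adjoin_induction with
  | mem a ha => exact hs a ha
  | algebraMap a => rw [norm_int]; exact a.norm_le_one
  | add a b _ _ ha hb => exact (IsUltrametricDist.norm_add_le_max a b).trans (max_le ha hb)
  | mul a b _ _ ha hb => rw [norm_mul]; exact mul_le_one₀ ha (norm_nonneg _) hb

theorem W_le {w : Qp p} (hw : w ∈ W p) : ‖w‖ ≤ 1 := by
  obtain ⟨f, hf, e⟩ := hw
  by_contra h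
  have := pow_lt_pow_right₀ (not_le.1 h) (Nat.one_lt_pow hf.ne' hp.out.one_lt)
  rw [← norm_pow, ← norm_pow, e, pow_one] at this
  exact this.false

theorem integral {x : Qp p} (hx : ‖x‖ ≤ 1) : IsIntegral ℤ_[p] x := by
  have h0 := minpoly.monic (Algebra.IsIntegral.isIntegral (R := ℚ_[p]) x)
  have h1 := (spectralValue_le_one_iff h0).1 hx
  have h2 : minpoly ℚ_[p] x ∈ lifts (algebraMap ℤ_[p] ℚ_[p]) :=
    (lifts_iff_coeff_lifts _).2 fun n => ⟨⟨_, h1 n⟩, rfl⟩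
  obtain ⟨q, h3, -, h4⟩ := lifts_and_natDegree_eq_and_monic h2 h0
  refine ⟨q, h4, ?_⟩
  rw [← aeval_def, ← aeval_map_algebraMap ℚ_[p], h3, minpoly.aeval]

/-- the residue field is algebraic over the prime field -/
theorem frob_lt {x : Qp p} (hx : ‖x‖ ≤ 1) : ∃ f, 0 < f ∧ ‖x ^ p ^ f - x‖ < 1 := by
  let A := Algebra.adjoin ℤ_[p] {x}
  have hA : ∀ a : A, ‖(a : Qp p)‖ ≤ 1 := fun a => adj_le (by simpa using hx) a.2
  have : Module.Finite ℤ_[p] A := Algebra.finite_adjoin_simple_of_isIntegral (integral hx)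
  have : Finite (ℤ_[p] ⧸ IsLocalRing.maximalIdeal ℤ_[p]) :=
    Finite.of_equiv _ (PadicInt.residueField (p := p)).symm.toEquiv
  have := Submodule.finite_quotient_smul (IsLocalRing.maximalIdeal ℤ_[p]) (N := (⊤ : Submodule ℤ_[p] A))
    Module.Finite.fg_top
  let a : A := ⟨x, Algebra.self_mem_adjoin_singleton _ _⟩
  have h1 : ∀ b ∈ IsLocalRing.maximalIdeal ℤ_[p] • (⊤ : Submodule ℤ_[p] A),
      ‖(b : Qp p)‖ < 1 := fun b hb => by
    refine Submodule.smul_induction_on hb (fun r hr c _ => ?_) fun b c => add_lt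
    rw [Subalgebra.coe_smul, Algebra.smul_def, norm_mul, norm_int]
    exact mul_lt_one_of_nonneg_of_lt_one_left (norm_nonneg _) (PadicInt.mem_nonunits.1 hr) (hA c)
  have key : ∀ i f, (IsLocalRing.maximalIdeal ℤ_[p] • (⊤ : Submodule ℤ_[p] A)).mkQ (a ^ p ^ (i + f)) =
      (IsLocalRing.maximalIdeal ℤ_[p] • (⊤ : Submodule ℤ_[p] A)).mkQ (a ^ p ^ i) →
      ‖x ^ p ^ f - x‖ < 1 := fun i f e => by
    have h2 := h1 _ ((Submodule.Quotient.eq _).1 e)
    obtain ⟨r, hr⟩ := exists_add_pow_prime_pow_eq hp.out (a ^ p ^ f - a) a i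
    rw [sub_add_cancel, ← pow_mul, ← pow_add, add_comm f] at hr
    have h3 : (a ^ p ^ f - a) ^ p ^ i =
        (a ^ p ^ (i + f) - a ^ p ^ i) + p * -((a ^ p ^ f - a) * a * r) := by rw [hr]; ring
    have h4 : ‖(((a ^ p ^ f - a) ^ p ^ i : A) : Qp p)‖ < 1 := by
      rw [h3]
      refine add_lt h2 ?_
      rw [MulMemClass.coe_mul, norm_mul]
      exact mul_lt_one_of_nonneg_of_lt_one_left (norm_nonneg _) norm_p_lt (hA _)
    rw [SubmonoidClass.coe_pow, norm_pow] at h4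
    exact lt_of_not_ge fun h => h4.not_ge (one_le_pow₀ h)
  obtain ⟨i, j, hij, e⟩ := Finite.exists_ne_map_eq_of_infinite fun i : ℕ =>
    (IsLocalRing.maximalIdeal ℤ_[p] • (⊤ : Submodule ℤ_[p] A)).mkQ (a ^ p ^ i)
  rcases hij.lt_or_gt with h | h
  · obtain ⟨f, rfl⟩ := Nat.exists_eq_add_of_lt h
    exact ⟨f + 1, f.succ_pos, key i (f + 1) e.symm⟩
  · obtain ⟨f, rfl⟩ := Nat.exists_eq_add_of_lt h
    exact ⟨f + 1, f.succ_pos, key j (f + 1) e⟩

/-- representatives of the residue classes -/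
theorem exists_rep {x : Qp p} (hx : ‖x‖ ≤ 1) : ∃ w ∈ W p, ‖x - w‖ < 1 := by
  obtain ⟨f, hf, h⟩ := frob_lt hx
  have h0 : (X ^ p ^ f - X : (Qp p)[X]).Monic := monic_X_pow_sub (by
    rw [degree_X]
    exact_mod_cast Nat.one_lt_pow hf.ne' hp.out.one_lt)
  have h1 := (IsAlgClosed.splits (X ^ p ^ f - X : (Qp p)[X])).eval_eq_prod_roots_of_monic h0 x
  by_contra h2
  push Not at h2
  simp only [eval_sub, eval_pow, eval_X] at h1
  rw [h1] at h
  refine h.not_ge (Multiset.prod_induction (fun a => 1 ≤ ‖a‖) _ (fun a b ha hb => ?_) (by simp) ?_)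
  · rw [norm_mul]
    exact one_le_mul_of_one_le_of_one_le ha hb
  · intro a ha
    obtain ⟨w, hw, rfl⟩ := Multiset.mem_map.1 ha
    exact h2 w ⟨f, hf, by simpa [sub_eq_zero] using isRoot_of_mem_roots hw⟩

theorem ine (hI : ISO) {τ : Gp p} (h : ∀ w ∈ W p, τ w = w) : Ine τ := fun x hx => by
  obtain ⟨w, hw, h1⟩ := exists_rep hx
  have : τ x - x = τ (x - w) + -(x - w) := by rw [map_sub, h w hw]; ring
  rw [this]
  exact add_lt (by rwa [hI]) (by rwa [norm_neg])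

theorem pow_iter {M : Type} [Monoid M] {a : M} {q : ℕ} (h : a ^ q = a) (n : ℕ) : a ^ q ^ n = a := by
  induction n with
  | zero => simp
  | succ n ih => rw [pow_succ, pow_mul, ih, h]

/-- the Frobenius congruence in the ring generated by the roots of unity -/
theorem frob_mem (x : Algebra.adjoin ℤ_[p] (W p)) :
    ∃ f, 0 < f ∧ (p : Algebra.adjoin ℤ_[p] (W p)) ∣ x ^ p ^ f - x := by
  let π := Ideal.Quotient.mk (Ideal.span {(p : Algebra.adjoin ℤ_[p] (W p))})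
  have h0 : π p = 0 := Ideal.Quotient.eq_zero_iff_mem.2 (Ideal.mem_span_singleton_self _)
  suffices h : ∃ f, 0 < f ∧ π x ^ p ^ f = π x by
    obtain ⟨f, hf, e⟩ := h
    exact ⟨f, hf, Ideal.mem_span_singleton.1 (Ideal.Quotient.eq.1 ((map_pow π _ _).trans e))⟩
  have two : ∀ a b, (∃ f, 0 < f ∧ π a ^ p ^ f = π a) → (∃ f, 0 < f ∧ π b ^ p ^ f = π b) →
      ∃ f, 0 < f ∧ π a ^ p ^ f = π a ∧ π b ^ p ^ f = π b := by
    rintro a b ⟨f, hf, e⟩ ⟨g, hg, e'⟩
    refine ⟨f * g, mul_pos hf hg, by rw [pow_mul, pow_iter e], ?_⟩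
    rw [mul_comm, pow_mul, pow_iter e']
  obtain ⟨x, hx⟩ := x
  induction hx using Algebra.adjoin_induction with
  | mem a ha =>
    obtain ⟨f, hf, e⟩ := ha
    exact ⟨f, hf, by rw [← map_pow]; exact congrArg π (Subtype.ext e)⟩
  | algebraMap a =>
    have h1 : a ^ p - a ∈ Ideal.span {(p : ℤ_[p])} := by
      rw [← PadicInt.maximalIdeal_eq_span_p, ← PadicInt.ker_toZMod, RingHom.mem_ker, map_sub,
        map_pow, ZMod.pow_card, sub_self]
    obtain ⟨c, hc⟩ := Ideal.mem_span_singleton.1 h1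
    refine ⟨1, one_pos, ?_⟩
    show π (algebraMap ℤ_[p] _ a) ^ p ^ 1 = π (algebraMap ℤ_[p] _ a)
    rw [pow_one, ← map_pow, ← map_pow, sub_eq_iff_eq_add.1 hc, map_add, map_add, map_mul, map_mul,
      map_natCast, h0, zero_mul, zero_add]
  | add a b ha hb iha ihb =>
    obtain ⟨f, hf, e, e'⟩ := two _ _ iha ihb
    obtain ⟨r, hr⟩ := exists_add_pow_prime_pow_eq hp.out (π ⟨a, ha⟩) (π ⟨b, hb⟩) f
    refine ⟨f, hf, ?_⟩
    show π (⟨a, ha⟩ + ⟨b, hb⟩) ^ p ^ f = π (⟨a, ha⟩ + ⟨b, hb⟩)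
    rw [map_add, hr, e, e', ← map_natCast π, h0, zero_mul, zero_mul, zero_mul, add_zero]
  | mul a b ha hb iha ihb =>
    obtain ⟨f, hf, e, e'⟩ := two _ _ iha ihb
    refine ⟨f, hf, ?_⟩
    show π (⟨a, ha⟩ * ⟨b, hb⟩) ^ p ^ f = π (⟨a, ha⟩ * ⟨b, hb⟩)
    rw [map_mul, mul_pow, e, e']

theorem div_p {x : Qp p} (hx : x ∈ Algebra.adjoin ℤ_[p] (W p)) (h : ‖x‖ < 1) :
    ∃ u ∈ Algebra.adjoin ℤ_[p] (W p), ‖u‖ = p * ‖x‖ := by
  obtain ⟨f, hf, u, e⟩ := frob_mem ⟨x, hx⟩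
  have e' : x ^ p ^ f - x = p * (u : Qp p) := congrArg Subtype.val e
  obtain ⟨n, hn⟩ := Nat.exists_eq_add_of_lt (Nat.one_lt_pow hf.ne' hp.out.one_lt)
  have h1 : ‖x ^ (n + 1) + -1‖ = 1 := by
    have h2 : ‖x ^ (n + 1)‖ < ‖(-1 : Qp p)‖ := by
      rw [norm_pow, norm_neg, norm_one]
      exact pow_lt_one₀ (norm_nonneg _) h n.succ_ne_zero
    rw [IsUltrametricDist.norm_add_eq_max_of_norm_ne_norm h2.ne, max_eq_right h2.le, norm_neg,
      norm_one]
  have h3 := congrArg norm e'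
  rw [hn, show x ^ (1 + n + 1) - x = x * (x ^ (n + 1) + -1) by ring, norm_mul, norm_mul, h1,
    mul_one, norm_p] at h3
  refine ⟨u, u.2, ?_⟩
  rw [h3, mul_inv_cancel_left₀ (by exact_mod_cast hp.out.ne_zero)]

theorem val_int {x : Qp p} (hx : x ∈ Algebra.adjoin ℤ_[p] (W p)) (h0 : x ≠ 0) :
    ∃ k : ℤ, ‖x‖ = (p : ℝ) ^ k := by
  have hp1 : (1 : ℝ) < p := by exact_mod_cast hp.out.one_lt
  have key : ∀ n : ℕ, ∀ x ∈ Algebra.adjoin ℤ_[p] (W p), 1 ≤ (p : ℝ) ^ n * ‖x‖ →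
      ∃ k : ℤ, ‖x‖ = (p : ℝ) ^ k := fun n => by
    induction n with
    | zero => exact fun x hx h => ⟨0, le_antisymm (adj_le (fun _ => W_le) hx) (by simpa using h)⟩
    | succ n ih =>
      intro x hx h
      rcases (adj_le (fun _ => W_le) hx).eq_or_lt with h1 | h1
      · exact ⟨0, h1⟩
      · obtain ⟨u, hu, e⟩ := div_p hx h1
        obtain ⟨k, hk⟩ := ih u hu (by rwa [e, ← mul_assoc, ← pow_succ])
        refine ⟨k - 1, ?_⟩
        rw [zpow_sub_one₀ (by positivity), ← hk, e]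
        field_simp
  obtain ⟨n, hn⟩ := pow_unbounded_of_one_lt ‖x‖⁻¹ hp1
  exact key n x hx ((inv_le_iff_one_le_mul₀ (norm_pos_iff.2 h0)).1 hn.le)

/-- elements fixed by the stabilizer of the roots of unity -/
theorem val_fix {x : Qp p} (h0 : x ≠ 0) (hx : ∀ τ : Gp p, (∀ w ∈ W p, τ w = w) → τ x = x) :
    ∃ k : ℤ, ‖x‖ = (p : ℝ) ^ k := by
  have h1 : x ∈ IntermediateField.adjoin ℚ_[p] (W p) := by
    rw [← InfiniteGalois.fixedField_fixingSubgroup (IntermediateField.adjoin ℚ_[p] (W p))]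
    exact fun τ => hx τ fun w hw => τ.2 ⟨w, IntermediateField.subset_adjoin _ _ hw⟩
  have h2 : x ∈ Algebra.adjoin ℚ_[p] (W p) := by
    rw [← IntermediateField.adjoin_toSubalgebra_of_isAlgebraic fun x _ =>
      Algebra.IsAlgebraic.isAlgebraic x]
    exact h1
  obtain ⟨⟨c, hc⟩, h3⟩ := multiple_mem_adjoin_of_mem_localization_adjoin (nonZeroDivisors ℤ_[p])
    ℚ_[p] (W p) x h2
  have hc0 : c ≠ 0 := nonZeroDivisors.ne_zero hc
  have h4 : ‖c • x‖ = ‖c‖ * ‖x‖ := by rw [Algebra.smul_def, norm_mul, norm_int]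
  obtain ⟨k, hk⟩ := val_int (x := c • x) h3 (by
    rw [← norm_pos_iff, h4]
    exact mul_pos (norm_pos_iff.2 hc0) (norm_pos_iff.2 h0))
  have hp0 : (p : ℝ) ≠ 0 := by exact_mod_cast hp.out.ne_zero
  refine ⟨k + c.valuation, ?_⟩
  rw [zpow_add₀ hp0, ← hk, h4, PadicInt.norm_eq_zpow_neg_valuation hc0, zpow_neg]
  field_simp

end Val

/-- the value group of the field fixed by inertia -/
theorem val_of (hI : ISO) : VAL := by
  intro p _ m s hs y h0 hy
  have hpm : ∀ τ : Gp p, τ s ≠ s → τ s = -s := fun τ h =>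
    (sq_eq_sq_iff_eq_or_eq_neg.1 (by rw [← map_pow, hs, map_neg, map_natCast])).resolve_left h
  have h1 : ∀ τ : Gp p, (∀ w ∈ Val.W p, τ w = w) → τ s = s → τ y = y :=
    fun τ h => hy τ (Val.ine hI h)
  by_cases h : ∃ ρ : Gp p, (∀ w ∈ Val.W p, ρ w = w) ∧ ρ s ≠ s
  · obtain ⟨ρ, h2, h3⟩ := h
    have h4 := hpm ρ h3
    have h5 : ∀ w ∈ Val.W p, ρ.symm w = w := fun w hw => ρ.symm_apply_eq.2 (h2 w hw).symm
    have h6 : ρ.symm (-s) = s := ρ.symm_apply_eq.2 h4.symm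
    have h7 := norm_mul y (ρ y)
    rw [hI, ← sq] at h7
    rw [← h7]
    refine Val.val_fix (mul_ne_zero h0 ((map_ne_zero ρ).2 h0)) fun τ hτ => ?_
    rw [map_mul]
    by_cases h8 : τ s = s
    · have := h1 ((ρ.trans τ).trans ρ.symm) (fun w hw => by simp [h2 w hw, hτ w hw, h5 w hw])
        (by simp only [AlgEquiv.trans_apply]; rw [h4, map_neg, h8, h6])
      simp only [AlgEquiv.trans_apply] at this
      rw [h1 τ hτ h8, ρ.symm_apply_eq.1 this]
    · have e1 := h1 (τ.trans ρ.symm) (fun w hw => by simp [hτ w hw, h5 w hw])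
        (by simp only [AlgEquiv.trans_apply]; rw [hpm τ h8, h6])
      have e2 := h1 (ρ.trans τ) (fun w hw => by simp [h2 w hw, hτ w hw])
        (by simp only [AlgEquiv.trans_apply]; rw [h4, map_neg, hpm τ h8, neg_neg])
      simp only [AlgEquiv.trans_apply] at e1 e2
      rw [e2, ρ.symm_apply_eq.1 e1, mul_comm]
  · push Not at h
    obtain ⟨k, hk⟩ := Val.val_fix h0 fun τ hτ => h1 τ hτ (h τ hτ)
    exact ⟨k * 2, by rw [hk, zpow_mul]; rfl⟩

end Vale.Agent.P014Z
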