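import Vale.Agent.P014Z.Ga

/-!
# P014Z: changes of variables induce isomorphisms of the groups of points
-/

open WeierstrassCurve WeierstrassCurve.Affine

namespace Vale.Agent.P014Z

namespace VcH

variable {F : Type} [Field F] {W W' : Affine F} {u r s t : F}

/-- the relations between the coefficients -/
structure Rel (W W' : Affine F) (u r s t : F) : Prop where
  u0 : u ≠ 0
  a1 : W.a₁ = u * W'.a₁ - 2 * s
  a2 : W.a₂ = u ^ 2 * W'.a₂ + s * W.a₁ - 3 * r + s ^ 2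
  a3 : W.a₃ = u ^ 3 * W'.a₃ - r * W.a₁ - 2 * t
  a4 : W.a₄ = u ^ 4 * W'.a₄ + s * W.a₃ - 2 * r * W.a₂ + (t + r * s) * W.a₁ - 3 * r ^ 2 + 2 * s * t
  a6 : W.a₆ = u ^ 6 * W'.a₆ - (r * W.a₄ + r ^ 2 * W.a₂ + r ^ 3 - t * W.a₃ - t ^ 2 - r * t * W.a₁)

namespace Rel

variable (h : Rel W W' u r s t) {x y x₁ x₂ y₁ y₂ l : F}
include h

theorem ns : W.Nonsingular (u ^ 2 * x + r) (u ^ 3 * y + u ^ 2 * s * x + t) ↔ W'.Nonsingular x y := by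
  have e1 : (u ^ 3 * y + u ^ 2 * s * x + t) ^ 2 + W.a₁ * (u ^ 2 * x + r) *
      (u ^ 3 * y + u ^ 2 * s * x + t) + W.a₃ * (u ^ 3 * y + u ^ 2 * s * x + t) -
      ((u ^ 2 * x + r) ^ 3 + W.a₂ * (u ^ 2 * x + r) ^ 2 + W.a₄ * (u ^ 2 * x + r) + W.a₆) =
      u ^ 6 * (y ^ 2 + W'.a₁ * x * y + W'.a₃ * y - (x ^ 3 + W'.a₂ * x ^ 2 + W'.a₄ * x + W'.a₆)) := by
    rw [h.a6, h.a4, h.a2, h.a3, h.a1]
    ring
  have e2 : 2 * (u ^ 3 * y + u ^ 2 * s * x + t) + W.a₁ * (u ^ 2 * x + r) + W.a₃ =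
      u ^ 3 * (2 * y + W'.a₁ * x + W'.a₃) := by
    rw [h.a3, h.a1]
    ring
  have e3 : W.a₁ * (u ^ 3 * y + u ^ 2 * s * x + t) -
      (3 * (u ^ 2 * x + r) ^ 2 + 2 * W.a₂ * (u ^ 2 * x + r) + W.a₄) =
      u ^ 4 * (W'.a₁ * y - (3 * x ^ 2 + 2 * W'.a₂ * x + W'.a₄)) -
        s * u ^ 3 * (2 * y + W'.a₁ * x + W'.a₃) := by
    rw [h.a4, h.a2, h.a3, h.a1]
    ring
  rw [nonsingular_iff', nonsingular_iff', equation_iff', equation_iff', e1, e2, e3,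
    mul_eq_zero_iff_left (pow_ne_zero _ h.u0)]
  by_cases k : 2 * y + W'.a₁ * x + W'.a₃ = 0 <;> simp [k, h.u0]

theorem negY : W.negY (u ^ 2 * x + r) (u ^ 3 * y + u ^ 2 * s * x + t) =
    u ^ 3 * W'.negY x y + u ^ 2 * s * x + t := by
  rw [Affine.negY, Affine.negY, h.a3, h.a1]
  ring

theorem addX : W.addX (u ^ 2 * x₁ + r) (u ^ 2 * x₂ + r) (u * l + s) =
    u ^ 2 * W'.addX x₁ x₂ l + r := by
  rw [Affine.addX, Affine.addX, h.a2, h.a1]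
  ring

theorem addY : W.addY (u ^ 2 * x₁ + r) (u ^ 2 * x₂ + r) (u ^ 3 * y₁ + u ^ 2 * s * x₁ + t)
    (u * l + s) = u ^ 3 * W'.addY x₁ x₂ y₁ l + u ^ 2 * s * W'.addX x₁ x₂ l + t := by
  rw [Affine.addY, Affine.addY, ← h.negY, negAddY, negAddY, h.addX]
  congr 1
  ring

theorem cond : (u ^ 2 * x₁ + r = u ^ 2 * x₂ + r ∧ u ^ 3 * y₁ + u ^ 2 * s * x₁ + t =
    W.negY (u ^ 2 * x₂ + r) (u ^ 3 * y₂ + u ^ 2 * s * x₂ + t)) ↔ x₁ = x₂ ∧ y₁ = W'.negY x₂ y₂ := by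
  rw [h.negY, add_left_inj, mul_right_inj' (pow_ne_zero _ h.u0)]
  exact and_congr_right fun k => by
    rw [k, add_left_inj, add_left_inj, mul_right_inj' (pow_ne_zero _ h.u0)]

variable [DecidableEq F]

theorem slope (h₁ : W'.Equation x₁ y₁) (h₂ : W'.Equation x₂ y₂)
    (k : ¬(x₁ = x₂ ∧ y₁ = W'.negY x₂ y₂)) :
    W.slope (u ^ 2 * x₁ + r) (u ^ 2 * x₂ + r) (u ^ 3 * y₁ + u ^ 2 * s * x₁ + t)
      (u ^ 3 * y₂ + u ^ 2 * s * x₂ + t) = u * W'.slope x₁ x₂ y₁ y₂ + s := by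
  have h0 := h.u0
  by_cases hx : x₁ = x₂
  · have hy : y₁ ≠ W'.negY x₂ y₂ := fun a => k ⟨hx, a⟩
    rw [slope_of_Y_ne hx hy, slope_of_Y_ne (by rw [hx]) fun a => k (h.cond.1 ⟨by rw [hx], a⟩),
      h.negY, h.a4, h.a2, h.a3, h.a1]
    rw [← Y_eq_of_Y_ne h₁ h₂ hx hy, ← hx, ← sub_ne_zero] at hy
    rw [div_eq_iff (by
      rw [add_sub_add_right_eq_sub, add_sub_add_right_eq_sub, ← mul_sub]
      exact mul_ne_zero (pow_ne_zero _ h0) hy)]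
    field_simp
    rw [Affine.negY]
    ring
  · have hx' : u ^ 2 * x₁ + r ≠ u ^ 2 * x₂ + r := by simpa [h0] using hx
    rw [slope_of_X_ne hx, slope_of_X_ne hx', div_eq_iff (sub_ne_zero.2 hx')]
    have := sub_ne_zero.2 hx
    field_simp
    ring

/-- the homomorphism -/
def hom : W'.Point →+ W.Point where
  toFun P := match P with
    | 0 => 0
    | .some _ _ k => .some _ _ (h.ns.2 k)
  map_zero' := rfl
  map_add' := by
    rintro (_ | ⟨x₁, y₁, h₁⟩) (_ | ⟨x₂, y₂, h₂⟩)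
    any_goals rfl
    by_cases k : x₁ = x₂ ∧ y₁ = W'.negY x₂ y₂
    · rw [Point.add_of_Y_eq k.1 k.2, Point.add_of_Y_eq (h.cond.2 k).1 (h.cond.2 k).2]
    · rw [Point.add_some k, Point.add_some (mt h.cond.1 k)]
      simp only [h.slope h₁.1 h₂.1 k, h.addX, h.addY]

theorem bij : Function.Bijective h.hom := by
  refine ⟨(injective_iff_map_eq_zero _).2 ?_, ?_⟩
  · rintro (_ | ⟨x, y, k⟩) a
    exacts [rfl, absurd a (Point.some_ne_zero _)]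
  · rintro (_ | ⟨x, y, k⟩)
    · exact ⟨0, rfl⟩
    have h0 := h.u0
    obtain ⟨x, rfl⟩ : ∃ z, x = u ^ 2 * z + r := ⟨(x - r) / u ^ 2, by field_simp; ring⟩
    obtain ⟨y, rfl⟩ : ∃ z, y = u ^ 3 * z + u ^ 2 * s * x + t :=
      ⟨(y - u ^ 2 * s * x - t) / u ^ 3, by field_simp; ring⟩
    exact ⟨.some _ _ (h.ns.1 k), rfl⟩

end Rel

theorem rel (W : WeierstrassCurve F) (C : VariableChange F) :
    Rel W.toAffine (C • W).toAffine C.u C.r C.s C.t := by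
  have h0 := C.u.ne_zero
  refine ⟨h0, ?_, ?_, ?_, ?_, ?_⟩ <;>
    simp only [variableChange_def, Units.val_inv_eq_inv_val] <;> field_simp <;> ring

end VcH

theorem vc : VC := fun _ _ _ W _ C h => by
  subst h
  exact ⟨.ofBijective _ (VcH.rel W C).bij, fun _ _ k => ⟨(VcH.rel W C).ns.2 k, rfl⟩⟩

end Vale.Agent.P014Z
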