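import Vale.Agent.P014Z.Top
import Vale.Agent.P014Z.Anf
import Vale.Agent.P014Z.Lv
import Vale.Agent.P014Z.Abe
import Vale.Agent.P014Z.Cnf
import Vale.Agent.P014Z.Div
import Vale.Agent.P014Z.Fin
import Vale.Agent.P014Z.H90
import Vale.Agent.P014Z.Hom
import Vale.Agent.P014Z.Kum
import Vale.Agent.P014Z.Lat1
import Vale.Agent.P014Z.Lat2
import Vale.Agent.P014Z.Loc
import Vale.Agent.P014Z.Mel
import Vale.Agent.P014Z.Num
import Vale.Agent.P014Z.P5
import Vale.Agent.P014Z.Plc
import Vale.Agent.P014Z.Prf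
import Vale.Agent.P014Z.Red
import Vale.Agent.P014Z.Sel
import Vale.Agent.P014Z.Sha
import Vale.Agent.P014Z.T5
import Vale.Agent.P014Z.Tam0
import Vale.Agent.P014Z.Tam1
import Vale.Agent.P014Z.Tw
import Vale.Agent.P014Z.Twi
import Vale.Agent.P014Z.Ung
import Vale.Agent.P014Z.Val
import Vale.Agent.P014Z.Vc

/-!
# P014Z: all statements
-/

namespace Vale.Agent.P014Z

theorem lv : LV := lv_of ph (lat1_of prf) lat2 num

theorem sel : SEL := sel_of (t5_of p5) (red_of iso) (u11_of h90 res iso (val_of iso) ns)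
  (ung_of res (val_of iso) fxk plc) (kum_of h90 res iso (val_of iso) ns fxk (fif_of plc))

theorem seld : SELD := seld_of (twi_of vc) sel

theorem sha : SHA := sha_of (div_of vc) gd

theorem anf_of' (hL : LF) (hR : RP) : ANF :=
  anf_of prf pre ph hom lv gau tw (abe_of gau) (mel_of hL) hR (cnf_of gau)

end Vale.Agent.P014Z
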