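import Vale.Agent.P017.H185.QF

/-!
# P014Z: the ring of integers of `ℚ(√-m)` and the residue of its zeta function
-/

open NumberField NumberField.Units NumberField.InfinitePlace Module
open Vale.Agent.P017.H185 (QF)
open scoped Real

noncomputable section

namespace Vale.Agent.P014Z.Cnf

variable {K : Type} [Field K] [NumberField K] {m : ℕ}

theorem bij (hm : 0 < m) (hK : finrank ℚ K = 2) (s : {u : K // u * u = (-(m : ℚ)) • 1 + (0 : ℚ) • u}) :
    Function.Bijective (QuadraticAlgebra.lift s) := by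
  have h1 : Function.Injective (QuadraticAlgebra.lift s) := by
    refine (injective_iff_map_eq_zero _).2 fun z hz => ?_
    have h2 := congrArg (QuadraticAlgebra.lift s) (QuadraticAlgebra.algebraMap_norm_eq_mul_star z)
    rw [map_mul, hz, zero_mul, AlgHom.commutes, map_eq_zero, QuadraticAlgebra.norm_def] at h2
    have h3 : (0 : ℚ) < m := by exact_mod_cast hm
    have h4 : z.im = 0 := by
      by_contra c
      nlinarith [sq_nonneg z.re, mul_pos h3 (sq_pos_of_ne_zero c)]
    have h5 : z.re = 0 := by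
      rw [h4] at h2
      simpa using h2
    ext <;> simp [h4, h5]
  exact ⟨h1, (LinearMap.injective_iff_surjective_of_finrank_eq_finrank
    (f := (QuadraticAlgebra.lift s).toLinearMap)
    ((QuadraticAlgebra.finrank_eq_two _ _).trans hK.symm)).1 h1⟩

theorem qf (hm : Squarefree m) (hK : finrank ℚ K = 2) {s : K} (hs : s ^ 2 = -(m : K)) :
    Nonempty (QF K m) := by
  have h0 := Nat.pos_of_ne_zero hm.ne_zero
  have h1 : s * s = (-(m : ℚ)) • (1 : K) + (0 : ℚ) • s := by
    rw [← sq, hs]; simp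
  have h2 : -s * -s = (-(m : ℚ)) • (1 : K) + (0 : ℚ) • -s := by
    rw [neg_mul_neg, ← sq, hs]; simp
  let e := AlgEquiv.ofBijective _ (bij h0 hK ⟨s, h1⟩)
  let e' := AlgEquiv.ofBijective _ (bij h0 hK ⟨-s, h2⟩)
  have h3 : e QuadraticAlgebra.omega = s := by simp [e]
  refine ⟨⟨s, hs, hm, e.symm.trans e', ?_, fun z => ?_⟩⟩
  · rw [AlgEquiv.trans_apply, ← h3, e.symm_apply_apply, h3]
    simp [e']
  · obtain ⟨w, rfl⟩ := e.surjective z
    exact ⟨w.re, w.im, by simp [e, Rat.smul_def]⟩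

/-- the order generated by a root of `X ^ 2 - X + c` -/
abbrev Q (c : ℕ) : Type := QuadraticAlgebra ℤ (-(c : ℤ)) 1

theorem iso {c : ℕ} (hc : m + 1 = 4 * c) (q : QF K m) : Nonempty (Q c ≃ₐ[ℤ] 𝓞 K) := by
  have hc' : (m : ℤ) + 1 = 4 * c := by exact_mod_cast hc
  have hcK : (m : K) + 1 = 4 * c := by exact_mod_cast hc
  obtain ⟨w, hw, h1⟩ := q.of_coords (a := 1) (b := 1) ⟨c, by linear_combination hc'⟩
  let ω : 𝓞 K := ⟨w, hw⟩
  have hω : algebraMap (𝓞 K) K ω = w := rfl
  have h2 : ω * ω = (-(c : ℤ)) • (1 : 𝓞 K) + (1 : ℤ) • ω := by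
    refine RingOfIntegers.ext ?_
    change algebraMap (𝓞 K) K _ = algebraMap (𝓞 K) K _
    simp only [map_mul, map_add, hω, zsmul_eq_mul, map_one, map_intCast]
    push_cast at h1 ⊢
    linear_combination (1 / 4 : K) * q.hθ - (1 / 4 : K) * hcK +
      (1 / 4 : K) * (2 * w - 1 + q.θ) * h1
  have h3 : ∀ z : Q c, algebraMap (𝓞 K) K (QuadraticAlgebra.lift ⟨ω, h2⟩ z) = z.re + z.im * w := by
    intro z
    simp [hω]
  refine ⟨AlgEquiv.ofBijective (QuadraticAlgebra.lift ⟨ω, h2⟩)
    ⟨(injective_iff_map_eq_zero _).2 fun z hz => ?_, fun z => ?_⟩⟩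
  · have h4 := h3 z
    rw [hz, map_zero] at h4
    obtain ⟨k1, k2⟩ := q.uniq (u := 2 * z.re + z.im) (v := z.im) (by
      push_cast at h1 ⊢
      linear_combination (-2 : K) * h4 - z.im * h1)
    have k3 : z.im = 0 := by exact_mod_cast k2
    have k4 : z.re = 0 := by
      rw [k2] at k1
      exact_mod_cast (by linarith : (z.re : ℚ) = 0)
    ext <;> simp [k3, k4]
  · obtain ⟨a, b, k1, k, k2⟩ := q.int_coords (RingOfIntegers.isIntegral_coe z)
    have k3 : Even (a - b) := by
      have k4 : Even ((a - b) * (a + b)) := ⟨2 * (k - c * b ^ 2), by linear_combination k2 - b ^ 2 * hc'⟩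
      rcases Int.even_mul.1 k4 with h | h
      · exact h
      · rw [Int.even_add] at h
        exact Int.even_sub.2 h
    obtain ⟨x, hx⟩ := k3
    refine ⟨⟨x, b⟩, RingOfIntegers.ext ?_⟩
    have hx' : (a : K) - b = x + x := by exact_mod_cast hx
    refine (h3 _).trans ?_
    push_cast at h1 ⊢
    change _ = algebraMap (𝓞 K) K z
    linear_combination (-1 / 2 : K) * k1 - (1 / 2 : K) * hx' + (1 / 2 : K) * b * h1

variable {c : ℕ}

theorem re1 : (1 : Q c).re = 1 := rfl

theorem im1 : (1 : Q c).im = 0 := rfl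

theorem bas0 : QuadraticAlgebra.basis (-(c : ℤ)) 1 0 = 1 :=
  (QuadraticAlgebra.basis _ _).repr.injective (by
    ext i; fin_cases i <;> simp [QuadraticAlgebra.basis_repr_apply, re1, im1])

theorem bas1 : QuadraticAlgebra.basis (-(c : ℤ)) 1 1 = QuadraticAlgebra.omega :=
  (QuadraticAlgebra.basis _ _).repr.injective (by
    ext i; fin_cases i <;> simp [QuadraticAlgebra.basis_repr_apply])

theorem trQ (z : Q c) : Algebra.trace ℤ (Q c) z = 2 * z.re + z.im := by
  rw [Algebra.trace_eq_matrix_trace (QuadraticAlgebra.basis _ _), Matrix.trace_fin_two,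
    Algebra.leftMulMatrix_eq_repr_mul, Algebra.leftMulMatrix_eq_repr_mul]
  rw [bas0, bas1]
  simp [QuadraticAlgebra.basis_repr_apply]
  ring

theorem disc (e : Q c ≃ₐ[ℤ] 𝓞 K) : discr K = 1 - 4 * c := by
  rw [← discr_eq_discr K ((QuadraticAlgebra.basis _ _).map e.toLinearEquiv),
    Basis.coe_map, show (e.toLinearEquiv : Q c → 𝓞 K) = e from rfl,
    ← Algebra.discr_eq_discr_of_algEquiv, Algebra.discr_def, Matrix.det_fin_two]
  simp only [Algebra.traceMatrix_apply, Algebra.traceForm_apply, bas0, bas1, trQ]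
  simp [re1, im1]
  ring

theorem tors (hc : 2 ≤ c) (e : Q c ≃ₐ[ℤ] 𝓞 K) : torsionOrder K = 2 := by
  classical
  let := Fintype.ofFinite (torsion K)
  rw [torsionOrder, Nat.card_eq_fintype_card]
  refine Finset.card_eq_two.2 ⟨1, ⟨-1, neg_one_mem_torsion⟩,
    by simp [← Subtype.coe_ne_coe], Finset.ext fun x => ⟨fun _ => ?_, fun _ => Finset.mem_univ _⟩⟩
  rw [Finset.mem_insert, Finset.mem_singleton, ← Subtype.val_inj, ← Subtype.val_inj,
    ← Units.val_inj, ← Units.val_inj]
  obtain ⟨z, hz⟩ := e.surjective (x.1 : 𝓞 K)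
  have h1 : IsUnit z := by simpa [← hz] using x.1.isUnit.map e.symm
  have h2 := Int.isUnit_iff.1 (QuadraticAlgebra.isUnit_iff_norm_isUnit.1 h1)
  rw [QuadraticAlgebra.norm_def] at h2
  have hc' : (2 : ℤ) ≤ c := by exact_mod_cast hc
  have h3 : z.im = 0 := by
    by_contra k
    have k1 : 1 ≤ z.im ^ 2 := sq_pos_of_ne_zero k
    rcases h2 with h | h <;> nlinarith [sq_nonneg (2 * z.re + z.im)]
  rw [h3] at h2
  have h4 : z.re = 1 ∨ z.re = -1 := by
    rcases h2 with h | h
    · exact mul_self_eq_one_iff.1 (by linarith)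
    · nlinarith [sq_nonneg z.re]
  rw [← hz]
  refine h4.imp (fun h => ?_) fun h => ?_
  · rw [show z = 1 by ext <;> simp [h, h3, re1, im1]]
    simp
  · rw [show z = -1 by ext <;> simp [h, h3, re1, im1]]
    simp

theorem det0 {ι : Type} [IsEmpty ι] {_ : DecidableEq ι} {_ : Fintype ι} (M : Matrix ι ι ℝ) :
    |M.det| = 1 := by
  rw [Matrix.det_isEmpty, abs_one]

theorem resid (h3 : 3 < m) (hc : m + 1 = 4 * c) (hK : finrank ℚ K = 2) {s : K}
    (hs : s ^ 2 = -(m : K)) (e : Q c ≃ₐ[ℤ] 𝓞 K) :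
    dedekindZeta_residue K = π * classNumber K / √m := by
  classical
  have h0 : nrRealPlaces K = 0 := Fintype.card_eq_zero_iff.2 ⟨fun w => by
    have k := congrArg (embedding_of_isReal w.2) hs
    rw [map_pow, map_neg, map_natCast] at k
    have : (3 : ℝ) < m := by exact_mod_cast h3
    nlinarith [sq_nonneg (embedding_of_isReal w.2 s)]⟩
  have h1 := card_add_two_mul_card_eq_rank K
  have h2 := card_eq_nrRealPlaces_add_nrComplexPlaces K
  have h4 : nrComplexPlaces K = 1 := by omega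
  have h5 : Subsingleton (InfinitePlace K) := Fintype.card_le_one_iff_subsingleton.1 (by omega)
  have h6 : regulator K = 1 := by
    have : IsEmpty {w : InfinitePlace K // w ≠ dirichletUnitTheorem.w₀} :=
      ⟨fun w => w.2 (Subsingleton.elim _ _)⟩
    exact (regulator_eq_det' K).trans (det0 _)
  have h7 : |((discr K : ℤ) : ℝ)| = m := by
    have k : (m : ℝ) + 1 = 4 * c := by exact_mod_cast hc
    have k2 : ((discr K : ℤ) : ℝ) = -m := by
      rw [disc e]
      push_cast
      linarith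
    rw [k2, abs_neg, Nat.abs_cast]
  rw [dedekindZeta_residue_def, h0, h4, h6, tors (by omega) e, h7]
  push_cast
  ring

end Vale.Agent.P014Z.Cnf
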