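import Vale.Agent.P014Z.Ga

/-!
# P014Z: the final assembly
-/

open WeierstrassCurve
open Vale.Agent.P014

namespace Vale.Agent.P014Z

theorem tw11_disc {D : ℤ} (h : D ≠ 0) : (tw11 D).Δ ≠ 0 := by
  have e : (tw11 D).Δ = -11 ^ 5 * (D : ℚ) ^ 6 := by
    simp only [tw11, Δ, b₂, b₄, b₆, b₈]
    ring
  have : (D : ℚ) ≠ 0 := by exact_mod_cast h
  rw [e]
  exact mul_ne_zero (by norm_num) (pow_ne_zero _ this)

theorem top_of (hA : ANF) (hL : LF) (hM : MIN) (hS : SELD) (hSh : SHA) (hF : FIN) (h0 : TAM0)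
    (h1 : TAM1) (m : ℕ) (K : Type) [Field K] [NumberField K] (ok : Ok m) (qf : Qf m K) :
    GlobalMinimal (tw11 (-m)) ∧ Finite (tw11 (-m)).toAffine.Point ∧
      Nat.card (shaPrimary (tw11 (-m)) 5) = 1 ∧
      (Function.mulSupport fun p : Nat.Primes =>
        haveI : Fact (p : ℕ).Prime := ⟨p.2⟩; tamagawa (tw11 (-m)) p).Finite ∧
      (∃ L, IsHasseWeil (tw11 (-m)) L) ∧
      ∀ L, IsHasseWeil (tw11 (-m)) L → L 1 ≠ 0 ∧ PPartRankZero (tw11 (-m)) L 5 := by
  have hm : 0 < m := by have := ok.gt; omega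
  have hD : (-(m : ℤ)) ≠ 0 := by omega
  have hΔ := tw11_disc hD
  have p5 : Nat.Prime 5 := by norm_num
  obtain ⟨s1, s2⟩ := hSh _ hΔ 5 p5 (hS m K ok qf)
  obtain ⟨f1, f2⟩ := hF _ hΔ 5 p5 s2
  have fin : (Function.mulSupport fun p : Nat.Primes =>
      haveI : Fact (p : ℕ).Prime := ⟨p.2⟩; tamagawa (tw11 (-m)) p).Finite := by
    refine ((Set.finite_Iic m).preimage Subtype.val_injective.injOn).subset fun p hp => ?_
    have : Fact (p : ℕ).Prime := ⟨p.2⟩
    by_contra hc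
    exact hp (h0 m ok p fun hd => hc (Nat.le_of_dvd hm hd))
  have t5 : ¬ 5 ∣ tamagawaProduct (tw11 (-m)) := by
    unfold tamagawaProduct
    refine finprod_induction (fun n => ¬ 5 ∣ n) (by norm_num) (fun a b ha hb h => ?_) fun p => ?_
    · exact (p5.dvd_mul.1 h).elim ha hb
    · have : Fact (p : ℕ).Prime := ⟨p.2⟩
      by_cases hd : (p : ℕ) ∣ m
      · exact h1 m ok p hd
      · rw [h0 m ok p hd]; norm_num
  refine ⟨hM _ ?_ ?_, f1, s1, fin, (hL m ok.sf ok.m4).2, fun L hL' => ?_⟩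
  · exact (Int.squarefree_natCast.2 ok.sf).squarefree_of_dvd (neg_dvd.2 dvd_rfl)
  · have := ok.m4; omega
  obtain ⟨N, n5, hΩ, hN⟩ := hA m K ok qf L hL'
  have N0 : N ≠ 0 := fun h => n5 (h ▸ dvd_zero _)
  have c0 : tamagawaProduct (tw11 (-m)) ≠ 0 := fun h => t5 (h ▸ dvd_zero _)
  have t0 : torsionOrder (tw11 (-m)) ≠ 0 := fun h => f2 (h ▸ dvd_zero _)
  have : Fact (Nat.Prime 5) := ⟨p5⟩
  refine ⟨?_, (N * (torsionOrder (tw11 (-m)) : ℚ) ^ 2) / (2 * tamagawaProduct (tw11 (-m))),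
    by positivity, ?_, ?_⟩
  · rw [hN]
    refine mul_ne_zero (div_ne_zero (by exact_mod_cast N0) two_ne_zero) ?_
    exact_mod_cast hΩ.ne'
  · have a1 : padicValRat 5 (N : ℚ) = 0 := by
      rw [padicValRat.of_int, padicValInt.eq_zero_of_not_dvd (by exact_mod_cast n5)]; rfl
    have a2 : ∀ n : ℕ, ¬ 5 ∣ n → padicValRat 5 (n : ℚ) = 0 := fun n hn => by
      rw [padicValRat.of_nat, padicValNat.eq_zero_of_not_dvd hn]; rfl
    have a3 : padicValRat 5 (2 : ℚ) = 0 := a2 2 (by norm_num)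
    rw [padicValRat.div (by positivity) (by positivity), padicValRat.mul (by positivity)
      (by positivity), padicValRat.mul (by positivity) (by positivity),
      padicValRat.pow, a1, a2 _ f2, a2 _ t5, a3]
    simp
  · rw [hN, s1]
    have b1 : (tamagawaProduct (tw11 (-m)) : ℂ) ≠ 0 := by exact_mod_cast c0
    have b2 : (torsionOrder (tw11 (-m)) : ℂ) ≠ 0 := by exact_mod_cast t0
    push_cast
    field_simp

end Vale.Agent.P014Z
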