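import Vale.Agent.P014Z.Mel
import Vale.Agent.P014Z.Top
import Vale.Agent.P014.H687.LFinv

/-!
# P014Z: the `L`-function of the twist
-/

open WeierstrassCurve
open P004G P004G.ML
open Vale.Agent.P004H

namespace Vale.Agent.P014Z

theorem lf2 : LF := by
  intro m hs h4
  have hD := Mel.fund hs h4
  have h0 : (-(m : ℤ)) ≠ 0 := by omega
  have e : ∀ n, (tw11 (-m)).LFunction n = H742.LT (-(m : ℤ)) n := fun n => by
    let C : VariableChange ℚ := ⟨Units.mk0 (1 / 6) (by norm_num), (-(m : ℤ) : ℤ) / 3, 0, -1 / 2⟩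
    have e1 : C • tw11 (-m) = Ec (-13392 * (-(m : ℤ)) ^ 2) (-1080432 * (-(m : ℤ)) ^ 3) := by
      ext <;> simp only [variableChange_def, C, tw11, Ec, Units.val_inv_eq_inv_val, Units.val_mk0] <;>
        push_cast <;> ring
    rw [← Vale.Agent.P014.H687.LFunction_smul _ (tw11_disc h0) C, e1]
    rfl
  have hA : LD (H742.LT (-(m : ℤ))) :=
    (H742.allMLG (-13392) (-1080432) (by norm_num) _ hD).1 (H742.baseKF.hasse _ hD)
  have hF := H871.feq hD (H742.r7F _ hD)
  refine ⟨fun n => by rw [e, Mel.coef hs h4], _, (Rk.isL_PhiA hA hF).1, fun s hs' => ?_⟩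
  have h1 : Rk.PhiA _ s * Rk.hf s = _ := (Rk.isL_PhiA hA hF).2 s hs'
  rw [h1]
  refine ((Rk.summable_dirC hA hs').hasSum).congr_fun fun n => ?_
  rw [LSeries.term_def]
  split_ifs with hn
  · rw [hn, hA.zero]
    simp
  · rw [e]

end Vale.Agent.P014Z
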