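import Vale.Agent.P014Z.An

/-!
# P014Z: minimality of the equation and the real period of the twist
-/

open MeasureTheory WeierstrassCurve
open Vale.Agent.P014

namespace Vale.Agent.P014Z

namespace Min2A

theorem disc (D : ℤ) : (tw11 D).Δ = ((-11 ^ 5 * D ^ 6 : ℤ) : ℚ) := by
  simp only [tw11, Δ, b₂, b₄, b₆, b₈]
  push_cast
  ring

theorem no12 {D : ℤ} (hD : Squarefree D) {a : ℤ} (h : a ^ 12 ∣ -11 ^ 5 * D ^ 6) : IsUnit a := by
  by_contra ha
  have ha0 : a ≠ 0 := by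
    rintro rfl
    have h0 := hD.ne_zero
    rw [zero_pow (by norm_num), zero_dvd_iff] at h
    exact mul_ne_zero (by norm_num) (pow_ne_zero 6 h0) h
  obtain ⟨p, hp, hpa⟩ := WfDvdMonoid.exists_irreducible_factor ha ha0
  have hp' := hp.prime
  have h1 : p ^ 12 ∣ -11 ^ 5 * D ^ 6 := (pow_dvd_pow_of_dvd hpa 12).trans h
  have key : ¬ p ^ 6 ∣ -11 ^ 5 := by
    intro k
    rw [dvd_neg] at k
    have k1 : p ∣ 11 := hp'.dvd_of_dvd_pow ((dvd_pow_self p (by norm_num)).trans k)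
    have k2 : (11 : ℤ) ∣ p :=
      ((hp.associated_of_dvd (Int.prime_ofNat_iff.2 (by norm_num)).irreducible k1).symm).dvd
    have k3 := (pow_dvd_pow_of_dvd k2 6).trans k
    norm_num at k3
  by_cases hd : p ∣ D
  · obtain ⟨E, rfl⟩ := hd
    have hE : ¬ p ∣ E := fun k => hp.not_isUnit (hD p (mul_dvd_mul_left p k))
    rw [show -11 ^ 5 * (p * E) ^ 6 = p ^ 6 * (-11 ^ 5 * E ^ 6) by ring,
      show p ^ 12 = p ^ 6 * p ^ 6 by ring, mul_dvd_mul_iff_left (pow_ne_zero 6 hp.ne_zero)] at h1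
    exact key (hp'.pow_dvd_of_dvd_mul_right 6 (fun k => hE (hp'.dvd_of_dvd_pow k)) h1)
  · exact key ((pow_dvd_pow p (by norm_num)).trans
      (hp'.pow_dvd_of_dvd_mul_right 12 (fun k => hd (hp'.dvd_of_dvd_pow k)) h1))

end Min2A

open Min2A

/-- **MIN** -/
theorem min2 : MIN := by
  intro D hD h4
  obtain ⟨k, hk⟩ : ∃ k : ℤ, -79 * D ^ 3 - 1 = 4 * k := by
    obtain ⟨j, rfl⟩ : ∃ j, D = 4 * j + 1 := ⟨D / 4, by omega⟩
    exact ⟨-79 * (16 * j ^ 3 + 12 * j ^ 2 + 3 * j) - 20, by ring⟩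
  refine ⟨⟨⟨0, -D, 1, -10 * D ^ 2, k⟩, ?_⟩, fun C hC => ?_⟩
  · have hk' : (-79 * (D : ℚ) ^ 3 - 1) / 4 = k := by
      rw [div_eq_iff (by norm_num)]
      exact_mod_cast hk.trans (mul_comm _ _)
    ext <;> simp [tw11, baseChange, ← hk']
  · obtain ⟨W, hW⟩ := hC
    have e1 : (C • tw11 D).Δ = (W.Δ : ℚ) := by rw [hW]; simp [baseChange]
    have e2 := variableChange_Δ (tw11 D) C
    obtain ⟨u, hu⟩ : ∃ u : ℚ, u = C.u := ⟨_, rfl⟩
    have u0 : u ≠ 0 := hu ▸ C.u.ne_zero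
    rw [Units.val_inv_eq_inv_val, ← hu] at e2
    have e3 : (W.Δ : ℚ) * u ^ 12 = (tw11 D).Δ := by
      rw [← e1, e2]
      field_simp
    have e4 : W.Δ * u.num ^ 12 = -11 ^ 5 * D ^ 6 * (u.den : ℤ) ^ 12 := by
      have : (u.num : ℚ) = u * u.den := (Rat.mul_den_eq_num u).symm
      apply Int.cast_injective (α := ℚ)
      rw [disc] at e3
      push_cast at e3 ⊢
      rw [this, mul_pow, ← mul_assoc, e3]
    have e5 : u.num ^ 12 ∣ -11 ^ 5 * D ^ 6 :=
      (IsCoprime.pow (show IsCoprime u.num (u.den : ℤ) from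
        Int.isCoprime_iff_gcd_eq_one.2 u.reduced)).dvd_of_dvd_mul_right
        ⟨W.Δ, by rw [← e4, mul_comm]⟩
    have e6 : |u| ≤ 1 := by
      have h1 : |(u.num : ℚ)| = 1 := by
        rcases Int.isUnit_iff.1 (no12 hD e5) with h | h <;> simp [h]
      have h2 : (1 : ℚ) ≤ u.den := by exact_mod_cast u.pos
      rw [← Rat.num_div_den u, abs_div, h1, abs_of_pos (by linarith)]
      exact (div_le_one (by linarith)).2 h2
    rw [e1, ← e3, abs_mul, abs_pow]
    exact mul_le_of_le_one_right (abs_nonneg _) (pow_le_one₀ (abs_nonneg _) e6)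

/-- **RP** -/
theorem rp2 : RP := by
  intro m hm
  have m0 : (0 : ℝ) < m := by exact_mod_cast hm
  have e : ∀ x : ℝ, psi (tw11 (-m)) x = (m : ℝ) ^ 3 * -psi0 (-(m : ℝ)⁻¹ * x) := by
    intro x
    simp only [psi, psi0, tw11, b₂, b₄, b₆]
    push_cast
    field_simp
    ring
  have c0 : Continuous psi0 := by unfold psi0; fun_prop
  have c1 : Continuous (psi (tw11 (-m))) := by unfold psi; fun_prop
  have s0 : MeasurableSet {x : ℝ | psi0 x < 0} := (isOpen_lt c0 continuous_const).measurableSet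
  have s1 : MeasurableSet {x : ℝ | 0 < psi (tw11 (-m)) x} :=
    (isOpen_lt continuous_const c1).measurableSet
  have hs : √((m : ℝ) ^ 3) = m * √m := by
    rw [show (m : ℝ) ^ 3 = m ^ 2 * m by ring, Real.sqrt_mul (by positivity), Real.sqrt_sq m0.le]
  have hs0 : 0 < √(m : ℝ) := Real.sqrt_pos.2 m0
  unfold realPeriod Im0
  rw [← integral_indicator s0, ← integral_indicator s1]
  have key : ∀ x, {x : ℝ | 0 < psi (tw11 (-m)) x}.indicator (fun x => 2 / √(psi (tw11 (-m)) x)) x =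
      (m * √m)⁻¹ * {x : ℝ | psi0 x < 0}.indicator (fun x => 2 / √(-psi0 x)) (-(m : ℝ)⁻¹ * x) := by
    intro x
    by_cases h : psi0 (-(m : ℝ)⁻¹ * x) < 0
    · rw [Set.indicator_of_mem (show x ∈ {x : ℝ | 0 < psi (tw11 (-m)) x} from by
        rw [Set.mem_ofPred_eq, e]; exact mul_pos (by positivity) (by linarith)),
        Set.indicator_of_mem (show _ ∈ {x : ℝ | psi0 x < 0} from h), e,
        Real.sqrt_mul (by positivity), hs]
      ring
    · rw [Set.indicator_of_notMem (show x ∉ {x : ℝ | 0 < psi (tw11 (-m)) x} from by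
        rw [Set.mem_ofPred_eq, e, not_lt]
        exact mul_nonpos_of_nonneg_of_nonpos (by positivity) (by linarith [not_lt.1 h])),
        Set.indicator_of_notMem (show _ ∉ {x : ℝ | psi0 x < 0} from h), mul_zero]
  simp only [key]
  rw [integral_const_mul, Measure.integral_comp_mul_left
    (fun x => {x : ℝ | psi0 x < 0}.indicator (fun x => 2 / √(-psi0 x)) x), smul_eq_mul,
    inv_neg, inv_inv, abs_neg, abs_of_pos m0]
  field_simp

end Vale.Agent.P014Z
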