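import Vale.Agent.P014Z.An

/-!
# P014Z: minimality and the real period
-/

open WeierstrassCurve MeasureTheory
open Vale.Agent.P014

namespace Vale.Agent.P014Z

namespace Mr

theorem disc (D : ℤ) : (tw11 D).Δ = -((11 ^ 5 * D ^ 6 : ℤ) : ℚ) := by
  simp only [tw11, Δ, b₂, b₄, b₆, b₈]
  push_cast
  ring

theorem one {D a : ℤ} (hD : Squarefree D) (h : a ^ 12 ∣ 11 ^ 5 * D ^ 6) : a.natAbs = 1 := by
  by_contra hc
  obtain ⟨p, hp, hd⟩ := Nat.exists_prime_and_dvd hc
  have s : Squarefree D.natAbs := Int.squarefree_natAbs.2 hD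
  have h1 : p ^ 12 ∣ 11 ^ 5 * D.natAbs ^ 6 := by
    have := Int.natAbs_dvd_natAbs.2 h
    rw [Int.natAbs_pow, Int.natAbs_mul, Int.natAbs_pow, Int.natAbs_pow] at this
    exact (pow_dvd_pow_of_dvd hd 12).trans this
  have h0 := s.ne_zero
  rw [hp.pow_dvd_iff_le_factorization (by positivity),
    Nat.factorization_mul (by positivity) (by positivity), Nat.factorization_pow,
    Nat.factorization_pow] at h1
  have b1 := s.natFactorization_le_one p
  have b2 := (Nat.Prime.prime (by norm_num : Nat.Prime 11)).squarefree.natFactorization_le_one p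
  simp only [Finsupp.add_apply, Finsupp.smul_apply, smul_eq_mul] at h1
  omega

end Mr

theorem min3 : MIN := by
  intro D hD h4
  obtain ⟨k, hk⟩ : ∃ k, D = 4 * k + 1 := ⟨D / 4, by omega⟩
  refine ⟨⟨⟨⟨0, -D, 1, -10 * D ^ 2, -1264 * k ^ 3 - 948 * k ^ 2 - 237 * k - 20⟩, ?_⟩⟩,
    fun C ⟨⟨W, hW⟩⟩ => ?_⟩
  · subst hk
    ext <;> simp [tw11, baseChange]
    ring
  have e1 : (C • tw11 D).Δ = (W.Δ : ℚ) := by rw [hW, baseChange, map_Δ]; rfl
  have e2 := variableChange_Δ (tw11 D) C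
  set u : ℚ := (C.u : ℚ) with hu
  have u0 : u ≠ 0 := C.u.ne_zero
  have e3 : (tw11 D).Δ = u ^ 12 * (C • tw11 D).Δ := by
    rw [e2, Units.val_inv_eq_inv_val, ← hu]
    field_simp
  have d0 : (u.den : ℚ) ≠ 0 := by exact_mod_cast u.den_ne_zero
  have e4 : (u.den : ℤ) ^ 12 * (11 ^ 5 * D ^ 6) = u.num ^ 12 * -W.Δ := by
    have : (u.num : ℚ) = u * u.den := by rw [Rat.mul_den_eq_num]
    rw [Mr.disc, e1] at e3
    push_cast at e3
    have h : ((u.den : ℚ)) ^ 12 * (11 ^ 5 * D ^ 6) = (u.num : ℚ) ^ 12 * -W.Δ := by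
      rw [this]
      linear_combination (-(u.den : ℚ) ^ 12) * e3
    exact_mod_cast h
  have c : IsCoprime (u.num ^ 12) ((u.den : ℤ) ^ 12) := (Rat.isCoprime_num_den u).pow
  have a1 := Mr.one hD (c.dvd_of_dvd_mul_left (Dvd.intro _ e4.symm))
  have a2 : |u| ≤ 1 := by
    have a3 : |(u.num : ℚ)| = 1 := by
      rw [← Int.cast_abs, Int.abs_eq_natAbs, a1]; rfl
    have a4 : (1 : ℚ) ≤ u.den := by exact_mod_cast u.den_pos
    rw [← Rat.num_div_den u, abs_div, a3, abs_of_pos (by linarith : (0 : ℚ) < u.den)]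
    exact div_le_one_of_le₀ a4 (by linarith)
  rw [e3, abs_mul, abs_pow]
  exact mul_le_of_le_one_left (abs_nonneg _) (pow_le_one₀ (abs_nonneg _) a2)

theorem rp3 : RP := by
  intro m hm
  have m0 : (0 : ℝ) < m := by exact_mod_cast hm
  have s0 : (0 : ℝ) < √m := Real.sqrt_pos.2 m0
  have e : ∀ t : ℝ, psi (tw11 (-m)) (-m * t) = (m * √m) ^ 2 * -psi0 t := fun t => by
    rw [mul_pow, Real.sq_sqrt m0.le]
    simp only [psi, psi0, tw11, b₂, b₄, b₆]
    push_cast
    ring
  have c1 : Continuous (psi (tw11 (-m))) := by unfold psi; fun_prop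
  have c2 : Continuous psi0 := by unfold psi0; fun_prop
  have h := Measure.integral_comp_mul_left
    (Set.indicator {x : ℝ | 0 < psi (tw11 (-m)) x} fun x => 2 / √(psi (tw11 (-m)) x)) (-(m : ℝ))
  have e2 : (fun t : ℝ => Set.indicator {x : ℝ | 0 < psi (tw11 (-m)) x}
      (fun x => 2 / √(psi (tw11 (-m)) x)) (-(m : ℝ) * t)) = fun t =>
      (m * √m)⁻¹ * Set.indicator {x : ℝ | psi0 x < 0} (fun x => 2 / √(-psi0 x)) t := by
    funext t
    have p : (0 : ℝ) < (m * √m) ^ 2 := by positivity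
    by_cases ht : psi0 t < 0
    · rw [Set.indicator_of_mem (by rw [Set.mem_ofPred_eq, e]; nlinarith),
        Set.indicator_of_mem (by exact ht), e, Real.sqrt_mul p.le, Real.sqrt_sq (by positivity)]
      ring
    · rw [Set.indicator_of_notMem (by rw [Set.mem_ofPred_eq, e]; nlinarith [not_lt.1 ht]),
        Set.indicator_of_notMem (by exact ht), mul_zero]
  rw [e2, integral_const_mul, integral_indicator (isOpen_lt c2 continuous_const).measurableSet,
    integral_indicator (isOpen_lt continuous_const c1).measurableSet, smul_eq_mul, abs_inv, abs_neg,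
    abs_of_pos m0] at h
  unfold realPeriod Im0
  field_simp at h ⊢
  linear_combination -h

end Vale.Agent.P014Z
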