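import Vale.Agent.P014Z.Ser

/-!
# P014Z: the primitive of the cusp form and its periods
-/

open Complex Filter Topology
open scoped Real
open Vale.Agent.P004H.H204
open Vale.Agent.P004H.H792 (den_ne' im_ne Fc Fc_mob Fc_W hasSum_Fc a_zero)

set_option linter.all false

noncomputable section

namespace Vale.Agent.P014Z

open Ser

theorem prf : PRF := by
  have hs : ∀ z : ℂ, 0 < z.im → HasSum (fun n => (P004H.H792.a n : ℂ) * qq z ^ n) (Fc z) :=
    fun z hz => hasSum_Fc hz
  have hd : ∀ z : ℂ, 0 < z.im → HasDerivAt uF (2 * π * I * Fc z) z := fun z hz =>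
    ser_deriv a_zero hs hz
  refine ⟨prim_of hd (fun g z hz => ?_) (fun z hz => ?_) (fun ε hε => ?_) fun z _ => ?_, hd⟩
  · rw [G0.mob, Fc_mob g.det hz]; ring
  · rw [Fc_W hz]; ring
  · simp only [zero_mul, sub_zero]
    exact ser_inf hs ε hε
  · rw [one_mul]; exact ser_cj _ z

theorem ph : PH := by
  intro P κ C δ w h
  have hI : 0 < (I : ℂ).im := by simp
  have eT : ∀ z : ℂ, G0.T.mob z = z + 1 := fun z => by simp [G0.mob, G0.T]
  have hT : w G0.T = κ := by
    refine eq_of_forall_dist_le fun ε hε => ?_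
    obtain ⟨Y, hY⟩ := h.inf (ε / 2) (half_pos hε)
    have i1 : (((max Y 1 : ℝ) : ℂ) * I).im = max Y 1 := by simp
    have i2 : (((max Y 1 : ℝ) : ℂ) * I + 1).im = max Y 1 := by simp
    have a1 := hY _ (i1 ▸ le_max_left Y 1)
    have a2 := hY _ (i2 ▸ le_max_left Y 1)
    have a3 := h.mob G0.T _ (i1 ▸ lt_max_of_lt_right one_pos)
    rw [eT] at a3
    rw [a3] at a2
    have a4 := norm_sub_le_of_le a2 a1
    rw [dist_eq_norm, ← add_halves ε]
    refine le_trans (le_of_eq ?_) a4
    congr 1
    ring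
  refine ⟨fun g k => ?_, hT, ?_, ?_, fun g => ?_⟩
  · have a1 := h.mob (g.mul k) I hI
    rw [mob_mul g k hI, h.mob g _ (mob_pos k hI), h.mob k I hI] at a1
    linear_combination -a1
  · have i1 : 0 < (-1 / (11 * I) - 1 : ℂ).im := by
      rw [sub_im, one_im, sub_zero]; exact W_pos hI
    have a1 := h.mob G0.T _ i1
    have a2 := h.W _ i1
    have a3 := h.W I hI
    have a4 := h.mob G0.U I hI
    have e : G0.U.mob I = -1 / (11 * (-1 / (11 * I) - 1)) := by
      have d1 := den_ne' G0.U.det hI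
      have d2 := mul_ne_zero (by norm_num : (11 : ℂ) ≠ 0) (im_ne i1)
      rw [G0.mob, div_eq_div_iff d1 d2]
      simp only [G0.U]
      push_cast
      field_simp
      ring
    rw [eT, sub_add_cancel, hT] at a1
    rw [e] at a4
    linear_combination a2 - a4 + a1 - a3
  · have a1 := h.mob G0.N I hI
    have e : G0.N.mob I = I := by simp [G0.mob, G0.N]
    rw [e] at a1
    linear_combination -a1
  · have a1 := h.mob g.bar (-(starRingEnd ℂ) I) (by simp)
    rw [mob_bar, h.cj _ (mob_pos g hI), h.cj I hI, h.mob g I hI, map_add] at a1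
    linear_combination -a1

end Vale.Agent.P014Z
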