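import Vale.Agent.P014Z.An

/-!
# P014Z: primitives of `q`-series
-/

open Complex Filter Topology
open scoped Real
open Vale.Agent.P004H.H204
open Vale.Agent.P004H.H792 (den_ne' im_ne)

set_option linter.all false

noncomputable section

namespace Vale.Agent.P014Z

namespace Ser

/-- the series with coefficients `c n / n` -/
def ser (c : ℕ → ℤ) (z : ℂ) : ℂ := ∑' n : ℕ, (c n : ℂ) / n * qq z ^ n

/-- the power series with coefficients `c n / n` -/
def ps (c : ℕ → ℤ) : PowerSeries ℂ := PowerSeries.mk fun n => (c n : ℂ) / n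

theorem ser_eq (c : ℕ → ℤ) (z : ℂ) : ser c z = ev (ps c) (qq z) := by
  simp only [ser, ev, ps, PowerSeries.coeff_mk]

variable {c : ℕ → ℤ} {F : ℂ → ℂ}

theorem conv_ps (h : Conv (cs c)) : Conv (ps c) := fun r h0 h1 => by
  refine Summable.of_nonneg_of_le (fun n => by positivity) (fun n => ?_) (h r h0 h1)
  refine mul_le_mul_of_nonneg_right ?_ (by positivity)
  rw [ps, PowerSeries.coeff_mk, coeff_cs, norm_div, Complex.norm_natCast]
  rcases Nat.eq_zero_or_pos n with rfl | hn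
  · simp
  · exact div_le_self (norm_nonneg _) (by exact_mod_cast hn)

theorem conv_cs (h : ∀ z : ℂ, 0 < z.im → HasSum (fun n => (c n : ℂ) * qq z ^ n) (F z)) :
    Conv (cs c) := conv_of fun z hz => by simpa [coeff_cs] using (h z hz).summable

theorem th_ps (h0 : c 0 = 0) : th (ps c) = cs c := by
  ext n
  rw [coeff_th, ps, PowerSeries.coeff_mk, coeff_cs]
  rcases Nat.eq_zero_or_pos n with rfl | hn
  · simp [h0]
  · have : (n : ℂ) ≠ 0 := by exact_mod_cast hn.ne'
    field_simp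

theorem ser_summable (h : ∀ z : ℂ, 0 < z.im → HasSum (fun n => (c n : ℂ) * qq z ^ n) (F z))
    {z : ℂ} (hz : 0 < z.im) : Summable fun n : ℕ => (c n : ℂ) / n * qq z ^ n := by
  simpa only [ps, PowerSeries.coeff_mk] using (conv_ps (conv_cs h)).summable (norm_qq_lt hz)

theorem ser_deriv (h0 : c 0 = 0)
    (h : ∀ z : ℂ, 0 < z.im → HasSum (fun n => (c n : ℂ) * qq z ^ n) (F z)) {z : ℂ}
    (hz : 0 < z.im) : HasDerivAt (ser c) (2 * π * I * F z) z := by
  have h1 := (conv_ps (conv_cs h)).hasDerivAt hz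
  have e : ev (cs c) (qq z) = F z := by
    simp only [ev, coeff_cs]
    exact (h z hz).tsum_eq
  rw [th_ps h0, e] at h1
  rw [funext (ser_eq c)]
  exact h1

theorem ser_inf (h : ∀ z : ℂ, 0 < z.im → HasSum (fun n => (c n : ℂ) * qq z ^ n) (F z))
    (ε : ℝ) (hε : 0 < ε) : ∃ Y : ℝ, ∀ z : ℂ, Y ≤ z.im → ‖ser c z‖ ≤ ε := by
  have h1 := (conv_ps (conv_cs h)).tendsto
  have e : PowerSeries.constantCoeff (ps c) = 0 := by
    rw [← PowerSeries.coeff_zero_eq_constantCoeff_apply, ps, PowerSeries.coeff_mk]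
    simp
  rw [e] at h1
  obtain ⟨δ, hδ, h2⟩ := Metric.tendsto_nhds_nhds.1 h1 ε hε
  have h3 : Tendsto (fun y : ℝ => Real.exp (-(2 * π * y))) atTop (𝓝 0) :=
    Real.tendsto_exp_neg_atTop_nhds_zero.comp (tendsto_id.const_mul_atTop (by positivity))
  obtain ⟨Y, hY⟩ := eventually_atTop.1 (h3.eventually (gt_mem_nhds hδ))
  refine ⟨Y, fun z hz => ?_⟩
  have h4 := h2 (x := qq z) (by rw [dist_zero_right, norm_qq]; exact hY _ hz)
  rw [dist_zero_right] at h4
  rw [ser_eq]
  exact h4.le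

theorem qq_cj (z : ℂ) : qq (-(starRingEnd ℂ) z) = (starRingEnd ℂ) (qq z) := by
  rw [qq, qq, ← Complex.exp_conj]
  congr 1
  simp [map_ofNat]

theorem ser_cj (c : ℕ → ℤ) (z : ℂ) : ser c (-(starRingEnd ℂ) z) = (starRingEnd ℂ) (ser c z) := by
  rw [ser, ser, Complex.conj_tsum]
  refine tsum_congr fun n => ?_
  rw [qq_cj]
  simp

theorem const_of {f : ℂ → ℂ} (h : ∀ z : ℂ, 0 < z.im → HasDerivAt f 0 z) :
    ∃ C, ∀ z : ℂ, 0 < z.im → f z = C :=
  ⟨f I, fun z hz => (isOpen_lt continuous_const Complex.continuous_im).is_const_of_deriv_eq_zero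
    (s := {w : ℂ | 0 < w.im}) (convex_halfSpace_im_gt 0).isPreconnected
    (fun w hw => (h w hw).differentiableAt.differentiableWithinAt)
    (fun w hw => (h w hw).deriv) hz (by simp)⟩

theorem mob_pos (g : G0) {z : ℂ} (hz : 0 < z.im) : 0 < (g.mob z).im := mob_im g.det hz

theorem W_pos {z : ℂ} (hz : 0 < z.im) : 0 < (-1 / (11 * z)).im := by
  have h := mob_im (a := 0) (b := -1) (c := 1) (d := 0) (by norm_num) (P004H.H792.im11 hz)
  simpa using h

theorem W_deriv {z : ℂ} (hz : 0 < z.im) :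
    HasDerivAt (fun w : ℂ => -1 / (11 * w)) (1 / (11 * z ^ 2)) z := by
  have h0 := im_ne hz
  have h4 : HasDerivAt (fun w : ℂ => 11 * w) 11 z := by
    simpa using (hasDerivAt_id z).const_mul (11 : ℂ)
  refine ((hasDerivAt_const z (-1 : ℂ)).div h4 (mul_ne_zero (by norm_num) h0)).congr_deriv ?_
  field_simp
  ring

/-- a primitive of a form of weight two has periods -/
theorem prim_of {P : ℂ → ℂ} {κ δ : ℂ} (hd : ∀ z : ℂ, 0 < z.im → HasDerivAt P (F z) z)
    (hm : ∀ (g : G0) (z : ℂ), 0 < z.im → F (g.mob z) = ((11 * g.c : ℤ) * z + g.d) ^ 2 * F z)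
    (hW : ∀ z : ℂ, 0 < z.im → F (-1 / (11 * z)) = -11 * z ^ 2 * F z)
    (inf : ∀ ε : ℝ, 0 < ε → ∃ Y : ℝ, ∀ z : ℂ, Y ≤ z.im → ‖P z - κ * z‖ ≤ ε)
    (cj : ∀ z : ℂ, 0 < z.im → P (-(starRingEnd ℂ) z) = δ * (starRingEnd ℂ) (P z)) :
    ∃ C w, Prim P κ C δ w := by
  have h1 : ∀ g : G0, ∃ w, ∀ z : ℂ, 0 < z.im → P (g.mob z) - P z = w := fun g =>
    const_of fun z hz => by
      refine (((hd _ (mob_pos g hz)).comp z (mob_deriv g.det hz)).sub (hd z hz)).congr_deriv ?_
      have := den_ne' g.det hz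
      rw [hm g z hz]
      field_simp
      ring
  obtain ⟨C, hC⟩ : ∃ C, ∀ z : ℂ, 0 < z.im → P (-1 / (11 * z)) + P z = C :=
    const_of fun z hz => by
      refine (((hd _ (W_pos hz)).comp z (W_deriv hz)).add (hd z hz)).congr_deriv ?_
      have := im_ne hz
      rw [hW z hz]
      field_simp
      ring
  choose w hw using h1
  exact ⟨C, w, fun g z hz => by rw [← hw g z hz]; ring, fun z hz => by rw [← hC z hz]; ring,
    inf, cj⟩

theorem mob_mul (g h : G0) {z : ℂ} (hz : 0 < z.im) : (g.mul h).mob z = g.mob (h.mob z) := by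
  have h1 := den_ne' h.det hz
  have h2 := den_ne' g.det (mob_pos h hz)
  have h3 := den_ne' (g.mul h).det hz
  rw [G0.mob, G0.mob, div_eq_div_iff h3 h2]
  simp only [G0.mob, G0.mul]
  push_cast at h1 ⊢
  field_simp
  ring

theorem mob_bar (g : G0) (z : ℂ) :
    g.bar.mob (-(starRingEnd ℂ) z) = -(starRingEnd ℂ) (g.mob z) := by
  simp only [G0.mob, G0.bar, map_div₀, map_add, map_mul, map_intCast, ← neg_div]
  push_cast
  congr 1 <;> ring

end Ser

end Vale.Agent.P014Z
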