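import Vale.Agent.P014.Defs

/-!
# The quadratic twists of `X_0(11)`
-/

namespace Vale.Agent.P014Z

/-- The quadratic twist by `D` of the curve `11a1 = X_0(11) : y² + y = x³ - x² - 10 x - 20`:
`(2 y + 1)² = 4 x³ - 4 D x² - 40 D² x - 79 D³`. -/
def tw11 (D : ℤ) : WeierstrassCurve ℚ where
  a₁ := 0
  a₂ := -D
  a₃ := 1
  a₄ := -10 * D ^ 2
  a₆ := (-79 * D ^ 3 - 1) / 4

end Vale.Agent.P014Z
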